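import Vale.Agent.P180.H392.Def
import Vale.Agent.P180.R2.H47.AcW

/-!
P180: the class of special linear groups of unbounded dimension is inherited by central quotients.
-/

set_option linter.all false

namespace Vale.Agent.P180.H392

open Module Vale.Agent.P180 Vale.Agent.P180.R2 Vale.Agent.P180.R2.H365 Vale.Agent.P180.R2.H47

theorem suppOn_mono {p m : ℕ} {K E : Type} [Field K] [AddCommGroup E] [Module K E] {L L' : Type}
    [Group L] [Group L'] {π : SpecialLinearGroup K E →* L} {π' : SpecialLinearGroup K E →* L'}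
    {A : Subgroup L} {A' : Subgroup L'} (h : OverA p π' A' ⊆ OverA p π A) (hA : SuppOn p m π A) :
    SuppOn p m π' A' := by
  obtain ⟨h1, W, h2, h3, h4⟩ := hA
  have h5 : {u : E →ₗ[K] E | ∃ x ∈ OverA p π' A', u = (x.toLinearEquiv : E →ₗ[K] E)} ⊆
      {u | ∃ x ∈ OverA p π A, u = (x.toLinearEquiv : E →ₗ[K] E)} := by
    rintro _ ⟨x, hx, rfl⟩
    exact ⟨x, h hx, rfl⟩
  exact ⟨fun x hx y hy => h1 x (h hx) y (h hy), W, h2, fun g hg => h3 g (h5 hg),
    fun x hx => h4 x (Submodule.span_mono h5 hx)⟩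

theorem aw_unb {p m : ℕ} [Fact p.Prime] : AW p (LinUnb p m) where
  map := by
    intro S S' _ _ _ _ f hf hker hS Γ Γ' A hA hΓ h
    obtain ⟨K, _, _, d, π, hd, hpK, hp1, hπ, hk, hin, hA2⟩ := h
    refine ⟨K, inferInstance, inferInstance, d, f.comp π, hd, hpK, hp1, hf.comp hπ, ?_, ?_, ?_⟩
    · intro x hx
      refine center_of_quot π hπ hk hS ?_
      rw [Subgroup.mem_center_iff]
      exact fun y => (hker (π x) hx y).symm
    · rcases hin with hin | hin
      · left
        intro α' hα'
        obtain ⟨α, hα, h5⟩ := hΓ α' hα'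
        obtain ⟨x, rfl⟩ := hin hα
        refine ⟨f x, ?_⟩
        ext s'
        obtain ⟨s, rfl⟩ := hf s'
        rw [← h5, MulAut.conj_apply, MulAut.conj_apply, map_mul, map_mul, map_inv]
      · exact Or.inr hin
    · refine suppOn_mono ?_ hA2
      rintro x ⟨⟨i, hi⟩, a, ha, hax⟩
      refine ⟨⟨i, hi⟩, ?_⟩
      have hax : f a = f (π x) := hax
      -- the difference is central
      obtain ⟨z, hz⟩ : ∃ z, z = a⁻¹ * π x := ⟨_, rfl⟩
      have hfz : f z = 1 := by rw [hz, map_mul, map_inv, hax, inv_mul_cancel]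
      have hzc : ∀ y, z * y = y * z := hker z hfz
      have hzC : z ∈ Subgroup.center S := Subgroup.mem_center_iff.mpr fun y => (hzc y).symm
      have hx : π x = a * z := by rw [hz, mul_inv_cancel_left]
      obtain ⟨l, hl⟩ := hA ⟨a, ha⟩
      have hl : a ^ p ^ l = 1 := congrArg Subtype.val hl
      have h1 : z ^ p ^ (i + l) = 1 := by
        have h2 : (π x) ^ p ^ (i + l) = 1 := by
          rw [← map_pow, pow_add, pow_mul, hi, one_pow, map_one]
        have h3 : a ^ p ^ (i + l) = 1 := by
          rw [add_comm, pow_add, pow_mul, hl, one_pow]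
        have h4 : Commute a z := (hzc a).symm
        rw [hx, h4.mul_pow, h3, one_mul] at h2
        exact h2
      obtain ⟨y, hy⟩ := hπ z
      have hyC : y ∈ Subgroup.center (SpecialLinearGroup K (Fin d → K)) :=
        center_of_quot π hπ hk hS (by rw [hy]; exact hzC)
      have h2 : z ^ (Nat.card K - 1) = 1 := by
        rw [← hy, ← map_pow, PairP.orderOf_center_dvd hyC, map_one]
      have h3 : z = 1 := by
        have h4 : Nat.Coprime (p ^ (i + l)) (Nat.card K - 1) :=
          Nat.Coprime.pow_left _ ((Nat.Prime.coprime_iff_not_dvd Fact.out).mpr hp1)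
        have h5 := Nat.dvd_gcd (orderOf_dvd_of_pow_eq_one h1) (orderOf_dvd_of_pow_eq_one h2)
        rw [h4, Nat.dvd_one] at h5
        exact orderOf_eq_one_iff.mp h5
      rw [hx, h3, mul_one]
      exact ha
  sub := by
    intro S _ _ Γ A A' hA h
    obtain ⟨K, _, _, d, π, hd, hpK, hp1, hπ, hk, hin, hA2⟩ := h
    exact ⟨K, inferInstance, inferInstance, d, π, hd, hpK, hp1, hπ, hk, hin,
      suppOn_mono (fun x hx => ⟨hx.1, hA hx.2⟩) hA2⟩

end Vale.Agent.P180.H392
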