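import Vale.Agent.P180.H392.DefB
import Vale.Agent.P180.R2.H47.AcW

/-!
P180: the class of special linear groups is inherited by central quotients.
-/

set_option linter.all false

namespace Vale.Agent.P180.H392

open Module Vale.Agent.P180 Vale.Agent.P180.R2 Vale.Agent.P180.R2.H365 Vale.Agent.P180.R2.H47

theorem aw_ab {p : ℕ} [Fact p.Prime] : AW p (LinAb p) where
  map := by
    intro S S' _ _ _ _ f hf hker hS Γ Γ' A hA hΓ h
    obtain ⟨K, _, _, d, hd, hpK, hld, ⟨π, hπ, hk⟩, h⟩ := h
    refine ⟨K, inferInstance, inferInstance, d, hd, hpK, hld, ⟨f.comp π, hf.comp hπ, ?_⟩, ?_⟩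
    · intro x hx
      refine center_of_quot π hπ hk hS ?_
      rw [Subgroup.mem_center_iff]
      exact fun y => (hker (π x) hx y).symm
    · rcases h with hc | ⟨hin, hA2⟩
      · exact Or.inl ((aw_cen (p := p)).map f hf hker hS Γ Γ' A hA hΓ hc)
      refine Or.inr ⟨?_, ?_⟩
      · rcases hin with hin | hin | he
        · left
          intro α' hα'
          obtain ⟨α, hα, h5⟩ := hΓ α' hα'
          obtain ⟨x, rfl⟩ := hin hα
          refine ⟨f x, ?_⟩
          ext s'
          obtain ⟨s, rfl⟩ := hf s'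
          rw [← h5, MulAut.conj_apply, MulAut.conj_apply, map_mul, map_mul, map_inv]
        · exact Or.inr (Or.inl hin)
        · exact Or.inr (Or.inr ((aw_exp (p := p)).map f hf hker hS Γ Γ' A hA hΓ he))
      · rcases hA2 with hA2 | hs
        · left
          rintro _ ⟨x, hx, rfl⟩ _ ⟨y, hy, rfl⟩
          rw [← map_mul, ← map_mul, hA2 x hx y hy]
        · exact Or.inr ((aw_small (p := p)).map f hf hker hS Γ Γ' A hA hΓ hs)
  sub := by
    intro S _ _ Γ A A' hA h
    obtain ⟨K, _, _, d, hd, hpK, hld, hL, h⟩ := h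
    refine ⟨K, inferInstance, inferInstance, d, hd, hpK, hld, hL, ?_⟩
    rcases h with hc | ⟨hin, hA2⟩
    · exact Or.inl ((aw_cen (p := p)).sub hA hc)
    · exact Or.inr ⟨hin.imp_right (Or.imp_right fun he y hy => he y (hA hy)),
        hA2.imp (fun hA2 x hx y hy => hA2 x (hA hx) y (hA hy))
          fun hs => (aw_small (p := p)).sub (Γ := Γ) hA hs⟩

end Vale.Agent.P180.H392
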