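import Vale.Agent.P180.H392.DefC
import Vale.Agent.P180.R2.H47.AcW

/-!
P180: the classes of special linear groups and isometry groups are inherited by central quotients.
-/

set_option linter.all false

namespace Vale.Agent.P180.H392

open Module Vale.Agent.P180 Vale.Agent.P180.R2 Vale.Agent.P180.R2.H365 Vale.Agent.P180.R2.H47

theorem ext_map {p : ℕ} [Fact p.Prime] {K : Type} [Field K] {S S' : Type} [Group S] [Finite S]
    [Group S'] [Finite S'] (f : S →* S') (hf : Function.Surjective f)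
    (hker : ∀ x, f x = 1 → ∀ y, x * y = y * x) (hS : commutator S = ⊤)
    (Γ : Subgroup (MulAut S)) (Γ' : Subgroup (MulAut S')) (A : Subgroup S) (hA : IsPGroup p A)
    (hΓ : ∀ α' ∈ Γ', ∃ α ∈ Γ, ∀ s, f (α s) = α' (f s)) (h : ExtOn p K S Γ A) :
    ExtOn p K S' Γ' (A.map f) := by
  rcases h with hc | ⟨hin, hA2⟩
  · exact Or.inl ((aw_cen (p := p)).map f hf hker hS Γ Γ' A hA hΓ hc)
  refine Or.inr ⟨?_, ?_⟩
  · rcases hin with hin | hin | he
    · left
      intro α' hα'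
      obtain ⟨α, hα, h5⟩ := hΓ α' hα'
      obtain ⟨x, rfl⟩ := hin hα
      refine ⟨f x, ?_⟩
      ext s'
      obtain ⟨s, rfl⟩ := hf s'
      rw [← h5, MulAut.conj_apply, MulAut.conj_apply, map_mul, map_mul, map_inv]
    · exact Or.inr (Or.inl hin)
    · exact Or.inr (Or.inr ((aw_exp (p := p)).map f hf hker hS Γ Γ' A hA hΓ he))
  · rcases hA2 with hA2 | hs
    · left
      rintro _ ⟨x, hx, rfl⟩ _ ⟨y, hy, rfl⟩
      rw [← map_mul, ← map_mul, hA2 x hx y hy]
    · exact Or.inr ((aw_small (p := p)).map f hf hker hS Γ Γ' A hA hΓ hs)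

theorem ext_sub {p : ℕ} [Fact p.Prime] {K : Type} [Field K] {S : Type} [Group S] [Finite S]
    {Γ : Subgroup (MulAut S)} {A A' : Subgroup S} (hA : A' ≤ A) (h : ExtOn p K S Γ A) :
    ExtOn p K S Γ A' := by
  rcases h with hc | ⟨hin, hA2⟩
  · exact Or.inl ((aw_cen (p := p)).sub hA hc)
  · exact Or.inr ⟨hin.imp_right (Or.imp_right fun he y hy => he y (hA hy)),
      hA2.imp (fun hA2 x hx y hy => hA2 x (hA hx) y (hA hy))
        fun hs => (aw_small (p := p)).sub (Γ := Γ) hA hs⟩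

theorem aw_lin {p : ℕ} [Fact p.Prime] : AW p (LinCls p) where
  map := by
    intro S S' _ _ _ _ f hf hker hS Γ Γ' A hA hΓ h
    obtain ⟨K, _, _, d, hd, hpK, hld, ⟨π, hπ, hk⟩, h⟩ := h
    refine ⟨K, inferInstance, inferInstance, d, hd, hpK, hld, ⟨f.comp π, hf.comp hπ, ?_⟩,
      ext_map f hf hker hS Γ Γ' A hA hΓ h⟩
    intro x hx
    refine center_of_quot π hπ hk hS ?_
    rw [Subgroup.mem_center_iff]
    exact fun y => (hker (π x) hx y).symm
  sub := by
    intro S _ _ Γ A A' hA h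
    obtain ⟨K, _, _, d, hd, hpK, hld, hL, h⟩ := h
    exact ⟨K, inferInstance, inferInstance, d, hd, hpK, hld, hL, ext_sub hA h⟩

theorem aw_iso {p : ℕ} [Fact p.Prime] : AW p (IsoCls p) where
  map := by
    intro S S' _ _ _ _ f hf hker hS Γ Γ' A hA hΓ h
    obtain ⟨K, iK, fK, d, hd, B, θ, X, π, h1, ⟨h2, h3, h5⟩, h6, h7⟩ := h
    refine ⟨K, iK, fK, d, hd, B, θ, X, f.comp π, h1, ⟨hf.comp h2, ?_, ?_⟩, h6,
      h7.imp_right fun h => ⟨ext_map f hf hker hS Γ Γ' A hA hΓ h.1, h.2⟩⟩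
    · exact fun x hx => h3 x (PairP.center_of_map f hker hS hx)
    · intro α' hα'
      obtain ⟨α, hα, h7⟩ := hΓ α' hα'
      obtain ⟨σ, c, g, g1, g2, g3, g4, g5⟩ := h5 α hα
      refine ⟨σ, c, g, g1, g2, g3, g4, fun x => ?_⟩
      obtain ⟨y, hy, hy'⟩ := g5 x
      refine ⟨y, hy, ?_⟩
      change α' (f (π x)) = f (π y)
      rw [← h7, hy']
  sub := by
    intro S _ _ Γ A A' hA h
    obtain ⟨K, iK, fK, d, hd, B, θ, X, π, h1, h2, h6, h7⟩ := h
    exact ⟨K, iK, fK, d, hd, B, θ, X, π, h1, h2, h6, h7.imp_right fun h => ⟨ext_sub hA h.1, h.2⟩⟩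

/-- the union of two classes -/
theorem aw_or {p : ℕ} {W W' : ∀ (S : Type) [Group S], Subgroup (MulAut S) → Subgroup S → Prop}
    (h : AW p W) (h' : AW p W') : AW p (fun S _ Γ A => W S Γ A ∨ W' S Γ A) where
  map := by
    intro S S' _ _ _ _ f hf hker hS Γ Γ' A hA hΓ h1
    exact h1.imp (h.map f hf hker hS Γ Γ' A hA hΓ) (h'.map f hf hker hS Γ Γ' A hA hΓ)
  sub := by
    intro S _ _ Γ A A' hA h1
    exact h1.imp (h.sub hA) (h'.sub hA)

end Vale.Agent.P180.H392
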