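import Vale.Agent.P180.R2.H365.LocY
import Vale.Agent.P180.R2.H47.AcW

/-!
P180: the components which are not exceptional (from the proof of `locY`).
-/

set_option linter.all false

namespace Vale.Agent.P180.H392

open Vale.Agent.P180 Vale.Agent.P180.R2 Vale.Agent.P180.R2.H365 Vale.Agent.P180.H768.Gd
  Vale.Agent.P180.R2.H47 Vale.Agent.P180.R2.H954 Vale.Agent.P180.R2.H667
open Vale.Agent.P180.R2.H799 (NN)
open Vale.Agent.P180.H768 hiding pull mem_pull exists_factor Lay mk_mem comm_mem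

open scoped Nat

universe u

/-- the components which are not exceptional -/
theorem cls_x {p n m : ℕ} [Fact p.Prime] {k : Type u} [Field k] [IsAlgClosed k] [CharP k p]
    {G : Type} [Group G] [Finite G] {Z D : Subgroup G} {a b : MonoidAlgebra k G}
    (hs : Rs p n Z D a b) (hD : IsDefectGroupR b D) {L : Subgroup G} (hL : IsComponent L)
    (hp : p ∣ Nat.card (L ⧸ Subgroup.center L))
    (hr : ∃ x ∈ D, x ∈ L ∧ ¬ ∀ y ∈ L, x * y = y * x) (hE : ¬ ExcX p n m k G b D L) :
    Nat.card (L ⧸ Subgroup.center L) ≤ mY p n m ∨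
      (IsLocalChar p n (L ⧸ Subgroup.center L) ∧
        (p = 2 ∨ ∀ P : Sylow p (L ⧸ Subgroup.center L), n < Nat.card P)) ∨
      (((L ⊔ Subgroup.centralizer (L : Set G)).relIndex (Subgroup.normalizer (L : Set G)) ≤
          max m 2 ∨ SolvOut L) ∧ CorP p (cY p n m) b D L) := by
  have f1 : max m 2520 ≤ mY p n m := le_max_left _ _
  have f2 : H259.Loc.bZ n ≤ mY p n m :=
    (le_max_left _ _).trans ((le_max_right _ _).trans (le_max_right _ _))
  have hbF : b ∈ Fix (cj k G) ⊤ := (isBlock_iff.mp hs.hb).mem.2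
  have hbr : br D b ≠ 0 := br_of_defect hs.hb hs.ha hs.hba hD
  by_cases hcv : Covered (CenOn p L (Gam D L) (D.subgroupOf L)) (ExpOn p L (D.subgroupOf L))
      (SmallOn p L (D.subgroupOf L)) p n m (L ⧸ Subgroup.center L)
  · rcases hcv with h | ⟨d, ⟨iso⟩⟩ | h | h | ⟨K, _, _, d, ⟨h, hd⟩ | ⟨θ, h, hpK, hlin, hd⟩⟩
    · exact Or.inl (h.trans ((le_max_left _ _).trans f1))
    · by_cases hd : d < 8
      · left
        refine le_trans ?_ ((le_max_right _ _).trans f1)
        refine le_trans ?_ (H589.card_alt_lt_eight hd)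
        exact (Nat.card_congr iso.toEquiv).le
      · right
        right
        refine ⟨Or.inl ((H589.out_ext' (by omega) hL.1.1 iso).trans (le_max_right _ _)), ?_⟩
        exact (H589.corP_ext (n := n) (by omega) hL.1.1 iso hs.Dp hs.Dn b).mono
          (((le_max_right _ _).trans (le_max_left _ _)).trans cY0_le)
    · rcases Y.classIn_imp h with h | h
      · obtain ⟨h1, h2 | h2⟩ := H259.Loc.lc_classical h hp n
        · exact Or.inl (h2.trans f2)
        · exact Or.inr (Or.inl ⟨h1, Or.inr h2⟩)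
      · obtain ⟨h1, h2 | h2⟩ := H259.Loc.lc_orth h hp n
        · exact Or.inl (h2.trans f2)
        · exact Or.inr (Or.inl ⟨h1, Or.inr h2⟩)
    · exact Or.inr (Or.inl h)
    · rcases lin_case (m := m) hs.Dp hs.Dn hs.hb hs.ha hs.hba hD hL.1.1 hr h hd with h1 | h1 | h1
      · exact Or.inl h1
      · exact Or.inr (Or.inl ⟨h1.1, Or.inr h1.2⟩)
      · exact Or.inr (Or.inr ⟨Or.inr h1.1, h1.2⟩)
    · rcases h.elim (fun h => form_case (m := m) (b := b) hs.Dp hs.Dn hL.1.1 hr hbF hbr h hpK hlin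
        hd) (fun h => orth_case (n := n) hs.Dp hs.Dn hL.1.1 h hpK hlin hd) with h1 | h1
      · exact Or.inl h1
      · exact Or.inr (Or.inr ⟨Or.inr h1.1, h1.2⟩)
  right
  right
  by_cases ho : (L ⊔ Subgroup.centralizer (L : Set G)).relIndex
      (Subgroup.normalizer (L : Set G)) ≤ m ∨ SolvOut L
  · refine ⟨ho.imp_left fun h => h.trans (le_max_left _ _), ?_⟩
    by_cases hss : HasSmallSource m b D L
    · exact (corP_of_small hs.hb.ne_zero hs.Dp hss).mono
        (((le_max_left _ _).trans (le_max_left _ _)).trans cY0_le)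
    by_cases hy : CycLev (D ⊓ Subgroup.normalizer (L : Set G)) L
    · exact corP_cyc_on hs.Dp hs.Dn hy b
    by_cases hk : TameAct p m L (Gam D L) (D.subgroupOf L)
    · exact corP_act hs.Dp hs.Dn hk hr hbF hbr
    · exact absurd ⟨hcv, Or.inr ⟨hss, hy, hk⟩⟩ hE
  · push Not at ho
    exact absurd ⟨hcv, Or.inl ⟨ho.2, ho.1⟩⟩ hE

end Vale.Agent.P180.H392
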