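import Vale.Agent.P180.H392.Sl
import Vale.Agent.P180.R2.H365.InnB
import Vale.Agent.P180.R2.H365.OcC

/-!
P180: the corner property of the components in the class of special linear groups of unbounded
dimension.
-/

set_option linter.all false

namespace Vale.Agent.P180.H392

open Module Vale.Agent.P180 Vale.Agent.P180.H768.Gd Vale.Agent.P180.R2.H471.Hc Vale.Agent.P180.R2
  Vale.Agent.P180.R2.H365

universe u

theorem ne_two {p q : ℕ} (h1 : ¬ p ∣ q) (h2 : ¬ p ∣ q - 1) (hq : 0 < q) : p ≠ 2 := by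
  rintro rfl
  rcases Nat.even_or_odd q with h | h
  · exact h1 h.two_dvd
  · exact h2 (Nat.Odd.sub_odd h odd_one).two_dvd

/-- The corner property. -/
theorem corP_unb {k : Type u} [Field k] [IsAlgClosed k] {p : ℕ} [Fact p.Prime] [CharP k p]
    {B : ℕ → ℕ → ℕ → ℕ} (hGL : GLStmt.{u} B) {n m : ℕ} {G : Type} [Group G] [Finite G]
    {D L : Subgroup G} (hD : IsPGroup p D) (hDn : Nat.card D ≤ n)
    (h : LinUnb p m L (Gam D L) (D.subgroupOf L)) (b : MonoidAlgebra k G) :
    CorP p (n.factorial * B p m n) b D L := by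
  obtain ⟨K, _, _, d, π, hd, hpK, hp1, hπ, hk, hin, hA⟩ := h
  have hfin : Finite (SpecialLinearGroup K (Fin d → K)) := H799.BN.finite_sl
  have hp2 : p ≠ 2 := ne_two hpK hp1 Nat.card_pos
  have hin' : D ⊓ Subgroup.normalizer (L : Set G) ≤ L ⊔ Subgroup.centralizer (L : Set G) := by
    rcases hin with h | h
    · exact Oc.sup_of_Gam h
    · rintro r ⟨hrD, hrN⟩
      obtain ⟨i, hi⟩ := hD ⟨r, hrD⟩
      have hi : r ^ p ^ i = 1 := congrArg Subtype.val hi
      exact Inn.inn_of_noaut hp2 hd (fun h2 => hp1 (h2.trans (Nat.gcd_dvd_right _ _))) h hπ hk hrN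
        hi
  refine corP_of_one hD hin' (fun Q hQ => ?_) b
  have hQp : IsPGroup p Q := (hD.comap_of_injective L.subtype L.subtype_injective).to_le hQ
  have hQn : Nat.card Q ≤ n := by
    refine le_trans ?_ hDn
    refine (Nat.card_le_card_of_injective
      (fun x : Q => (⟨((x : L) : G), hQ x.2⟩ : D)) ?_)
    intro x y hxy
    have h' : ((x : L) : G) = ((y : L) : G) := congrArg (fun w : D => (w : G)) hxy
    exact Subtype.ext (Subtype.ext h')
  exact oneBd_of_sl (n := n) (m := m) hp1 hπ hk hA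
    (fun Q hQ hQn hab hW => oneBd_sl hGL hpK hp1 hQ hQn hab hW) hQ hQp hQn

end Vale.Agent.P180.H392
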