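import Vale.Agent.P180.H392.Def
import Vale.Agent.P180.R2.H589.Bt.Out3
import Vale.Agent.P180.R2.H589.Sec

/-!
P180: the outer automorphisms of the components in the class of special linear groups of unbounded
dimension.
-/

set_option linter.all false

namespace Vale.Agent.P180.H392

open Module Subgroup Vale.Agent.P180 Vale.Agent.P180.R2 Vale.Agent.P180.R2.H365
open scoped commutatorElement

theorem solv_of_sl {K : Type} [Field K] [Finite K] {d : ℕ} (hd : 3 ≤ d) {G : Type} [Group G]
    [Finite G] {L : Subgroup G} (hL : commutator L = ⊤)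
    {π : _root_.SpecialLinearGroup K (Fin d → K) →* L} (hπ : Function.Surjective π)
    (hk : ∀ x, π x ∈ center L → x ∈ center _) : SolvOut L := by
  obtain ⟨n, rfl⟩ : ∃ n, d = n + 1 := ⟨d - 1, by omega⟩
  let ι := Matrix.SpecialLinearGroup.toLin'_equiv (R := K) (n := Fin (n + 1))
  let π' : Matrix.SpecialLinearGroup (Fin (n + 1)) K →* L ⧸ center L :=
    (QuotientGroup.mk' (center L)).comp (π.comp ι.toMonoidHom)
  have hπ' : Function.Surjective π' :=
    (QuotientGroup.mk'_surjective _).comp (hπ.comp ι.surjective)
  have hker : π'.ker = center (Matrix.SpecialLinearGroup (Fin (n + 1)) K) := by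
    ext x
    rw [MonoidHom.mem_ker]
    have h0 : π' x = 1 ↔ π (ι x) ∈ center L := QuotientGroup.eq_one_iff (π (ι x))
    rw [h0]
    constructor
    · intro h
      have h1 := hk _ h
      rw [mem_center_iff] at h1 ⊢
      intro y
      apply ι.injective
      rw [map_mul, map_mul]
      exact h1 (ι y)
    · intro h
      rw [mem_center_iff] at h ⊢
      intro y
      obtain ⟨y, rfl⟩ := hπ y
      obtain ⟨y, rfl⟩ := ι.surjective y
      rw [← map_mul, ← map_mul, ← map_mul, ← map_mul, h y]
  exact ⟨5, H589.solvOut_of_quot hL (H589.Bt.derived_le_conj_of_surj (K := K) (n := n) (π := π')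
    (by omega) hπ' hker)⟩

end Vale.Agent.P180.H392
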