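import Vale.Agent.P180.H392.Def
import Vale.Agent.P180.R2.H471.Hd5
import Vale.Agent.P180.R2.H799.BNG3
import Vale.Agent.P180.H396.Nn

/-!
P180: from general linear groups to special linear groups and their quotients.
-/

set_option linter.all false

namespace Vale.Agent.P180.H392

open Module Vale.Agent.P180 Vale.Agent.P180.H768.Gd Vale.Agent.P180.R2.H471.Hc Vale.Agent.P180.R2

universe u

section Hom

variable {K E : Type} [Field K] [AddCommGroup E] [Module K E]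

theorem HomOn.mono {S S' : Set (E →ₗ[K] E)} (h : S ⊆ S') {W : Submodule K E} (hW : HomOn S' W) :
    HomOn S W :=
  ⟨fun g hg => hW.1 g (h hg), fun x hx => hW.2 x (Submodule.span_mono h hx)⟩

end Hom

/-- The statement on general linear groups. -/
def GLStmt (B : ℕ → ℕ → ℕ → ℕ) : Prop :=
  ∀ (p n m : ℕ) [Fact p.Prime] (k : Type u) [Field k] [IsAlgClosed k] [CharP k p] (F V : Type)
    [Field F] [Finite F] [AddCommGroup V] [Module F V] [Finite V] [Finite (V ≃ₗ[F] V)],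
    ¬ p ∣ Nat.card F → ∀ Q : Subgroup (V ≃ₗ[F] V), IsPGroup p Q → Nat.card Q ≤ n →
    (∀ x ∈ Q, ∀ y ∈ Q, x * y = y * x) →
    (∃ W : Submodule F V, finrank F V ≤ finrank F W + m ∧
      HomOn {u | ∃ x ∈ Q, u = (x : V →ₗ[F] V)} W) → OneBd k Q (B p m n)

section OneBd

variable {k : Type u} [Field k] [IsAlgClosed k] {p : ℕ} [Fact p.Prime] [CharP k p]
variable {K : Type} [Field K] [Finite K] {d : ℕ}

/-- the special linear group -/
theorem oneBd_sl {B : ℕ → ℕ → ℕ → ℕ} (hGL : GLStmt.{u} B) {n m : ℕ}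
    (hpK : ¬ p ∣ Nat.card K) (hp1 : ¬ p ∣ Nat.card K - 1)
    [Finite (SpecialLinearGroup K (Fin d → K))]
    {Q : Subgroup (SpecialLinearGroup K (Fin d → K))} (hQ : IsPGroup p Q) (hQn : Nat.card Q ≤ n)
    (hab : ∀ x ∈ Q, ∀ y ∈ Q, x * y = y * x)
    (hW : ∃ W : Submodule K (Fin d → K), d ≤ finrank K W + m ∧
      HomOn {u | ∃ x ∈ Q, u = (x.toLinearEquiv : (Fin d → K) →ₗ[K] (Fin d → K))} W) :
    OneBd k Q (n.factorial * B p m n) := by
  classical
  have hfin : Finite ((Fin d → K) ≃ₗ[K] (Fin d → K)) :=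
    Finite.of_injective (fun g : (Fin d → K) ≃ₗ[K] (Fin d → K) => (g : (Fin d → K) → (Fin d → K)))
      DFunLike.coe_injective
  obtain ⟨W, hW1, hW2⟩ := hW
  have hQ' : IsPGroup p (Q.map SpecialLinearGroup.toLinearEquiv) := hQ.map _
  have hcard : Nat.card (Q.map (SpecialLinearGroup.toLinearEquiv (R := K) (V := Fin d → K))) ≤ n := by
    rw [Subgroup.card_map_of_injective SpecialLinearGroup.toLinearEquiv_injective]
    exact hQn
  have h1 : OneBd k (Q.map (SpecialLinearGroup.toLinearEquiv (R := K) (V := Fin d → K)))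
      (B p m n) := by
    refine hGL p n m k K (Fin d → K) hpK _ hQ' hcard ?_ ⟨W, by rwa [finrank_fin_fun], ?_⟩
    · rintro _ ⟨x, hx, rfl⟩ _ ⟨y, hy, rfl⟩
      rw [← map_mul, ← map_mul, hab x hx y hy]
    · refine HomOn.mono ?_ hW2
      rintro _ ⟨_, ⟨x, hx, rfl⟩, rfl⟩
      exact ⟨x, hx, rfl⟩
  exact R2.H799.BG.oneBd_mono (H396.oneBd_sl hp1 hQ h1)
    (Nat.mul_le_mul_right _ (Nat.factorial_le hQn))

/-- central quotients -/
theorem oneBd_of_sl {n m C : ℕ} (hp1 : ¬ p ∣ Nat.card K - 1)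
    [Finite (SpecialLinearGroup K (Fin d → K))] {L : Type} [Group L] [Finite L]
    {π : SpecialLinearGroup K (Fin d → K) →* L} (hπ : Function.Surjective π)
    (hk : π.ker ≤ Subgroup.center _) {A : Subgroup L} (hA : SuppOn p m π A)
    (hSL : ∀ Q : Subgroup (SpecialLinearGroup K (Fin d → K)), IsPGroup p Q → Nat.card Q ≤ n →
      (∀ x ∈ Q, ∀ y ∈ Q, x * y = y * x) →
      (∃ W : Submodule K (Fin d → K), d ≤ finrank K W + m ∧
        HomOn {u | ∃ x ∈ Q, u = (x.toLinearEquiv : (Fin d → K) →ₗ[K] (Fin d → K))} W) →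
      OneBd k Q C)
    {Q : Subgroup L} (hQA : Q ≤ A) (hQ : IsPGroup p Q) (hQn : Nat.card Q ≤ n) :
    OneBd k Q C := by
  classical
  have hp : p.Prime := Fact.out
  have hkp : ¬ p ∣ Nat.card π.ker := not_dvd_center' hp1 hk
  obtain ⟨Q, hQ', rfl⟩ := R2.H799.BN.exists_lift (p := p) π hπ hQ
  have hker : ∀ x ∈ Q, π x = 1 → x = 1 := by
    intro x hx h1
    have h2 : orderOf x ∣ Nat.card π.ker := by
      have h3 := orderOf_dvd_natCard (⟨x, h1⟩ : π.ker)
      rwa [show orderOf (⟨x, h1⟩ : π.ker) = orderOf x from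
        (orderOf_injective π.ker.subtype π.ker.subtype_injective _).symm] at h3
    obtain ⟨m, hm⟩ := hQ' ⟨x, hx⟩
    have hm' : x ^ p ^ m = 1 := congrArg Subtype.val hm
    obtain ⟨j, -, hj⟩ := (Nat.dvd_prime_pow hp).mp (orderOf_dvd_of_pow_eq_one hm')
    rw [hj] at h2
    rcases Nat.eq_zero_or_pos j with h0 | h0
    · rw [h0, pow_zero] at hj
      exact orderOf_eq_one_iff.mp hj
    · exact absurd ((dvd_pow_self p h0.ne').trans h2) hkp
  have hinj : Function.Injective (fun x : Q => (⟨π x, ⟨x, x.2, rfl⟩⟩ : Q.map π)) := by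
    intro x y hxy
    have h1 : π x = π y := congrArg Subtype.val hxy
    apply Subtype.ext
    have h2 := hker ((x : SpecialLinearGroup K (Fin d → K)) * (y : SpecialLinearGroup K (Fin d → K))⁻¹)
      (Q.mul_mem x.2 (Q.inv_mem y.2)) (by rw [map_mul, map_inv, h1, mul_inv_cancel])
    exact mul_inv_eq_one.mp h2
  have hQn' : Nat.card Q ≤ n := (Nat.card_le_card_of_injective _ hinj).trans hQn
  have hover : ∀ x ∈ Q, x ∈ OverA p π A := by
    intro x hx
    obtain ⟨i, hi⟩ := hQ' ⟨x, hx⟩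
    exact ⟨⟨i, congrArg Subtype.val hi⟩, hQA ⟨x, hx, rfl⟩⟩
  obtain ⟨hab, W, hW1, hW2⟩ := hA
  refine oneBd_quot hπ (fun x hx g => (Subgroup.mem_center_iff.mp (hk hx) g).symm) hkp hQ'
    (hSL Q hQ' hQn' (fun x hx y hy => hab x (hover x hx) y (hover y hy))
      ⟨W, by rwa [finrank_fin_fun] at hW1, ?_⟩)
  refine HomOn.mono ?_ hW2
  rintro _ ⟨x, hx, rfl⟩
  exact ⟨x, hover x hx, rfl⟩

end OneBd

end Vale.Agent.P180.H392
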