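import Vale.Agent.P180.H392.DefB
import Vale.Agent.P180.H392.Sl
import Vale.Agent.P180.H392.Out
import Vale.Agent.P180.R2.H365.InnB
import Vale.Agent.P180.R2.H365.OcC
import Vale.Agent.P180.R2.H365.LocY
import Vale.Agent.P180.R2.H47.AcW

/-!
P180: the corner property of the components in the class of special linear groups.
-/

set_option linter.all false

namespace Vale.Agent.P180.H392

open Module Vale.Agent.P180 Vale.Agent.P180.H768.Gd Vale.Agent.P180.R2.H471.Hc Vale.Agent.P180.R2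
  Vale.Agent.P180.R2.H365 Vale.Agent.P180.R2.H47
open Vale.Agent.P180.R2.H471.Au (abP IsSLc)
open Vale.Agent.P180.R2.H259.Cyc (cycB)

universe u

/-- The statement on general linear groups. -/
def GLStmtB (B : ℕ → ℕ → ℕ) : Prop :=
  ∀ (p n : ℕ) [Fact p.Prime] (k : Type u) [Field k] [IsAlgClosed k] [CharP k p] (F V : Type)
    [Field F] [Finite F] [AddCommGroup V] [Module F V] [Finite V] [Finite (V ≃ₗ[F] V)],
    ¬ p ∣ Nat.card F → ∀ Q : Subgroup (V ≃ₗ[F] V), IsPGroup p Q → Nat.card Q ≤ n →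
    (∀ x ∈ Q, ∀ y ∈ Q, x * y = y * x) → OneBd k Q (B p n)

theorem oneBd_slB {k : Type u} [Field k] [IsAlgClosed k] {p : ℕ} [Fact p.Prime] [CharP k p]
    {K : Type} [Field K] [Finite K] {d : ℕ} {B : ℕ → ℕ → ℕ} (hGL : GLStmtB.{u} B) {n : ℕ}
    (hpK : ¬ p ∣ Nat.card K) (hp1 : ¬ p ∣ Nat.card K - 1)
    [Finite (SpecialLinearGroup K (Fin d → K))]
    {Q : Subgroup (SpecialLinearGroup K (Fin d → K))} (hQ : IsPGroup p Q) (hQn : Nat.card Q ≤ n)
    (hab : ∀ x ∈ Q, ∀ y ∈ Q, x * y = y * x) : OneBd k Q (n.factorial * B p n) := by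
  classical
  have hfin : Finite ((Fin d → K) ≃ₗ[K] (Fin d → K)) :=
    Finite.of_injective (fun g : (Fin d → K) ≃ₗ[K] (Fin d → K) => (g : (Fin d → K) → (Fin d → K)))
      DFunLike.coe_injective
  have hcard : Nat.card (Q.map (SpecialLinearGroup.toLinearEquiv (R := K) (V := Fin d → K))) ≤ n := by
    rw [Subgroup.card_map_of_injective SpecialLinearGroup.toLinearEquiv_injective]
    exact hQn
  have h1 : OneBd k (Q.map (SpecialLinearGroup.toLinearEquiv (R := K) (V := Fin d → K)))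
      (B p n) := by
    refine hGL p n k K (Fin d → K) hpK _ (hQ.map _) hcard ?_
    rintro _ ⟨x, hx, rfl⟩ _ ⟨y, hy, rfl⟩
    rw [← map_mul, ← map_mul, hab x hx y hy]
  exact R2.H799.BG.oneBd_mono (H396.oneBd_sl hp1 hQ h1)
    (Nat.mul_le_mul_right _ (Nat.factorial_le hQn))

section Cen

variable {p d : ℕ} [Fact p.Prime] {K : Type} [Field K] [Finite K] {L : Type} [Group L]
  {π : SpecialLinearGroup K (Fin d → K) →* L}

theorem eq_one_lin (hd : 3 ≤ d) (hcop : ¬ (p ∣ d ∧ p ∣ Nat.card K - 1))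
    (hL : commutator L = ⊤) (hπ : Function.Surjective π) (hk : π.ker ≤ Subgroup.center _) {x : L}
    (hx : x ∈ Subgroup.center L) {i : ℕ} (hi : x ^ p ^ i = 1) : x = 1 := by
  haveI : Finite (SpecialLinearGroup K (Fin d → K)) := H799.BN.finite_sl
  refine Bm.eq_one_of_center hπ (fun z hz hzp => ?_) hx hi
  exact Y.cen_one (fun h => hcop ⟨h.trans (Nat.gcd_dvd_left _ _), h.trans (Nat.gcd_dvd_right _ _)⟩)
    (by omega) (i := 1) (by rw [pow_one]; exact hzp) (center_of_quot π hπ hk hL hz)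

theorem comm_of_cen (hd : 3 ≤ d) (hcop : ¬ (p ∣ d ∧ p ∣ Nat.card K - 1))
    (hL : commutator L = ⊤) (hπ : Function.Surjective π) (hk : π.ker ≤ Subgroup.center _)
    {A : Subgroup L} (hA : IsPGroup p A)
    (h : ∀ x ∈ A, ∀ y ∈ A, x * y * x⁻¹ * y⁻¹ ∈ Subgroup.center L) :
    ∀ x ∈ A, ∀ y ∈ A, x * y = y * x := by
  intro x hx y hy
  have hzA : x * y * x⁻¹ * y⁻¹ ∈ A :=
    A.mul_mem (A.mul_mem (A.mul_mem hx hy) (A.inv_mem hx)) (A.inv_mem hy)
  obtain ⟨i, hi⟩ := hA ⟨_, hzA⟩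
  have hi : (x * y * x⁻¹ * y⁻¹) ^ p ^ i = 1 := congrArg Subtype.val hi
  have h3 := eq_one_lin hd hcop hL hπ hk (h x hx y hy) hi
  rw [mul_inv_eq_one, mul_inv_eq_iff_eq_mul] at h3
  exact h3

theorem tame_lin3 (hd : 3 ≤ d) (hpK : ¬ p ∣ Nat.card K) (hL : commutator L = ⊤)
    (hπ : Function.Surjective π) (hk : π.ker ≤ Subgroup.center _) {A : Subgroup L}
    (hg : ¬ (p ∣ d ∧ p ∣ Nat.card K - 1)) (hp1 : p ∣ Nat.card K - 1)
    (h : ∀ x ∈ A, ∀ y ∈ A, x * y * x⁻¹ * y⁻¹ ∈ Subgroup.center L) : TameP p 0 L A := by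
  refine Y.tame_gen (by omega) hpK (X := ⊤)
    (π := π.comp (⊤ : Subgroup (SpecialLinearGroup K (Fin d → K))).subtype)
    (Or.inl ⟨fun _ => rfl, rfl⟩) ?_ (fun x hx => center_of_quot π hπ hk hL hx) ?_
    (Or.inr ⟨h, Or.inr ⟨Y.rootIn_id.mpr hp1, Or.inl fun h2 => hg ⟨h2, hp1⟩⟩⟩)
  · intro y
    obtain ⟨x, rfl⟩ := hπ y
    exact ⟨⟨x, Subgroup.mem_top x⟩, rfl⟩
  · intro z i hz hc
    exact Subtype.ext (Y.cen_one (fun h => hg ⟨h.trans (Nat.gcd_dvd_left _ _),
      h.trans (Nat.gcd_dvd_right _ _)⟩) (by omega) (i := i) (by rw [← Subgroup.coe_pow, hz]; rfl) hc)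

end Cen

/-- the constant for inner actions -/
noncomputable def cI (B : ℕ → ℕ → ℕ) (p n : ℕ) : ℕ := max (abP p n 0) (n.factorial * B p n)

/-- the constant -/
noncomputable def cL (B : ℕ → ℕ → ℕ) (p n : ℕ) : ℕ := max (cI B p n) (cycB p n)

section Cor

variable {k : Type u} [Field k] [IsAlgClosed k] {p : ℕ} [Fact p.Prime] [CharP k p]
  {B : ℕ → ℕ → ℕ} {n : ℕ} {G : Type} [Group G] [Finite G] {D L : Subgroup G}
  {K : Type} [Field K] [Finite K] {d : ℕ} {π : SpecialLinearGroup K (Fin d → K) →* L}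

/-- inner actions -/
theorem corP_inn (hGL : GLStmtB.{u} B) (hD : IsPGroup p D) (hDn : Nat.card D ≤ n) (hd : 3 ≤ d)
    (hpK : ¬ p ∣ Nat.card K) (hcop : ¬ (p ∣ d ∧ p ∣ Nat.card K - 1)) (hL : commutator L = ⊤)
    (hπ : Function.Surjective π) (hk : π.ker ≤ Subgroup.center _)
    (hin : D ⊓ Subgroup.normalizer (L : Set G) ≤ L ⊔ Subgroup.centralizer (L : Set G))
    (hab : ∀ x ∈ D, x ∈ L → ∀ y ∈ D, y ∈ L → x * y = y * x) (b : MonoidAlgebra k G) :
    CorP p (cI B p n) b D L := by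
  have hfin : Finite (SpecialLinearGroup K (Fin d → K)) := H799.BN.finite_sl
  by_cases hp1 : p ∣ Nat.card K - 1
  · refine (PairP.corP_tamePair (m := 0) hD hDn (Y.tameP_imp (tame_lin3 hd hpK hL hπ hk hcop hp1 ?_))
      hin b).mono ((le_max_left _ _).trans (le_max_left _ _))
    intro x hx y hy
    have h1 : x * y = y * x := Subtype.ext (hab x (Subgroup.mem_subgroupOf.mp hx) x.2 y
      (Subgroup.mem_subgroupOf.mp hy) y.2)
    rw [h1, mul_inv_cancel_right, mul_inv_cancel]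
    exact Subgroup.one_mem _
  · refine (H471.Hd.corP_of_oneBd hD hDn hab hin (fun Q hQ hQn hab => ?_) b).mono (le_max_right _ _)
    exact H471.Hd.oneBd_lift π hπ
      (fun x hx g => (Subgroup.mem_center_iff.mp (hk (MonoidHom.mem_ker.mpr hx)) g).symm)
      (not_dvd_center' hp1 hk) hQ hQn hab
      (fun Q hQ hQn hab => oneBd_slB hGL hpK hp1 hQ hQn hab)

/-- `CenOn`, odd primes -/
theorem corP_cen (hGL : GLStmtB.{u} B) (hD : IsPGroup p D) (hDn : Nat.card D ≤ n) (hp2 : p ≠ 2)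
    (hd : 3 ≤ d) (hpK : ¬ p ∣ Nat.card K) (hcop : ¬ (p ∣ d ∧ p ∣ Nat.card K - 1))
    (hL : commutator L = ⊤) (hπ : Function.Surjective π) (hk : π.ker ≤ Subgroup.center _)
    (hc : H471.El.AbEl p D L) (b : MonoidAlgebra k G) : CorP p (cL B p n) b D L := by
  have hB : ∀ R : Subgroup G, R ≤ D → R ≤ L ⊔ Subgroup.centralizer (L : Set G) →
      CorP p (cI B p n) b R L := by
    intro R hRD hRL
    have hRn : Nat.card R ≤ n :=
      (Nat.card_le_card_of_injective _ (Subgroup.inclusion_injective hRD)).trans hDn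
    refine corP_inn hGL (hD.to_le hRD) hRn hd hpK hcop hL hπ hk (inf_le_left.trans hRL) ?_ b
    have hDL : IsPGroup p (D.subgroupOf L) :=
      hD.comap_of_injective L.subtype L.subtype_injective
    have h1 := comm_of_cen hd hcop hL hπ hk hDL (Y.center_of_abEl hc)
    intro x hx hxL y hy hyL
    exact congrArg Subtype.val (h1 ⟨x, hxL⟩ (Subgroup.mem_subgroupOf.mpr (hRD hx)) ⟨y, hyL⟩
      (Subgroup.mem_subgroupOf.mpr (hRD hy)))
  have hsl : IsSLc p L := ⟨K, inferInstance, inferInstance, d, π, hd, hpK, hcop, hπ, hk⟩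
  rcases hc with hc | ⟨hc, he⟩
  · exact H471.Au.corP_ab hD hDn hp2 hsl hc b hB
  · exact H471.El.corP_el hD hDn hp2 hsl hc he b hB

/-- the second alternative, with `D ∩ L` commutative -/
theorem corP_com (hGL : GLStmtB.{u} B) (hD : IsPGroup p D) (hDn : Nat.card D ≤ n) (hp2 : p ≠ 2)
    (hd : 3 ≤ d) (hpK : ¬ p ∣ Nat.card K) (hcop : ¬ (p ∣ d ∧ p ∣ Nat.card K - 1))
    (hL : commutator L = ⊤) (hπ : Function.Surjective π) (hk : π.ker ≤ Subgroup.center _)
    (hab : ∀ x ∈ D, x ∈ L → ∀ y ∈ D, y ∈ L → x * y = y * x)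
    (h : Gam D L ≤ (MulAut.conj : L →* MulAut L).range ∨ ¬ p ∣ 2 * Nat.card (K ≃+* K) ∨
      ExpOn p L (D.subgroupOf L)) (b : MonoidAlgebra k G) : CorP p (cL B p n) b D L := by
  rcases h with h | h | h
  · exact (corP_inn hGL hD hDn hd hpK hcop hL hπ hk (Oc.sup_of_Gam h) hab b).mono
      (le_max_left _ _)
  · refine (corP_inn hGL hD hDn hd hpK hcop hL hπ hk ?_ hab b).mono (le_max_left _ _)
    rintro r ⟨hrD, hrN⟩
    obtain ⟨i, hi⟩ := hD ⟨r, hrD⟩
    have hi : r ^ p ^ i = 1 := congrArg Subtype.val hi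
    exact Inn.inn_of_noaut hp2 hd (fun h2 => hcop ⟨h2.trans (Nat.gcd_dvd_left _ _),
      h2.trans (Nat.gcd_dvd_right _ _)⟩) (fun h2 => h (h2.mul_left _)) hπ hk hrN hi
  · refine corP_cen hGL hD hDn hp2 hd hpK hcop hL hπ hk (Or.inr ⟨?_, ?_⟩) b
    · intro x hx hxL y hy hyL l hl
      rw [hab x hx hxL y hy hyL, mul_inv_cancel_right, mul_inv_cancel, one_mul, mul_one]
    · exact Y.pow_of_exp h

/-- small groups, `p = 2` -/
theorem cenOn_two {L : Type} [Group L] [Finite L] {Γ : Subgroup (MulAut L)} {A : Subgroup L}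
    (hA : IsPGroup 2 A) (h : SmallOn 2 L A) : CenOn 2 L Γ A := by
  unfold SmallOn at h
  obtain ⟨M, hM⟩ : ∃ M, M = A.map (QuotientGroup.mk' (Subgroup.center L)) := ⟨_, rfl⟩
  rw [← hM] at h
  have hMp : IsPGroup 2 M := by rw [hM]; exact hA.map _
  obtain ⟨j, hj⟩ := IsPGroup.iff_card.mp hMp
  have hj1 : j ≤ 1 := by
    by_contra hj1
    have h1 : 2 ^ 2 ≤ 2 ^ j := Nat.pow_le_pow_right (by norm_num) (by omega)
    omega
  have hcard : Nat.card M ∣ 2 := by
    rw [hj]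
    exact (pow_dvd_pow 2 hj1).trans (by norm_num)
  have hsq : ∀ y ∈ M, y ^ 2 = 1 := by
    intro y hy
    have h1 : (⟨y, hy⟩ : M) ^ 2 = 1 := by
      obtain ⟨c, hc⟩ := hcard
      rw [hc, pow_mul, pow_card_eq_one', one_pow]
    exact congrArg Subtype.val h1
  have hmem : ∀ x ∈ A, (QuotientGroup.mk' (Subgroup.center L)) x ∈ M := by
    intro x hx
    rw [hM]
    exact ⟨x, hx, rfl⟩
  right
  refine ⟨fun y hy => ?_, fun x hx y hy => ?_⟩
  · have h1 := hsq _ (hmem y hy)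
    rw [← map_pow, QuotientGroup.mk'_apply, QuotientGroup.eq_one_iff] at h1
    exact h1
  · rw [← QuotientGroup.eq_one_iff]
    change QuotientGroup.mk' (Subgroup.center L) (x * y * x⁻¹ * y⁻¹) = 1
    have h1 := hsq _ (hmem x hx)
    have h2 := hsq _ (hmem y hy)
    have h3 := hsq _ (M.mul_mem (hmem x hx) (hmem y hy))
    have e1 : (QuotientGroup.mk' (Subgroup.center L) x)⁻¹ =
        QuotientGroup.mk' (Subgroup.center L) x := by
      rw [inv_eq_iff_mul_eq_one, ← pow_two]; exact h1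
    have e2 : (QuotientGroup.mk' (Subgroup.center L) y)⁻¹ =
        QuotientGroup.mk' (Subgroup.center L) y := by
      rw [inv_eq_iff_mul_eq_one, ← pow_two]; exact h2
    rw [map_mul, map_mul, map_mul, map_inv, map_inv, e1, e2, mul_assoc, ← pow_two]
    exact h3

/-- The corner property. -/
theorem corP_ab (hGL : GLStmtB.{u} B) (hD : IsPGroup p D) (hDn : Nat.card D ≤ n)
    (hL : commutator L = ⊤) (h : LinAb p L (Gam D L) (D.subgroupOf L))
    (hr : ∃ x ∈ D, x ∈ L ∧ ¬ ∀ y ∈ L, x * y = y * x) {b : MonoidAlgebra k G}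
    (hbF : b ∈ Fix (cj k G) ⊤) (hb : br D b ≠ 0) :
    CorP p (cL B p n) b D L := by
  obtain ⟨K, _, _, d, hd, hpK, hld, ⟨π, hπ, hk⟩, h⟩ := h
  have hfin : Finite (SpecialLinearGroup K (Fin d → K)) := H799.BN.finite_sl
  have hcop := hld.1
  have hDL : IsPGroup p (D.subgroupOf L) := hD.comap_of_injective L.subtype L.subtype_injective
  by_cases hp2 : p = 2
  · subst hp2
    have h4 : 4 ∣ Nat.card K - 1 := hld.2.resolve_left fun h => h rfl
    have h2 : 2 ∣ Nat.card K - 1 := (by norm_num : (2 : ℕ) ∣ 4).trans h4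
    have hcase : CenOn 2 L (Gam D L) (D.subgroupOf L) → CorP 2 (cL B 2 n) b D L := by
      intro hc
      have hc' := Y.abEl_of_cenOn hc
      exact (H471.El.corP_sld (m := 0) hD hDn ⟨K, inferInstance, inferInstance, d, π, hd, hpK,
        hld.1, hld.2, hπ, hk⟩ hc' (Y.tameP_imp (tame_lin3 hd hpK hL hπ hk hcop h2
        (Y.center_of_abEl hc'))) hr hbF hb).mono ((le_max_left _ _).trans (le_max_left _ _))
    rcases h with h | ⟨h, hA | hs⟩
    · exact hcase h
    · rcases h with h | h | h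
      · refine (corP_inn hGL hD hDn hd hpK hcop hL hπ hk (Oc.sup_of_Gam h) ?_ b).mono
          (le_max_left _ _)
        intro x hx hxL y hy hyL
        exact congrArg Subtype.val (hA ⟨x, hxL⟩ hx ⟨y, hyL⟩ hy)
      · exact absurd (dvd_mul_right 2 _) h
      · refine hcase (Or.inr ⟨h, fun x hx y hy => ?_⟩)
        rw [hA x hx y hy, mul_inv_cancel_right, mul_inv_cancel]
        exact Subgroup.one_mem _
    · exact hcase (cenOn_two hDL hs)
  rcases h with h | ⟨h, hA | hs⟩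
  · exact corP_cen hGL hD hDn hp2 hd hpK hcop hL hπ hk (Y.abEl_of_cenOn h) b
  · refine corP_com hGL hD hDn hp2 hd hpK hcop hL hπ hk ?_ h b
    intro x hx hxL y hy hyL
    exact congrArg Subtype.val (hA ⟨x, hxL⟩ hx ⟨y, hyL⟩ hy)
  · have hs' : Nat.card (L ⊓ D : Subgroup G) < p ^ p :=
      Bm.card_of_smallOn hD (fun x i hx hi => eq_one_lin hd hcop hL hπ hk hx hi) hs
    refine Bm.corP_small_sl hD hs' hpK hcop hπ hk fun R hRD hcomm => ?_
    have hRn : Nat.card R ≤ n :=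
      (Nat.card_le_card_of_injective _ (Subgroup.inclusion_injective hRD)).trans hDn
    refine corP_com hGL (hD.to_le hRD) hRn hp2 hd hpK hcop hL hπ hk hcomm ?_ b
    refine h.imp (fun h => (Bm.gam_mono hRD).trans h) (Or.imp_right fun h y hy => h y ?_)
    exact Subgroup.mem_subgroupOf.mpr (hRD (Subgroup.mem_subgroupOf.mp hy))

end Cor

end Vale.Agent.P180.H392
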