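import Vale.Agent.P180.H392.DefC
import Vale.Agent.P180.H392.CorB
import Vale.Agent.P180.R2.H471.Co1
import Vale.Agent.P180.R2.H47.Bm9

/-!
P180: the corner property of the components in the class of isometry groups.
-/

set_option linter.all false

namespace Vale.Agent.P180.H392

open Module Vale.Agent.P180 Vale.Agent.P180.H768.Gd Vale.Agent.P180.R2.H471.Hc Vale.Agent.P180.R2
  Vale.Agent.P180.R2.H365 Vale.Agent.P180.R2.H47 Vale.Agent.P180.R2.H854 Vale.Agent.P180.R2.H799.BS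
open Vale.Agent.P180.R2.H471.Au (abP IsSLc)
open Vale.Agent.P180.R2.H259.Cyc (cycB)

universe u

/-- The statement on isometry groups. -/
def IsoStmt (B : ℕ → ℕ → ℕ) : Prop :=
  ∀ (p n : ℕ) [Fact p.Prime] (k : Type u) [Field k] [IsAlgClosed k] [CharP k p] (K : Type)
    [Field K] [Finite K] (d : ℕ) [Finite (_root_.SpecialLinearGroup K (Fin d → K))]
    (Φ : H854.HForm K (Fin d → K)) (X : Subgroup (_root_.SpecialLinearGroup K (Fin d → K))),
    Φ.GoodX X → X ≤ Φ.Iso → X.relIndex Φ.Iso ∣ 2 → ¬ p ∣ Nat.card K →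
    (∀ j : ℕ, (∀ c, Φ.θ c = c ^ (ringChar K ^ j)) → ¬ p ∣ ringChar K ^ j + 1) → 3 ≤ d →
    ∀ Q : Subgroup X, IsPGroup p Q → Nat.card Q ≤ n → (∀ x ∈ Q, ∀ y ∈ Q, x * y = y * x) →
    OneBd k Q (B p n)

/-- the constant -/
noncomputable def cI2 (B : ℕ → ℕ → ℕ) (p n : ℕ) : ℕ := max (B p n) (cycB p n)

section Cor

variable {k : Type u} [Field k] [IsAlgClosed k] {p : ℕ} [hp : Fact p.Prime] [CharP k p]
  {B : ℕ → ℕ → ℕ} {n : ℕ} {G : Type} [Group G] [Finite G] {D L : Subgroup G}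
  {K : Type} [Field K] [Finite K] {d : ℕ} {Φ : HForm K (Fin d → K)}
  {X : Subgroup (SpecialLinearGroup K (Fin d → K))} {π : X →* L}

/-- inner actions -/
theorem corI_inn (hI : IsoStmt.{u} B) (hD : IsPGroup p D) (hDn : Nat.card D ≤ n) (hd : 3 ≤ d)
    (hG : Φ.GoodX X) (hpK : ¬ p ∣ Nat.card K)
    (hlin : ∀ j : ℕ, (∀ c, Φ.θ c = c ^ (ringChar K ^ j)) → ¬ p ∣ ringChar K ^ j + 1)
    (hXI : X ≤ Φ.Iso) (hX2 : X.relIndex Φ.Iso ∣ 2) (hπ : Function.Surjective π)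
    (hk : π.ker.map X.subtype ≤ Subgroup.center _)
    (hin : D ⊓ Subgroup.normalizer (L : Set G) ≤ L ⊔ Subgroup.centralizer (L : Set G))
    (hab : ∀ x ∈ D, x ∈ L → ∀ y ∈ D, y ∈ L → x * y = y * x) (b : MonoidAlgebra k G) :
    CorP p (B p n) b D L := by
  have hfin : Finite (SpecialLinearGroup K (Fin d → K)) := H799.BN.finite_sl
  refine H471.Hd.corP_of_oneBd hD hDn hab hin (fun Q hQ hQn hab => ?_) b
  exact H471.Hd.oneBd_lift π hπ (H471.Hd.ker_central hk) (H854.TD.ker_coprime_lin hpK hlin hXI hk)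
    hQ hQn hab (fun R hR hRn hRab => hI p n k K d Φ X hG hXI hX2 hpK hlin hd R hR hRn hRab)

/-- `AbEl` -/
theorem corI_cen (hI : IsoStmt.{u} B) (hD : IsPGroup p D) (hDn : Nat.card D ≤ n) (hd : 3 ≤ d)
    (hG : Φ.GoodX X) (hpK : ¬ p ∣ Nat.card K)
    (hlin : ∀ j : ℕ, (∀ c, Φ.θ c = c ^ (ringChar K ^ j)) → ¬ p ∣ ringChar K ^ j + 1)
    (hXI : X ≤ Φ.Iso) (hX2 : X.relIndex Φ.Iso ∣ 2) (hπ : Function.Surjective π)
    (hcen : ∀ x : X, π x ∈ Subgroup.center L →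
      (x : SpecialLinearGroup K (Fin d → K)) ∈ Subgroup.center _)
    (hd4 : 4 ≤ d ∨ ∃ a, Φ.θ a ≠ a)
    (hact : ∀ r ∈ D, r ∈ Subgroup.normalizer (L : Set G) →
      ∃ (σ : K ≃+* K) (g : (Fin d → K) → (Fin d → K)), ActX Φ π r σ g)
    (hc : H471.El.AbEl p D L) (b : MonoidAlgebra k G) : CorP p (cI2 B p n) b D L := by
  have hfin : Finite (SpecialLinearGroup K (Fin d → K)) := H799.BN.finite_sl
  have hk : π.ker.map X.subtype ≤ Subgroup.center (SpecialLinearGroup K (Fin d → K)) := by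
    rintro _ ⟨x, hx, rfl⟩
    apply hcen
    rw [MonoidHom.mem_ker.mp hx]
    exact Subgroup.one_mem _
  have hDL : IsPGroup p (D.subgroupOf L) := hD.comap_of_injective L.subtype L.subtype_injective
  have hcom : ∀ x ∈ D, x ∈ L → ∀ y ∈ D, y ∈ L → x * y = y * x := by
    intro x hx hxL y hy hyL
    have h1 := Y.center_of_abEl hc ⟨x, hxL⟩ (Subgroup.mem_subgroupOf.mpr hx) ⟨y, hyL⟩
      (Subgroup.mem_subgroupOf.mpr hy)
    obtain ⟨i, hi⟩ := hDL ⟨(⟨x, hxL⟩ : L) * ⟨y, hyL⟩ * ⟨x, hxL⟩⁻¹ * ⟨y, hyL⟩⁻¹,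
      (D.subgroupOf L).mul_mem ((D.subgroupOf L).mul_mem ((D.subgroupOf L).mul_mem
        (Subgroup.mem_subgroupOf.mpr hx) (Subgroup.mem_subgroupOf.mpr hy))
        ((D.subgroupOf L).inv_mem (Subgroup.mem_subgroupOf.mpr hx)))
        ((D.subgroupOf L).inv_mem (Subgroup.mem_subgroupOf.mpr hy))⟩
    have h2 := Bm.eq_one_of_center hπ (fun z hz hzp => Subtype.ext (H854.TD.scalar_eq_one_lin hp.out
      hpK Φ hlin (hXI z.2) (hcen z hz) (m := 1) (by
        rw [pow_one]; exact congrArg Subtype.val hzp))) h1 (congrArg Subtype.val hi)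
    rw [mul_inv_eq_one, mul_inv_eq_iff_eq_mul] at h2
    exact congrArg Subtype.val h2
  have hB : ∀ R : Subgroup G, R ≤ D → R ≤ L ⊔ Subgroup.centralizer (L : Set G) →
      CorP p (B p n) b R L := by
    intro R hRD hRL
    have hRn : Nat.card R ≤ n :=
      (Nat.card_le_card_of_injective _ (Subgroup.inclusion_injective hRD)).trans hDn
    exact corI_inn hI (hD.to_le hRD) hRn hd hG hpK hlin hXI hX2 hπ hk (inf_le_left.trans hRL)
      (fun x hx hxL y hy hyL => hcom x (hRD hx) hxL y (hRD hy) hyL) b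
  have hsim : H471.Is.IsoSim p D L := ⟨K, inferInstance, inferInstance, d, Φ, X, π, hG, hpK, hlin,
    hXI, hX2, hπ, hcen, hd4.imp_right fun h => ⟨hd, h⟩, fun r hr hn => hact r hr (Bm.mem_norm hn)⟩
  rcases hc with hc | ⟨hc, he⟩
  · exact H471.Is.corP_ab hD hDn hsim hc b hB
  · exact H471.El.corP_el_iso hD hDn hsim hc he b hB

/-- no field automorphisms -/
theorem inn_of_noaut_iso (hD : IsPGroup p D) (hd : 3 ≤ d)
    (hG : Φ.GoodX X) (hpK : ¬ p ∣ Nat.card K)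
    (hlin : ∀ j : ℕ, (∀ c, Φ.θ c = c ^ (ringChar K ^ j)) → ¬ p ∣ ringChar K ^ j + 1)
    (hXI : X ≤ Φ.Iso) (hX2 : X.relIndex Φ.Iso ∣ 2) (hπ : Function.Surjective π)
    (hk : π.ker.map X.subtype ≤ Subgroup.center _)
    (hd4 : 4 ≤ d ∨ ∃ a, Φ.θ a ≠ a)
    (hact : ∀ r ∈ D, r ∈ Subgroup.normalizer (L : Set G) →
      ∃ (σ : K ≃+* K) (g : (Fin d → K) → (Fin d → K)), ActX Φ π r σ g)
    (hno : ¬ p ∣ Nat.card (K ≃+* K)) :
    D ⊓ Subgroup.normalizer (L : Set G) ≤ L ⊔ Subgroup.centralizer (L : Set G) := by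
  rintro r ⟨hrR, hrN⟩
  obtain ⟨i, hi⟩ := hD ⟨r, hrR⟩
  have hi : r ^ p ^ i = 1 := congrArg Subtype.val hi
  obtain ⟨σ, g, hg⟩ := hact r hrR hrN
  have hfd : finrank K (Fin d → K) = d := by rw [Module.finrank_fin_fun]
  have hL : H799.BS.Lines Φ := by
    refine lines_of_form Φ (Φ.trT hG.or3) (by rw [hfd]; exact hd) ?_
      (exists_isotropic Φ (by rw [hfd]; exact hd))
    rw [hfd]
    exact hd4
  have hV : ∀ F, Φ.SD F → VF F ⊓ Φ.Iso ≤ X := fun F _ => hG.hV hX2 F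
  have h1 : σ ^ p ^ i = 1 := H471.Is.act_pow hg hk hV hL (by rw [hfd]; omega) hi
  have h2 : σ = 1 := by
    have h3 : orderOf σ ∣ p ^ i := orderOf_dvd_of_pow_eq_one h1
    have h4 : orderOf σ ∣ Nat.card (K ≃+* K) := orderOf_dvd_natCard σ
    have h5 : Nat.Coprime (p ^ i) (Nat.card (K ≃+* K)) :=
      Nat.Coprime.pow_left _ ((Nat.Prime.coprime_iff_not_dvd hp.out).mpr hno)
    exact orderOf_eq_one_iff.mp (Nat.eq_one_of_dvd_coprimes h5 h3 h4)
  subst h2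
  obtain ⟨s, hs, c, hc', rfl⟩ := H471.Is.linear hpK hlin (by rw [hfd]; omega) hX2 hV hL hk hπ
    hg hi
  exact Subgroup.mul_mem _ (Subgroup.mem_sup_left hs) (Subgroup.mem_sup_right hc')

/-- The corner property. -/
theorem corP_isoC (hI : IsoStmt.{u} B) (hD : IsPGroup p D) (hDn : Nat.card D ≤ n)
    {K : Type} [Field K] [Finite K] {d : ℕ} (hd : 3 ≤ d) {Bf : (Fin d → K) → (Fin d → K) → K}
    {θ : K →+* K} {X : Subgroup (SpecialLinearGroup K (Fin d → K))} {π : X →* L}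
    (hF : IsoForm Bf θ X) (hsim : SimMap Bf X (Gam D L) π) (hd4 : 4 ≤ d ∨ ∃ a, θ a ≠ a)
    (hpK : ¬ p ∣ Nat.card K) (hlin : LinPr p θ) (h : ExtOn p K L (Gam D L) (D.subgroupOf L))
    (b : MonoidAlgebra k G) : CorP p (cI2 B p n) b D L := by
  have hfin : Finite (SpecialLinearGroup K (Fin d → K)) := H799.BN.finite_sl
  obtain ⟨ε, hB⟩ := hF.1
  -- for subgroups with commutative intersection
  have key : ∀ R : Subgroup G, R ≤ D → (∀ x ∈ R, x ∈ L → ∀ y ∈ R, y ∈ L → x * y = y * x) →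
      (Gam D L ≤ (MulAut.conj : L →* MulAut L).range ∨ ¬ p ∣ 2 * Nat.card (K ≃+* K) ∨
        ExpOn p L (D.subgroupOf L)) → CorP p (cI2 B p n) b R L := by
    intro R hRD hab h
    have hR : IsPGroup p R := hD.to_le hRD
    have hRn : Nat.card R ≤ n :=
      (Nat.card_le_card_of_injective _ (Subgroup.inclusion_injective hRD)).trans hDn
    obtain ⟨Φ, rfl, hG, hXI, hX2, hπ, hc, hact⟩ := Bm.isoSim_data hF
      (⟨hsim.1, hsim.2.1, fun α hα => hsim.2.2 α (Bm.gam_mono hRD hα)⟩ : SimMap Bf X (Gam R L) π)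
    have hk : π.ker.map X.subtype ≤ Subgroup.center (SpecialLinearGroup K (Fin d → K)) := by
      rintro _ ⟨x, hx, rfl⟩
      apply hc
      rw [MonoidHom.mem_ker.mp hx]
      exact Subgroup.one_mem _
    rcases h with h | h | he
    · exact (corI_inn hI hR hRn hd hG hpK hlin hXI hX2 hπ hk
        (Oc.sup_of_Gam ((Bm.gam_mono hRD).trans h)) hab b).mono (le_max_left _ _)
    · exact (corI_inn hI hR hRn hd hG hpK hlin hXI hX2 hπ hk (inn_of_noaut_iso hR hd hG hpK hlin hXI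
        hX2 hπ hk hd4 hact fun h2 => h (h2.mul_left _)) hab b).mono (le_max_left _ _)
    · refine corI_cen hI hR hRn hd hG hpK hlin hXI hX2 hπ hc hd4 hact (Or.inr ⟨?_, ?_⟩) b
      · intro x hx hxL y hy hyL l hl
        rw [hab x hx hxL y hy hyL, mul_inv_cancel_right, mul_inv_cancel, one_mul, mul_one]
      · intro y hy hyL l hl
        exact Y.pow_of_exp he y (hRD hy) hyL l hl
  rcases h with h | ⟨h, hA | hs⟩
  · obtain ⟨Φ, rfl, hG, hXI, hX2, hπ, hc, hact⟩ := Bm.isoSim_data hF hsim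
    exact corI_cen hI hD hDn hd hG hpK hlin hXI hX2 hπ hc hd4 hact (Y.abEl_of_cenOn h) b
  · refine key D le_rfl ?_ h
    intro x hx hxL y hy hyL
    exact congrArg Subtype.val (hA ⟨x, hxL⟩ hx ⟨y, hyL⟩ hy)
  · have hs' : Nat.card (L ⊓ D : Subgroup G) < p ^ p := by
      refine Bm.card_of_smallOn hD (fun x i hx hi => Bm.eq_one_of_center hsim.1 (fun z hz hzp => ?_)
        hx hi) hs
      exact Subtype.ext (S.scalar_one hpK hlin hB (by omega) (hF.2.1.1 z.1 z.2) (hsim.2.1 z hz)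
        (i := 1) (by rw [pow_one]; exact congrArg Subtype.val hzp))
    exact Bm.corP_small_form hD hs' hpK hlin hB hF.2.1 hsim.1 hsim.2.1 fun R hRD hcomm =>
      key R hRD hcomm h

end Cor

end Vale.Agent.P180.H392
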