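import Vale.Agent.P180.H392.DefD
import Vale.Agent.P180.H392.CorC
import Vale.Agent.P180.H392.AwC
import Vale.Agent.P180.R2.H799.BNP2

/-!
P180: the class of special linear groups on which `Γ` acts by inner automorphisms.
-/

set_option linter.all false

namespace Vale.Agent.P180.H392

open Module Vale.Agent.P180 Vale.Agent.P180.H768.Gd Vale.Agent.P180.R2.H471.Hc Vale.Agent.P180.R2
  Vale.Agent.P180.R2.H365 Vale.Agent.P180.R2.H47

universe u

/-- The statement on special linear groups. -/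
def InnStmt (C : ℕ → ℕ → ℕ) : Prop :=
  ∀ (p n : ℕ) [Fact p.Prime] (k : Type u) [Field k] [IsAlgClosed k] [CharP k p] (K : Type)
    [Field K] [Finite K] (d : ℕ) [Finite (SpecialLinearGroup K (Fin d → K))], p ≠ 2 → 3 ≤ d →
    ¬ p ∣ Nat.card K → ∀ Q : Subgroup (SpecialLinearGroup K (Fin d → K)), IsPGroup p Q →
    Nat.card Q ≤ n → (∀ x ∈ Q, ∀ y ∈ Q, x * y = y * x) → OneBd k Q (C p n)

/-- The second alternative of `LinD`. -/
def InnD (p m : ℕ) (L : Type) [Group L] (Γ : Subgroup (MulAut L)) (A : Subgroup L) : Prop :=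
  ∃ (K : Type) (_ : Field K) (_ : Finite K) (d : ℕ), 3 ≤ d ∧ ¬ p ∣ Nat.card K ∧
      p ≠ 2 ∧ (∀ j, p ^ j ∣ d → p ^ j ∣ Nat.card K - 1 → p ^ j ≤ m) ∧
        Γ ≤ (MulAut.conj : L →* MulAut L).range ∧
        ∃ π : SpecialLinearGroup K (Fin d → K) →* L, Function.Surjective π ∧
          π.ker ≤ Subgroup.center _ ∧ ∀ x y, π x ∈ A → π y ∈ A → x * y = y * x

theorem linD_iff {p m : ℕ} {L : Type} [Group L] {Γ : Subgroup (MulAut L)} {A : Subgroup L} :
    LinD p m L Γ A ↔ LinCls p L Γ A ∨ InnD p m L Γ A := by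
  constructor
  · rintro ⟨K, _, _, d, hd, hpK, h | h⟩
    · exact Or.inl ⟨K, inferInstance, inferInstance, d, hd, hpK, h⟩
    · exact Or.inr ⟨K, inferInstance, inferInstance, d, hd, hpK, h⟩
  · rintro (⟨K, _, _, d, hd, hpK, h⟩ | ⟨K, _, _, d, hd, hpK, h⟩)
    · exact ⟨K, inferInstance, inferInstance, d, hd, hpK, Or.inl h⟩
    · exact ⟨K, inferInstance, inferInstance, d, hd, hpK, Or.inr h⟩

theorem isoD_iff {p : ℕ} {L : Type} [Group L] {Γ : Subgroup (MulAut L)} {A : Subgroup L} :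
    IsoD p L Γ A ↔ IsoCls p L Γ A := Iff.rfl

theorem secD_iff {p : ℕ} {P T : Type} [Group P] [Group T] : SecD p P T ↔ SecCls p P T := Iff.rfl

theorem aw_inn {p m : ℕ} [Fact p.Prime] : AW p (InnD p m) where
  map := by
    intro S S' _ _ _ _ f hf hker hS Γ Γ' A hA hΓ h
    obtain ⟨K, _, _, d, hd, hpK, hp2, hm, hin, π, hπ, hk, hc⟩ := h
    have hcen : ∀ x, f (π x) = 1 → x ∈ Subgroup.center (SpecialLinearGroup K (Fin d → K)) := by
      intro x hx
      refine center_of_quot π hπ hk hS ?_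
      rw [Subgroup.mem_center_iff]
      exact fun y => (hker (π x) hx y).symm
    refine ⟨K, inferInstance, inferInstance, d, hd, hpK, hp2, hm, ?_, f.comp π, hf.comp hπ,
      fun x hx => hcen x hx, ?_⟩
    · intro α' hα'
      obtain ⟨α, hα, h5⟩ := hΓ α' hα'
      obtain ⟨x, rfl⟩ := hin hα
      refine ⟨f x, ?_⟩
      ext s'
      obtain ⟨s, rfl⟩ := hf s'
      rw [← h5, MulAut.conj_apply, MulAut.conj_apply, map_mul, map_mul, map_inv]
    · have key : ∀ x, f (π x) ∈ A.map f → ∃ x₀, π x₀ ∈ A ∧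
          ∃ z ∈ Subgroup.center (SpecialLinearGroup K (Fin d → K)), x = x₀ * z := by
        rintro x ⟨a, ha, hax⟩
        obtain ⟨x₀, rfl⟩ := hπ a
        refine ⟨x₀, ha, x₀⁻¹ * x, hcen _ ?_, (mul_inv_cancel_left _ _).symm⟩
        rw [map_mul, map_mul, map_inv, map_inv, hax, inv_mul_cancel]
      intro x y hx hy
      obtain ⟨x₀, hx₀, z, hz, rfl⟩ := key x hx
      obtain ⟨y₀, hy₀, w, hw, rfl⟩ := key y hy
      have e1 := hc x₀ y₀ hx₀ hy₀
      have e2 := Subgroup.mem_center_iff.mp hz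
      have e3 := Subgroup.mem_center_iff.mp hw
      calc x₀ * z * (y₀ * w) = x₀ * (z * y₀) * w := by group
        _ = x₀ * (y₀ * z) * w := by rw [e2 y₀]
        _ = (x₀ * y₀) * (z * w) := by group
        _ = (y₀ * x₀) * (w * z) := by rw [e1, e2 w]
        _ = y₀ * (x₀ * w) * z := by group
        _ = y₀ * (w * x₀) * z := by rw [e3 x₀]
        _ = y₀ * w * (x₀ * z) := by group
  sub := by
    intro S _ _ Γ A A' hA h
    obtain ⟨K, _, _, d, hd, hpK, hp2, hm, hin, π, hπ, hk, hc⟩ := h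
    exact ⟨K, inferInstance, inferInstance, d, hd, hpK, hp2, hm, hin, π, hπ, hk,
      fun x y hx hy => hc x y (hA hx) (hA hy)⟩

theorem aw_linD {p m : ℕ} [Fact p.Prime] : AW p (LinD p m) := by
  have h := aw_or (aw_lin (p := p)) (aw_inn (p := p) (m := m))
  exact ⟨fun f h1 h2 h3 Γ Γ' A h4 h5 h6 => linD_iff.mpr (h.map f h1 h2 h3 Γ Γ' A h4 h5
    (linD_iff.mp h6)), fun h1 h2 => linD_iff.mpr (h.sub h1 (linD_iff.mp h2))⟩

section

variable {K : Type} [Field K] [Finite K] {d : ℕ}

/-- the order of a scalar -/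
theorem card_center_p {p m : ℕ} [Fact p.Prime] (hd : 3 ≤ d)
    (hm : ∀ j, p ^ j ∣ d → p ^ j ∣ Nat.card K - 1 → p ^ j ≤ m)
    {R : Subgroup (SpecialLinearGroup K (Fin d → K))} (hR : IsPGroup p R)
    (hRc : R ≤ Subgroup.center _) : Nat.card R ≤ m := by
  classical
  have hfin : Finite (SpecialLinearGroup K (Fin d → K)) := H799.BN.finite_sl
  have hN : Module.finrank K (Fin d → K) = d := Module.finrank_fin_fun K
  let e := SpecialLinearGroup.centerEquivRootsOfUnity (R := K) (V := Fin d → K)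
  let f : R →* Kˣ := (rootsOfUnity (max (Module.finrank K (Fin d → K)) 1) K).subtype.comp
    (e.toMonoidHom.comp (Subgroup.inclusion hRc))
  have hf : Function.Injective f :=
    Subtype.coe_injective.comp (e.injective.comp (Subgroup.inclusion_injective hRc))
  have hcyc : IsCyclic R := isCyclic_of_subgroup_isDomain ((Units.coeHom K).comp f)
    (Units.val_injective.comp hf)
  obtain ⟨g, hg⟩ := IsCyclic.exists_generator (α := R)
  have hcard : orderOf g = Nat.card R := orderOf_eq_card_of_forall_mem_zpowers hg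
  obtain ⟨j, hj⟩ := IsPGroup.iff_card.mp hR
  have h1 : p ^ j ∣ Nat.card K - 1 := by
    rw [← hj, ← hcard, ← orderOf_injective f hf g]
    have h2 : orderOf (f g) ∣ Nat.card Kˣ := orderOf_dvd_natCard _
    rwa [Nat.card_units] at h2
  have h2 : p ^ j ∣ d := by
    rw [← hj, ← hcard, ← orderOf_injective f hf g]
    apply orderOf_dvd_of_pow_eq_one
    have h3 : f g ^ (max (Module.finrank K (Fin d → K)) 1) = 1 :=
      (mem_rootsOfUnity _ _).mp (e (Subgroup.inclusion hRc g)).2
    have h4 : max (Module.finrank K (Fin d → K)) 1 = d := by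
      rw [hN]
      omega
    rw [h4] at h3
    exact h3
  rw [hj]
  exact hm j h2 h1

end

section Cor

variable {k : Type u} [Field k] [IsAlgClosed k] {p : ℕ} [Fact p.Prime] [CharP k p]
  {C : ℕ → ℕ → ℕ} {n m : ℕ}

/-- one idempotent -/
theorem oneBd_inn (hI : InnStmt.{u} C) {K : Type} [Field K] [Finite K] {d : ℕ} (hd : 3 ≤ d)
    (hpK : ¬ p ∣ Nat.card K) (hp2 : p ≠ 2)
    (hm : ∀ j, p ^ j ∣ d → p ^ j ∣ Nat.card K - 1 → p ^ j ≤ m) {L : Type} [Group L] [Finite L]
    {π : SpecialLinearGroup K (Fin d → K) →* L} (hπ : Function.Surjective π)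
    (hk : π.ker ≤ Subgroup.center _) {Q' : Subgroup L} (hQ' : IsPGroup p Q')
    (hQn : Nat.card Q' ≤ n) (hc : ∀ x y, π x ∈ Q' → π y ∈ Q' → x * y = y * x) :
    OneBd k Q' (C p (n * m)) := by
  have hfin : Finite (SpecialLinearGroup K (Fin d → K)) := H799.BN.finite_sl
  refine H799.BN.oneBd_central hπ hk hQ' fun Q hQ hQQ => ?_
  have hQm : ∀ x ∈ Q, π x ∈ Q' := fun x hx => hQQ ▸ Subgroup.mem_map_of_mem π hx
  have hcard : Nat.card Q ≤ n * m := by
    set f : Q →* L := π.comp Q.subtype with hf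
    have h1 : Nat.card f.ker * f.ker.index = Nat.card Q := Subgroup.card_mul_index _
    rw [Subgroup.index_ker] at h1
    have h2 : Nat.card f.range ≤ n := by
      have h3 : f.range ≤ Q' := by
        rintro _ ⟨x, rfl⟩
        exact hQm x x.2
      exact (Nat.card_le_card_of_injective _ (Subgroup.inclusion_injective h3)).trans hQn
    have h4 : Nat.card f.ker ≤ m := by
      have h5 : Nat.card (f.ker.map Q.subtype) ≤ m := by
        refine card_center_p hd hm ((hQ.to_subgroup f.ker).map _) ?_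
        rintro _ ⟨x, hx, rfl⟩
        exact hk hx
      rwa [Subgroup.card_map_of_injective Q.subtype_injective] at h5
    rw [← h1, mul_comm]
    exact Nat.mul_le_mul h2 h4
  refine R2.H799.BG.oneBd_mono (hI p (n * m) k K d hp2 hd hpK Q hQ hcard
    (fun x hx y hy => hc x y (hQm x hx) (hQm y hy))) ?_
  exact Nat.le_mul_of_pos_left _ Nat.card_pos

/-- The corner property. -/
theorem corP_innD (hI : InnStmt.{u} C) {G : Type} [Group G] [Finite G] {D L : Subgroup G}
    (hD : IsPGroup p D) (hDn : Nat.card D ≤ n) (h : InnD p m L (Gam D L) (D.subgroupOf L))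
    (b : MonoidAlgebra k G) : CorP p (C p (n * m)) b D L := by
  obtain ⟨K, _, _, d, hd, hpK, hp2, hm, hin, π, hπ, hk, hc⟩ := h
  refine corP_of_one hD (Oc.sup_of_Gam hin) (fun Q hQ => ?_) b
  have hQp : IsPGroup p Q := (hD.comap_of_injective L.subtype L.subtype_injective).to_le hQ
  have hQn : Nat.card Q ≤ n := by
    refine le_trans ?_ hDn
    refine (Nat.card_le_card_of_injective
      (fun x : Q => (⟨((x : L) : G), hQ x.2⟩ : D)) ?_)
    intro x y hxy
    have h' : ((x : L) : G) = ((y : L) : G) := congrArg (fun w : D => (w : G)) hxy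
    exact Subtype.ext (Subtype.ext h')
  exact oneBd_inn hI hd hpK hp2 hm hπ hk hQp hQn fun x y hx hy => hc x y (hQ hx) (hQ hy)

end Cor

end Vale.Agent.P180.H392
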