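import Vale.Agent.P180.H392.DefE
import Vale.Agent.P180.H392.CorC
import Vale.Agent.P180.H392.AwC
import Vale.Agent.P180.R2.H799.BNP2
import Vale.Agent.P180.H568.OutL

/-!
P180: the class of special linear groups on which `Γ` acts through the general linear group.
-/

set_option linter.all false

namespace Vale.Agent.P180.H392

open Module Vale.Agent.P180 Vale.Agent.P180.H768.Gd Vale.Agent.P180.R2.H471.Hc Vale.Agent.P180.R2
  Vale.Agent.P180.R2.H365 Vale.Agent.P180.R2.H47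
open Vale.Agent.P180.H568.Out (cjS)

universe u

/-- The statement on components of type `SL_d(K)` on which `D` acts through `GL_d(K)`. -/
def OutStmt (C : ℕ → ℕ → ℕ → ℕ) : Prop :=
  ∀ (p n m : ℕ) [Fact p.Prime] (k : Type u) [Field k] [IsAlgClosed k] [CharP k p] (K : Type)
    [Field K] [Finite K] (d : ℕ) (G : Type) [Group G] [Finite G] (D L : Subgroup G)
    (π : SpecialLinearGroup K (Fin d → K) →* L) (b : MonoidAlgebra k G), 3 ≤ d →
    ¬ p ∣ Nat.card K → (∀ j, p ^ j ∣ d → p ^ j ∣ Nat.card K - 1 → p ^ j ≤ m) →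
    IsPGroup p D → Nat.card D ≤ n → Function.Surjective π → π.ker ≤ Subgroup.center _ →
    (∀ r ∈ D ⊓ Subgroup.normalizer (L : Set G), ∃ g : (Fin d → K) ≃ₗ[K] (Fin d → K),
      ∀ x, ((π (cjS g x) : L) : G) = r * (π x : L) * r⁻¹) →
    Eng (max 1 (p - 2)) ((D.subgroupOf L).comap π) →
    (∃ x ∈ D, x ∈ L ∧ ¬ ∀ y ∈ L, x * y = y * x) →
    b ∈ Fix (cj k G) ⊤ → br D b ≠ 0 → CorP p (C p n m) b D L

/-- `p`-elements act through the general linear group -/
def GlStmt : Prop :=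
  ∀ (p : ℕ) [Fact p.Prime] (K : Type) [Field K] [Finite K] (d : ℕ) (L : Type) [Group L] [Finite L]
    (π : SpecialLinearGroup K (Fin d → K) →* L) (α : MulAut L) (i : ℕ), 3 ≤ d →
    ¬ p ∣ 2 * Nat.card (K ≃+* K) → Function.Surjective π → π.ker ≤ Subgroup.center _ →
    commutator L = ⊤ → α ^ p ^ i = 1 →
    ∃ g : (Fin d → K) ≃ₗ[K] (Fin d → K), ∀ x, π (cjS g x) = α (π x)

/-- The second alternative of `LinE`. -/
def OutX (p m : ℕ) (L : Type) [Group L] (Γ : Subgroup (MulAut L)) (A : Subgroup L) : Prop :=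
  ∃ (K : Type) (_ : Field K) (_ : Finite K) (d : ℕ), 3 ≤ d ∧ ¬ p ∣ Nat.card K ∧
    OutE p m d K (Fin d → K) L Γ A

theorem linE_iff {p m : ℕ} {L : Type} [Group L] {Γ : Subgroup (MulAut L)} {A : Subgroup L} :
    LinE p m L Γ A ↔ LinCls p L Γ A ∨ OutX p m L Γ A := by
  constructor
  · rintro ⟨K, _, _, d, hd, hpK, h | h⟩
    · exact Or.inl ⟨K, inferInstance, inferInstance, d, hd, hpK, h⟩
    · exact Or.inr ⟨K, inferInstance, inferInstance, d, hd, hpK, h⟩
  · rintro (⟨K, _, _, d, hd, hpK, h⟩ | ⟨K, _, _, d, hd, hpK, h⟩)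
    · exact ⟨K, inferInstance, inferInstance, d, hd, hpK, Or.inl h⟩
    · exact ⟨K, inferInstance, inferInstance, d, hd, hpK, Or.inr h⟩

theorem isoE_iff {p : ℕ} {L : Type} [Group L] {Γ : Subgroup (MulAut L)} {A : Subgroup L} :
    IsoE p L Γ A ↔ IsoCls p L Γ A := Iff.rfl

section Eng

/-- the commutator with `x` -/
def cmE {S : Type} [Group S] (x t : S) : S := x * t * x⁻¹ * t⁻¹

theorem cmE_map {S T : Type} [Group S] [Group T] (f : S →* T) (x y : S) (r : ℕ) :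
    f ((fun t => x * t * x⁻¹ * t⁻¹)^[r] y) = (fun t => f x * t * (f x)⁻¹ * t⁻¹)^[r] (f y) := by
  induction r generalizing y with
  | zero => rfl
  | succ r ih =>
    rw [Function.iterate_succ_apply, Function.iterate_succ_apply, ih, map_mul, map_mul, map_mul,
      map_inv, map_inv]

theorem eng_mono {r : ℕ} {S : Type} [Group S] {A B : Subgroup S} (h : A ≤ B) (hB : Eng r B) :
    Eng r A := fun x hx y hy => hB x (h hx) y (h hy)

/-- central factors do not change the commutators -/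
theorem iter_center {S : Type} [Group S] {x y z w : S} (hz : z ∈ Subgroup.center S)
    (hw : w ∈ Subgroup.center S) {r : ℕ} (hr : 1 ≤ r) :
    (fun t => (x * z) * t * (x * z)⁻¹ * t⁻¹)^[r] (y * w) =
      (fun t => x * t * x⁻¹ * t⁻¹)^[r] y := by
  have e2 := Subgroup.mem_center_iff.mp hz
  have e3 := Subgroup.mem_center_iff.mp hw
  have h1 : ∀ t, (x * z) * t * (x * z)⁻¹ * t⁻¹ = x * t * x⁻¹ * t⁻¹ := by
    intro t
    rw [mul_inv_rev, mul_assoc x z t, ← e2 t]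
    group
  have h2 : x * (y * w) * x⁻¹ * (y * w)⁻¹ = x * y * x⁻¹ * y⁻¹ := by
    rw [mul_inv_rev, ← mul_assoc x y w, mul_assoc (x * y) w x⁻¹, ← e3 x⁻¹]
    group
  obtain ⟨s, rfl⟩ : ∃ s, r = s + 1 := ⟨r - 1, by omega⟩
  rw [Function.iterate_succ_apply, Function.iterate_succ_apply]
  have h3 : (fun t => (x * z) * t * (x * z)⁻¹ * t⁻¹) = fun t => x * t * x⁻¹ * t⁻¹ := funext h1
  rw [h3]
  exact congrArg _ ((h1 (y * w)).trans h2)

end Eng

theorem aw_out {p m : ℕ} [Fact p.Prime] : AW p (OutX p m) where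
  map := by
    intro S S' _ _ _ _ f hf hker hS Γ Γ' A hA hΓ h
    obtain ⟨K, _, _, d, hd, hpK, π, hπ, hk, hc, hg, hm⟩ := h
    have hcen : ∀ x, f (π x) = 1 → x ∈ Subgroup.center (SpecialLinearGroup K (Fin d → K)) := by
      intro x hx
      refine center_of_quot π hπ hk hS ?_
      rw [Subgroup.mem_center_iff]
      exact fun y => (hker (π x) hx y).symm
    refine ⟨K, inferInstance, inferInstance, d, hd, hpK, f.comp π, hf.comp hπ,
      fun x hx => hcen x hx, ?_, hg.imp_right fun hg => ?_, hm⟩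
    · have key : ∀ x, f (π x) ∈ A.map f → ∃ x₀, π x₀ ∈ A ∧
          ∃ z ∈ Subgroup.center (SpecialLinearGroup K (Fin d → K)), x = x₀ * z := by
        rintro x ⟨a, ha, hax⟩
        obtain ⟨x₀, rfl⟩ := hπ a
        refine ⟨x₀, ha, x₀⁻¹ * x, hcen _ ?_, (mul_inv_cancel_left _ _).symm⟩
        rw [map_mul, map_mul, map_inv, map_inv, hax, inv_mul_cancel]
      intro x hx y hy
      obtain ⟨x₀, hx₀, z, hz, rfl⟩ := key x hx
      obtain ⟨y₀, hy₀, w, hw, rfl⟩ := key y hy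
      rw [iter_center hz hw (le_max_left _ _)]
      exact hc x₀ hx₀ y₀ hy₀
    · intro α' hα'
      obtain ⟨α, hα, h5⟩ := hΓ α' hα'
      obtain ⟨g, hgb, hga, hgs, hg⟩ := hg α hα
      refine ⟨g, hgb, hga, hgs, fun s t hst => ?_⟩
      rw [MonoidHom.comp_apply, MonoidHom.comp_apply, ← hg s t hst, h5]
  sub := by
    intro S _ _ Γ A A' hA h
    obtain ⟨K, _, _, d, hd, hpK, π, hπ, hk, hc, hg, hm⟩ := h
    exact ⟨K, inferInstance, inferInstance, d, hd, hpK, π, hπ, hk,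
      eng_mono (Subgroup.comap_mono hA) hc, hg, hm⟩

theorem aw_linE {p m : ℕ} [Fact p.Prime] : AW p (LinE p m) := by
  have h := aw_or (aw_lin (p := p)) (aw_out (p := p) (m := m))
  exact ⟨fun f h1 h2 h3 Γ Γ' A h4 h5 h6 => linE_iff.mpr (h.map f h1 h2 h3 Γ Γ' A h4 h5
    (linE_iff.mp h6)), fun h1 h2 => linE_iff.mpr (h.sub h1 (linE_iff.mp h2))⟩

theorem cjS_spec {K V : Type} [Field K] [AddCommGroup V] [Module K V] (g : V ≃ₗ[K] V)
    (x : SpecialLinearGroup K V) (v : V) : (cjS g x).1 (g v) = g (x.1 v) := by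
  change g (x.1 (g⁻¹ (g v))) = g (x.1 v)
  rw [show g⁻¹ (g v) = v from g.symm_apply_apply v]

section Cor

variable {k : Type u} [Field k] [IsAlgClosed k] {p : ℕ} [Fact p.Prime] [CharP k p]
  {C : ℕ → ℕ → ℕ → ℕ} {n m : ℕ}

/-- The corner property. -/
theorem corP_outX (hO : OutStmt.{u} C) (hG : GlStmt) {G : Type} [Group G] [Finite G]
    {D L : Subgroup G} (hD : IsPGroup p D) (hDn : Nat.card D ≤ n) (hperf : commutator L = ⊤)
    (h : OutX p m L (Gam D L) (D.subgroupOf L)) {b : MonoidAlgebra k G}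
    (hr : ∃ x ∈ D, x ∈ L ∧ ¬ ∀ y ∈ L, x * y = y * x) (hbF : b ∈ Fix (cj k G) ⊤)
    (hb : br D b ≠ 0) : CorP p (C p n m) b D L := by
  obtain ⟨K, _, _, d, hd, hpK, π, hπ, hk, hc, hg, hm⟩ := h
  refine hO p n m k K d G D L π b hd hpK hm hD hDn hπ hk (fun r hrN => ?_) hc hr hbF hb
  rcases hg with hg | hg
  · obtain ⟨i, hi⟩ := hD ⟨r, hrN.1⟩
    have hi' : r ^ p ^ i = 1 := congrArg Subtype.val hi
    have hα : (L.normalizerMonoidHom ⟨r, hrN.2⟩) ^ (p ^ i) = 1 := by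
      have h1 : (⟨r, hrN.2⟩ : Subgroup.normalizer (L : Set G)) ^ (p ^ i) = 1 := Subtype.ext hi'
      rw [← map_pow, h1, map_one]
    obtain ⟨g, h⟩ := hG p K d L π _ i hd hg hπ hk hperf hα
    exact ⟨g, fun x => by rw [h x]; rfl⟩
  · obtain ⟨g, hgb, hga, hgs, hg⟩ := hg (L.normalizerMonoidHom ⟨r, hrN.2⟩) ⟨⟨r, hrN.2⟩, hrN.1, rfl⟩
    let g' : (Fin d → K) ≃ₗ[K] (Fin d → K) := LinearEquiv.ofBijective
      { toFun := g
        map_add' := hga
        map_smul' := hgs } hgb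
    exact ⟨g', fun x => by rw [← hg x (cjS g' x) (cjS_spec g' x)]; rfl⟩

end Cor

end Vale.Agent.P180.H392
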