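import Vale.Agent.P180.H392.DefF
import Vale.Agent.P180.H392.CorE
import Vale.Agent.P180.H393.FixC

/-!
P180: the class of special linear groups on which `Γ` acts through the general linear group.
-/

set_option linter.all false

namespace Vale.Agent.P180.H392

open Module Vale.Agent.P180 Vale.Agent.P180.H768.Gd Vale.Agent.P180.R2.H471.Hc Vale.Agent.P180.R2
  Vale.Agent.P180.R2.H365 Vale.Agent.P180.R2.H47
open Vale.Agent.P180.H568.Out (cjS)

universe u

/-- The second alternative of `LinF`. -/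
def OutY (p m : ℕ) (L : Type) [Group L] (Γ : Subgroup (MulAut L)) (A : Subgroup L) : Prop :=
  ∃ (K : Type) (_ : Field K) (_ : Finite K) (d : ℕ), 3 ≤ d ∧ ¬ p ∣ Nat.card K ∧
    OutF p m d K (Fin d → K) L Γ A

theorem linF_iff {p m : ℕ} {L : Type} [Group L] {Γ : Subgroup (MulAut L)} {A : Subgroup L} :
    LinF p m L Γ A ↔ LinCls p L Γ A ∨ OutY p m L Γ A := by
  constructor
  · rintro ⟨K, _, _, d, hd, hpK, h | h⟩
    · exact Or.inl ⟨K, inferInstance, inferInstance, d, hd, hpK, h⟩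
    · exact Or.inr ⟨K, inferInstance, inferInstance, d, hd, hpK, h⟩
  · rintro (⟨K, _, _, d, hd, hpK, h⟩ | ⟨K, _, _, d, hd, hpK, h⟩)
    · exact ⟨K, inferInstance, inferInstance, d, hd, hpK, Or.inl h⟩
    · exact ⟨K, inferInstance, inferInstance, d, hd, hpK, Or.inr h⟩

theorem outY_of_outX {p m : ℕ} {L : Type} [Group L] {Γ : Subgroup (MulAut L)} {A : Subgroup L}
    (h : OutX p m L Γ A) : OutY p m L Γ A := by
  obtain ⟨K, _, _, d, hd, hpK, π, hπ, hk, hc, hg, hm⟩ := h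
  exact ⟨K, inferInstance, inferInstance, d, hd, hpK, π, hπ, hk, hc, hg.imp_right Or.inl, hm⟩

theorem isoF_iff {p : ℕ} {L : Type} [Group L] {Γ : Subgroup (MulAut L)} {A : Subgroup L} :
    IsoF p L Γ A ↔ IsoCls p L Γ A := Iff.rfl

theorem aw_outY {p m : ℕ} [Fact p.Prime] : AW p (OutY p m) where
  map := by
    intro S S' _ _ _ _ f hf hker hS Γ Γ' A hA hΓ h
    obtain ⟨K, _, _, d, hd, hpK, π, hπ, hk, hc, hg, hm⟩ := h
    have hcen : ∀ x, f (π x) = 1 → x ∈ Subgroup.center (SpecialLinearGroup K (Fin d → K)) := by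
      intro x hx
      refine center_of_quot π hπ hk hS ?_
      rw [Subgroup.mem_center_iff]
      exact fun y => (hker (π x) hx y).symm
    refine ⟨K, inferInstance, inferInstance, d, hd, hpK, f.comp π, hf.comp hπ,
      fun x hx => hcen x hx, ?_, hg.imp_right fun hg => hg.imp (fun hg => ?_) fun hg =>
        ⟨hg.1, H393.FixE.map f hf hker hS hΓ hg.2⟩, hm⟩
    · have key : ∀ x, f (π x) ∈ A.map f → ∃ x₀, π x₀ ∈ A ∧
          ∃ z ∈ Subgroup.center (SpecialLinearGroup K (Fin d → K)), x = x₀ * z := by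
        rintro x ⟨a, ha, hax⟩
        obtain ⟨x₀, rfl⟩ := hπ a
        refine ⟨x₀, ha, x₀⁻¹ * x, hcen _ ?_, (mul_inv_cancel_left _ _).symm⟩
        rw [map_mul, map_mul, map_inv, map_inv, hax, inv_mul_cancel]
      intro x hx y hy
      obtain ⟨x₀, hx₀, z, hz, rfl⟩ := key x hx
      obtain ⟨y₀, hy₀, w, hw, rfl⟩ := key y hy
      rw [iter_center hz hw (le_max_left _ _)]
      exact hc x₀ hx₀ y₀ hy₀
    · intro α' hα'
      obtain ⟨α, hα, h5⟩ := hΓ α' hα'
      obtain ⟨g, hgb, hga, hgs, hg⟩ := hg α hα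
      refine ⟨g, hgb, hga, hgs, fun s t hst => ?_⟩
      rw [MonoidHom.comp_apply, MonoidHom.comp_apply, ← hg s t hst, h5]
  sub := by
    intro S _ _ Γ A A' hA h
    obtain ⟨K, _, _, d, hd, hpK, π, hπ, hk, hc, hg, hm⟩ := h
    exact ⟨K, inferInstance, inferInstance, d, hd, hpK, π, hπ, hk,
      eng_mono (Subgroup.comap_mono hA) hc,
      hg.imp_right fun hg => hg.imp_right fun hg => ⟨hg.1, H393.FixE.sub hA hg.2⟩, hm⟩

theorem aw_linF {p m : ℕ} [Fact p.Prime] : AW p (LinF p m) := by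
  have h := aw_or (aw_lin (p := p)) (aw_outY (p := p) (m := m))
  exact ⟨fun f h1 h2 h3 Γ Γ' A h4 h5 h6 => linF_iff.mpr (h.map f h1 h2 h3 Γ Γ' A h4 h5
    (linF_iff.mp h6)), fun h1 h2 => linF_iff.mpr (h.sub h1 (linF_iff.mp h2))⟩

section Cor

variable {k : Type u} [Field k] [IsAlgClosed k] {p : ℕ} [Fact p.Prime] [CharP k p]
  {C : ℕ → ℕ → ℕ → ℕ} {n m : ℕ}

/-- The corner property. -/
theorem corP_outY (hO : OutStmt.{u} C) (hG : GlStmt) (hT : H393.ThruStmt.{u}) {G : Type} [Group G] [Finite G]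
    {D L : Subgroup G} (hD : IsPGroup p D) (hDn : Nat.card D ≤ n) (hperf : commutator L = ⊤)
    (h : OutY p m L (Gam D L) (D.subgroupOf L)) {b : MonoidAlgebra k G}
    (hr : ∃ x ∈ D, x ∈ L ∧ ¬ ∀ y ∈ L, x * y = y * x) (hbF : b ∈ Fix (cj k G) ⊤)
    (hb : br D b ≠ 0) : CorP p (C p n m) b D L := by
  obtain ⟨K, _, _, d, hd, hpK, π, hπ, hk, hc, hg | hg | ⟨h2, hg⟩, hm⟩ := h
  rotate_left 2
  · exact H393.corP_fix hO hT h2 hd hpK hm hD hDn hπ hk hg hc hr hbF hb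
  all_goals
    refine hO p n m k K d G D L π b hd hpK hm hD hDn hπ hk (fun r hrN => ?_) hc hr hbF hb
  · obtain ⟨i, hi⟩ := hD ⟨r, hrN.1⟩
    have hi' : r ^ p ^ i = 1 := congrArg Subtype.val hi
    have hα : (L.normalizerMonoidHom ⟨r, hrN.2⟩) ^ (p ^ i) = 1 := by
      have h1 : (⟨r, hrN.2⟩ : Subgroup.normalizer (L : Set G)) ^ (p ^ i) = 1 := Subtype.ext hi'
      rw [← map_pow, h1, map_one]
    obtain ⟨g, h⟩ := hG p K d L π _ i hd hg hπ hk hperf hα
    exact ⟨g, fun x => by rw [h x]; rfl⟩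
  · obtain ⟨g, hgb, hga, hgs, hg⟩ := hg (L.normalizerMonoidHom ⟨r, hrN.2⟩) ⟨⟨r, hrN.2⟩, hrN.1, rfl⟩
    let g' : (Fin d → K) ≃ₗ[K] (Fin d → K) := LinearEquiv.ofBijective
      { toFun := g
        map_add' := hga
        map_smul' := hgs } hgb
    exact ⟨g', fun x => by rw [← hg x (cjS g' x) (cjS_spec g' x)]; rfl⟩

end Cor

end Vale.Agent.P180.H392
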