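import Vale.Agent.P180.H392.DefG
import Vale.Agent.P180.H392.CorF
import Vale.Agent.P180.H568.OutT

/-!
P180: the class of special linear groups on which `Γ` acts through the general linear group, with
the case of large `(|K| - 1)_p`.
-/

set_option linter.all false

namespace Vale.Agent.P180.H392

open Module Vale.Agent.P180 Vale.Agent.P180.H768.Gd Vale.Agent.P180.R2.H471.Hc Vale.Agent.P180.R2
  Vale.Agent.P180.R2.H365 Vale.Agent.P180.R2.H47
open Vale.Agent.P180.H568.Out (cjS OutStmtN)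

universe u

/-- The second alternative of `LinG`. -/
def OutW (p n m : ℕ) (L : Type) [Group L] (Γ : Subgroup (MulAut L)) (A : Subgroup L) : Prop :=
  ∃ (K : Type) (_ : Field K) (_ : Finite K) (d : ℕ), 3 ≤ d ∧ ¬ p ∣ Nat.card K ∧
    OutG p n m d K (Fin d → K) L Γ A

theorem linG_iff {p n m : ℕ} {L : Type} [Group L] {Γ : Subgroup (MulAut L)} {A : Subgroup L} :
    LinG p n m L Γ A ↔ LinCls p L Γ A ∨ OutW p n m L Γ A := by
  constructor
  · rintro ⟨K, _, _, d, hd, hpK, h | h⟩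
    · exact Or.inl ⟨K, inferInstance, inferInstance, d, hd, hpK, h⟩
    · exact Or.inr ⟨K, inferInstance, inferInstance, d, hd, hpK, h⟩
  · rintro (⟨K, _, _, d, hd, hpK, h⟩ | ⟨K, _, _, d, hd, hpK, h⟩)
    · exact ⟨K, inferInstance, inferInstance, d, hd, hpK, Or.inl h⟩
    · exact ⟨K, inferInstance, inferInstance, d, hd, hpK, Or.inr h⟩

theorem outW_of_outX {p n m : ℕ} {L : Type} [Group L] {Γ : Subgroup (MulAut L)} {A : Subgroup L}
    (h : OutX p m L Γ A) : OutW p n m L Γ A := by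
  obtain ⟨K, _, _, d, hd, hpK, π, hπ, hk, hc, hg, hm⟩ := h
  exact ⟨K, inferInstance, inferInstance, d, hd, hpK, π, hπ, hk, hm, Or.inl ⟨hg, Or.inl hc⟩⟩

theorem isoG_iff {p : ℕ} {L : Type} [Group L] {Γ : Subgroup (MulAut L)} {A : Subgroup L} :
    IsoG p L Γ A ↔ IsoCls p L Γ A := Iff.rfl

theorem aw_outW {p n m : ℕ} [Fact p.Prime] : AW p (OutW p n m) where
  map := by
    intro S S' _ _ _ _ f hf hker hS Γ Γ' A hA hΓ h
    obtain ⟨K, _, _, d, hd, hpK, π, hπ, hk, hm, h⟩ := h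
    have hcen : ∀ x, f (π x) = 1 → x ∈ Subgroup.center (SpecialLinearGroup K (Fin d → K)) := by
      intro x hx
      refine center_of_quot π hπ hk hS ?_
      rw [Subgroup.mem_center_iff]
      exact fun y => (hker (π x) hx y).symm
    have hE : EngG (max 1 (p - 2)) (A.comap π) →
        EngG (max 1 (p - 2)) ((A.map f).comap (f.comp π)) := by
      intro hc
      have key : ∀ x, f (π x) ∈ A.map f → ∃ x₀, π x₀ ∈ A ∧
          ∃ z ∈ Subgroup.center (SpecialLinearGroup K (Fin d → K)), x = x₀ * z := by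
        rintro x ⟨a, ha, hax⟩
        obtain ⟨x₀, rfl⟩ := hπ a
        refine ⟨x₀, ha, x₀⁻¹ * x, hcen _ ?_, (mul_inv_cancel_left _ _).symm⟩
        rw [map_mul, map_mul, map_inv, map_inv, hax, inv_mul_cancel]
      intro x hx y hy
      obtain ⟨x₀, hx₀, z, hz, rfl⟩ := key x hx
      obtain ⟨y₀, hy₀, w, hw, rfl⟩ := key y hy
      rw [iter_center hz hw (le_max_left _ _)]
      exact hc x₀ hx₀ y₀ hy₀
    refine ⟨K, inferInstance, inferInstance, d, hd, hpK, f.comp π, hf.comp hπ,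
      fun x hx => hcen x hx, hm, ?_⟩
    refine h.imp (fun h => ⟨h.1.imp_right fun hg => ?_, h.2.imp_left hE⟩) fun h =>
      ⟨⟨h.1.1, H393.FixE.map f hf hker hS hΓ h.1.2⟩, hE h.2⟩
    intro α' hα'
    obtain ⟨α, hα, h5⟩ := hΓ α' hα'
    obtain ⟨g, hgb, hga, hgs, hg⟩ := hg α hα
    refine ⟨g, hgb, hga, hgs, fun s t hst => ?_⟩
    rw [MonoidHom.comp_apply, MonoidHom.comp_apply, ← hg s t hst, h5]
  sub := by
    intro S _ _ Γ A A' hA h
    obtain ⟨K, _, _, d, hd, hpK, π, hπ, hk, hm, h⟩ := h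
    have hE : EngG (max 1 (p - 2)) (A.comap π) → EngG (max 1 (p - 2)) (A'.comap π) := fun hc =>
      eng_mono (Subgroup.comap_mono hA) hc
    exact ⟨K, inferInstance, inferInstance, d, hd, hpK, π, hπ, hk, hm,
      h.imp (fun h => ⟨h.1, h.2.imp_left hE⟩) fun h =>
        ⟨⟨h.1.1, H393.FixE.sub hA h.1.2⟩, hE h.2⟩⟩

theorem aw_linG {p n m : ℕ} [Fact p.Prime] : AW p (LinG p n m) := by
  have h := aw_or (aw_lin (p := p)) (aw_outW (p := p) (n := n) (m := m))
  exact ⟨fun f h1 h2 h3 Γ Γ' A h4 h5 h6 => linG_iff.mpr (h.map f h1 h2 h3 Γ Γ' A h4 h5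
    (linG_iff.mp h6)), fun h1 h2 => linG_iff.mpr (h.sub h1 (linG_iff.mp h2))⟩

/-- the form with the `p`-part -/
theorem large_ord {p n m q : ℕ} (hp : p.Prime) (hq : q - 1 ≠ 0) (h : Large p n m q) :
    n * m < p * (ordProj[p] (q - 1)) ^ (p - 1) := by
  obtain ⟨a, ha, h⟩ := h
  refine h.trans_le (Nat.mul_le_mul_left _ (Nat.pow_le_pow_left ?_ _))
  exact Nat.pow_le_pow_right hp.pos ((hp.pow_dvd_iff_le_factorization hq).mp ha)

section Cor

variable {k : Type u} [Field k] [IsAlgClosed k] {p : ℕ} [Fact p.Prime] [CharP k p]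
  {C : ℕ → ℕ → ℕ → ℕ} {n m : ℕ}

/-- The corner property. -/
theorem corP_outW (hO : OutStmtN.{u} C) (hG : GlStmt) (hT : H393.ThruStmt.{u}) {G : Type} [Group G]
    [Finite G] {D L : Subgroup G} (hD : IsPGroup p D) (hDn : Nat.card D ≤ n)
    (hperf : commutator L = ⊤) (h : OutW p n m L (Gam D L) (D.subgroupOf L)) {b : MonoidAlgebra k G}
    (hr : ∃ x ∈ D, x ∈ L ∧ ¬ ∀ y ∈ L, x * y = y * x) (hbF : b ∈ Fix (cj k G) ⊤)
    (hb : br D b ≠ 0) : CorP p (C p n m) b D L := by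
  obtain ⟨K, _, _, d, hd, hpK, π, hπ, hk, hm, ⟨hg, hc⟩ | ⟨⟨h2, hg⟩, hc⟩⟩ := h
  rotate_left
  · refine H393.corP_fix (C := C) ?_ hT h2 hd hpK hm hD hDn hπ hk hg hc hr hbF hb
    intro p n m _ k _ _ _ K _ _ d G _ _ D L π b hd hpK hm hD hDn hπ hk hact hE hr hbF hb
    exact hO p n m k K d G D L π b hd hpK hm hD hDn hπ hk hact (Or.inl hE) hr hbF hb
  have hq : Nat.card K - 1 ≠ 0 := by
    have h1 : 1 < Nat.card K := Finite.one_lt_card
    omega
  refine hO p n m k K d G D L π b hd hpK hm hD hDn hπ hk (fun r hrN => ?_)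
    (hc.imp (fun h => h) (large_ord Fact.out hq)) hr hbF hb
  rcases hg with hg | hg
  · obtain ⟨i, hi⟩ := hD ⟨r, hrN.1⟩
    have hi' : r ^ p ^ i = 1 := congrArg Subtype.val hi
    have hα : (L.normalizerMonoidHom ⟨r, hrN.2⟩) ^ (p ^ i) = 1 := by
      have h1 : (⟨r, hrN.2⟩ : Subgroup.normalizer (L : Set G)) ^ (p ^ i) = 1 := Subtype.ext hi'
      rw [← map_pow, h1, map_one]
    obtain ⟨g, h⟩ := hG p K d L π _ i hd hg hπ hk hperf hα
    exact ⟨g, fun x => by rw [h x]; rfl⟩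
  · obtain ⟨g, hgb, hga, hgs, hg⟩ := hg (L.normalizerMonoidHom ⟨r, hrN.2⟩) ⟨⟨r, hrN.2⟩, hrN.1, rfl⟩
    let g' : (Fin d → K) ≃ₗ[K] (Fin d → K) := LinearEquiv.ofBijective
      { toFun := g
        map_add' := hga
        map_smul' := hgs } hgb
    exact ⟨g', fun x => by rw [← hg x (cjS g' x) (cjS_spec g' x)]; rfl⟩

end Cor

end Vale.Agent.P180.H392
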