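import Vale.Agent.P180.R2.H365.Def10

/-!
P180: the class of special linear groups of unbounded dimension.
-/

namespace Vale.Agent.P180

/-- The subspace `W` is invariant under the linear maps in `S`, and each linear combination of
elements of `S` is zero on `W` or injective on `W`. (For example: `W` is a space of common fixed
points of the elements of `S`.) -/
def HomOn {K E : Type} [Field K] [AddCommGroup E] [Module K E] (S : Set (E →ₗ[K] E))
    (W : Submodule K E) : Prop :=
  (∀ g ∈ S, ∀ w ∈ W, g w ∈ W) ∧
  ∀ x ∈ Submodule.span K S, (∀ w ∈ W, x w = 0) ∨ ∀ w ∈ W, x w = 0 → w = 0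

/-- The elements of `p`-power order of `SL(E)` with image in `A`. -/
def OverA (p : ℕ) {K E : Type} [Field K] [AddCommGroup E] [Module K E] {L : Type} [Group L]
    (π : SpecialLinearGroup K E →* L) (A : Subgroup L) : Set (SpecialLinearGroup K E) :=
  {x | (∃ i, x ^ (p ^ i) = 1) ∧ π x ∈ A}

/-- The elements of `OverA` commute, and there is a subspace `W` of `E` of codimension at most `m` as
in `HomOn` for these elements. -/
def SuppOn (p m : ℕ) {K E : Type} [Field K] [AddCommGroup E] [Module K E] {L : Type} [Group L]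
    (π : SpecialLinearGroup K E →* L) (A : Subgroup L) : Prop :=
  (∀ x ∈ OverA p π A, ∀ y ∈ OverA p π A, x * y = y * x) ∧
  ∃ W : Submodule K E, Module.finrank K E ≤ Module.finrank K W + m ∧
    HomOn {u | ∃ x ∈ OverA p π A, u = (x.toLinearEquiv : E →ₗ[K] E)} W

/-- `L` is the quotient of `SL(E)`, `E = K ^ d`, `K` a finite field, `3 ≤ d`, by a group of scalars,
and `SuppOn` holds; `p` does not divide `|K| (|K| - 1)`; and `Γ` consists of inner automorphisms of
`L`, or `p` does not divide the order of the group of automorphisms of `K`. -/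
def LinUnb (p m : ℕ) (L : Type) [Group L] (Γ : Subgroup (MulAut L)) (A : Subgroup L) : Prop :=
  ∃ (K : Type) (_ : Field K) (_ : Finite K) (d : ℕ)
    (π : SpecialLinearGroup K (Fin d → K) →* L),
    3 ≤ d ∧ ¬ p ∣ Nat.card K ∧ ¬ p ∣ Nat.card K - 1 ∧
    Function.Surjective π ∧ π.ker ≤ Subgroup.center _ ∧
    (Γ ≤ (MulAut.conj : L →* MulAut L).range ∨ ¬ p ∣ Nat.card (K ≃+* K)) ∧ SuppOn p m π A

end Vale.Agent.P180
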