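import Vale.Agent.P180.R2.H47.SecDef

/-!
P180: the class of special linear groups of arbitrary dimension.
-/

namespace Vale.Agent.P180

open Vale.Agent.P180.R2.H365

/-- `L` is the quotient of `SL_d(K)`, `K` a finite field and `3 ≤ d`, by a group of scalars; `p` does
not divide `|K|`, `d` is as in `LinDeg`; and `(L, Γ, A)` is as in `CenOn`, or both (1) `Γ` consists
of inner automorphisms of `L`, or `p` does not divide twice the order of the group of automorphisms
of `K`, or `A` has exponent `1` or `p` modulo the centre of `L`, and (2) `A` is commutative, or the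
image of `A` in `L / Z(L)` has order less than `p ^ p`. -/
def LinAb (p : ℕ) (L : Type) [Group L] (Γ : Subgroup (MulAut L)) (A : Subgroup L) : Prop :=
  ∃ (K : Type) (_ : Field K) (_ : Finite K) (d : ℕ), 3 ≤ d ∧ ¬ p ∣ Nat.card K ∧
    LinDeg p d (Nat.card K) ∧ LinOn K (Fin d → K) L ∧
    (CenOn p L Γ A ∨
      ((Γ ≤ (MulAut.conj : L →* MulAut L).range ∨ ¬ p ∣ 2 * Nat.card (K ≃+* K) ∨ ExpOn p L A) ∧
        ((∀ x ∈ A, ∀ y ∈ A, x * y = y * x) ∨ SmallOn p L A)))

/-- `T` is isomorphic to `PSL_d(K)`, `K` a finite field and `3 ≤ d`; `p` does not divide `|K|`, `d`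
is as in `LinDeg`; and `P` is abelian or the subgroups of `T` which are sections of `P` are
elementary abelian, or both (1) `p` does not divide twice the order of the group of automorphisms of
`K`, or these subgroups have exponent `1` or `p`, and (2) these subgroups are commutative, or they
have order less than `p ^ p`. -/
def LinSec (p : ℕ) (P : Type) [Group P] (T : Type) [Group T] : Prop :=
  ∃ (K : Type) (_ : Field K) (_ : Finite K) (d : ℕ), 3 ≤ d ∧ ¬ p ∣ Nat.card K ∧
    LinDeg p d (Nat.card K) ∧ IsLin d K T ∧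
    (AbS p P T ∨
      ((¬ p ∣ 2 * Nat.card (K ≃+* K) ∨ ExpS p P T) ∧
        ((∀ A : Subgroup T, IsSec P A → ∀ x ∈ A, ∀ y ∈ A, x * y = y * x) ∨ SmallS p P T)))

/-- As `TameAll`, with `TameAct` or `LinAb`. -/
def TameAllB (p n m : ℕ) (P : Type) [Group P] (T : Type) [Group T] : Prop :=
  ∀ (L : Type) [Group L] [Finite L], commutator L = ⊤ →
    Nonempty (L ⧸ Subgroup.center L ≃* T) → ∀ (Γ : Subgroup (MulAut L)) (A : Subgroup L),
    IsSec P Γ → IsPGroup p A → Nat.card A ≤ n → ¬ A ≤ Subgroup.center L →
    (∀ x ∈ A, MulAut.conj x ∈ Γ) → TameAct p m L Γ A ∨ LinAb p L Γ A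

/-- The simple group `T` is tame for `P`: `T` is covered as in `Covered`, where `c` says that `P` is
abelian or all the subgroups of `T` which are sections of `P` are elementary abelian, `e` that all
these subgroups have exponent `1` or `p`, and `s` that they have order less than `p ^ p`; or `T` is
as in `LinSec`; or `Out(T)` is solvable or of order at most `m`, and the `p`-subgroups of `T` are
cyclic and `p` does not divide `|Out(T)|`, or `TameAllB` holds. -/
def TameTB (p n m : ℕ) (P : Type) [Group P] (T : Type) [Group T] : Prop :=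
  Covered (AbS p P T) (ExpS p P T) (SmallS p P T) p n m T ∨ LinSec p P T ∨
  (SmallOut m T ∧ (((∀ A : Subgroup T, IsPGroup p A → IsCyclic A) ∧
    ¬ p ∣ (MulAut.conj : T →* MulAut T).range.index) ∨ TameAllB p n m P T))

/-- The quasisimple subgroup `L` of `G` is as in `TameComp`, or `L`, the group of the automorphisms
of `L` induced by `N_D(L)`, and `D ∩ L` are as in `LinAb`. -/
def TameCompB (p n m : ℕ) {G : Type} [Group G] (D L : Subgroup G) : Prop :=
  TameComp p n m D L ∨ LinAb p L (Gam D L) (D.subgroupOf L)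

/-- `G` has normal subgroups `N 0 ≤ N 1 ≤ ⋯ ≤ N l` with `D ≤ N l`, such that

(1) `N 0` is generated by pairwise commuting quasisimple subgroups `L j` (any number, possibly
none), each of which satisfies `TameCompB`;

(2) for `i < l`, all the nonabelian simple sections `T` of `N (i + 1) / N i` of order divisible by
`p` satisfy `TameTB` for the image `P` of `D` in `G / N i`. -/
def HasTameSectionsB (p n m : ℕ) {G : Type} [Group G] (D : Subgroup G) : Prop :=
  ∃ (l : ℕ) (N : ℕ → Subgroup G) (_ : ∀ i, (N i).Normal),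
    (∃ (r : ℕ) (L : Fin r → Subgroup G),
      (∀ i j, i ≠ j → ∀ x ∈ L i, ∀ y ∈ L j, x * y = y * x) ∧ N 0 = ⨆ j, L j ∧
      ∀ j, IsQuasisimple (L j) ∧ TameCompB p n m D (L j)) ∧ D ≤ N l ∧
    ∀ i < l, N i ≤ N (i + 1) ∧
      SecIn p (TameTB p n m (D.map (QuotientGroup.mk' (N i)))) (N i) (N (i + 1))

end Vale.Agent.P180
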