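import Vale.Agent.P180.R2.H47.SecDef

/-!
P180: the classes of special linear groups and of isometry groups of arbitrary dimension.
-/

namespace Vale.Agent.P180

open Vale.Agent.P180.R2.H365

/-- `(L, Γ, A)` is as in `CenOn`, or both (1) `Γ` consists of inner automorphisms of `L`, or `p` does
not divide twice the order of the group of automorphisms of `K`, or `A` has exponent `1` or `p`
modulo the centre of `L`, and (2) `A` is commutative, or the image of `A` in `L / Z(L)` has order
less than `p ^ p`. -/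
def ExtOn (p : ℕ) (K : Type) [Field K] (L : Type) [Group L] (Γ : Subgroup (MulAut L))
    (A : Subgroup L) : Prop :=
  CenOn p L Γ A ∨
    ((Γ ≤ (MulAut.conj : L →* MulAut L).range ∨ ¬ p ∣ 2 * Nat.card (K ≃+* K) ∨ ExpOn p L A) ∧
      ((∀ x ∈ A, ∀ y ∈ A, x * y = y * x) ∨ SmallOn p L A))

/-- `L` is the quotient of `SL_d(K)`, `K` a finite field and `3 ≤ d`, by a group of scalars; `p` does
not divide `|K|`, `d` is as in `LinDeg`, and `ExtOn` holds. -/
def LinCls (p : ℕ) (L : Type) [Group L] (Γ : Subgroup (MulAut L)) (A : Subgroup L) : Prop :=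
  ∃ (K : Type) (_ : Field K) (_ : Finite K) (d : ℕ), 3 ≤ d ∧ ¬ p ∣ Nat.card K ∧
    LinDeg p d (Nat.card K) ∧ LinOn K (Fin d → K) L ∧ ExtOn p K L Γ A

/-- `L` is a symplectic, unitary or orthogonal group of dimension `d ≥ 3` over a finite field `K`, on
which `Γ` acts by semilinear similitudes, as in `SimData`, where `c` says that `ExtOn` holds. -/
def IsoCls (p : ℕ) (L : Type) [Group L] (Γ : Subgroup (MulAut L)) (A : Subgroup L) : Prop :=
  ∃ (K : Type) (_ : Field K) (_ : Finite K) (d : ℕ), 3 ≤ d ∧
    SimData (ExtOn p K L Γ A) p d K (Fin d → K) L Γ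

/-- `K` a finite field, `p` does not divide `|K|`, `3 ≤ d`: `T` is isomorphic to `PSL_d(K)`, `d` is
as in `LinDeg`; or `T` is isomorphic to `PSp_d(K)`, `|K| > 9`, or `PSU_d(K)`, `|K| > 324`, as in
`IsFormGrp`, and `p` is a linear prime. And `P` is abelian or the subgroups of `T` which are sections
of `P` are elementary abelian, or both (1) `p` does not divide twice the order of the group of
automorphisms of `K`, or these subgroups have exponent `1` or `p`, and (2) these subgroups are
commutative, or they have order less than `p ^ p`. -/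
def SecCls (p : ℕ) (P : Type) [Group P] (T : Type) [Group T] : Prop :=
  ∃ (K : Type) (_ : Field K) (_ : Finite K) (d : ℕ), 3 ≤ d ∧ ¬ p ∣ Nat.card K ∧
    ((LinDeg p d (Nat.card K) ∧ IsLin d K T) ∨
      ∃ θ : K →+* K, IsFormGrp d θ T ∧ LinPr p θ ∧ 9 < Nat.card K ∧
        (324 < Nat.card K ∨ ∀ a, θ a = a)) ∧
    (AbS p P T ∨
      ((¬ p ∣ 2 * Nat.card (K ≃+* K) ∨ ExpS p P T) ∧
        ((∀ A : Subgroup T, IsSec P A → ∀ x ∈ A, ∀ y ∈ A, x * y = y * x) ∨ SmallS p P T)))

/-- As `TameAll`, with `TameAct`, `LinCls` or `IsoCls`. -/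
def TameAllC (p n m : ℕ) (P : Type) [Group P] (T : Type) [Group T] : Prop :=
  ∀ (L : Type) [Group L] [Finite L], commutator L = ⊤ →
    Nonempty (L ⧸ Subgroup.center L ≃* T) → ∀ (Γ : Subgroup (MulAut L)) (A : Subgroup L),
    IsSec P Γ → IsPGroup p A → Nat.card A ≤ n → ¬ A ≤ Subgroup.center L →
    (∀ x ∈ A, MulAut.conj x ∈ Γ) → TameAct p m L Γ A ∨ LinCls p L Γ A ∨ IsoCls p L Γ A

/-- The simple group `T` is tame for `P`: `T` is covered as in `Covered`, where `c` says that `P` is
abelian or all the subgroups of `T` which are sections of `P` are elementary abelian, `e` that all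
these subgroups have exponent `1` or `p`, and `s` that they have order less than `p ^ p`; or `T` is
as in `SecCls`; or `Out(T)` is solvable or of order at most `m`, and the `p`-subgroups of `T` are
cyclic and `p` does not divide `|Out(T)|`, or `TameAllC` holds. -/
def TameTC (p n m : ℕ) (P : Type) [Group P] (T : Type) [Group T] : Prop :=
  Covered (AbS p P T) (ExpS p P T) (SmallS p P T) p n m T ∨ SecCls p P T ∨
  (SmallOut m T ∧ (((∀ A : Subgroup T, IsPGroup p A → IsCyclic A) ∧
    ¬ p ∣ (MulAut.conj : T →* MulAut T).range.index) ∨ TameAllC p n m P T))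

open Subgroup in
/-- The quasisimple subgroup `L` of `G` is as in `TameComp`; or `L`, the group of the automorphisms
of `L` induced by `N_D(L)`, and `D ∩ L` are as in `LinCls`; or they are as in `IsoCls` and the group
`N_G(L) / L C_G(L)` is of order at most `m` or solvable. -/
def TameCompC (p n m : ℕ) {G : Type} [Group G] (D L : Subgroup G) : Prop :=
  TameComp p n m D L ∨ LinCls p L (Gam D L) (D.subgroupOf L) ∨
  (IsoCls p L (Gam D L) (D.subgroupOf L) ∧
    ((L ⊔ centralizer (L : Set G)).relIndex (normalizer (L : Set G)) ≤ m ∨ SolvOut L))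

/-- `G` has normal subgroups `N 0 ≤ N 1 ≤ ⋯ ≤ N l` with `D ≤ N l`, such that

(1) `N 0` is generated by pairwise commuting quasisimple subgroups `L j` (any number, possibly
none), each of which satisfies `TameCompC`;

(2) for `i < l`, all the nonabelian simple sections `T` of `N (i + 1) / N i` of order divisible by
`p` satisfy `TameTC` for the image `P` of `D` in `G / N i`. -/
def HasTameSectionsC (p n m : ℕ) {G : Type} [Group G] (D : Subgroup G) : Prop :=
  ∃ (l : ℕ) (N : ℕ → Subgroup G) (_ : ∀ i, (N i).Normal),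
    (∃ (r : ℕ) (L : Fin r → Subgroup G),
      (∀ i j, i ≠ j → ∀ x ∈ L i, ∀ y ∈ L j, x * y = y * x) ∧ N 0 = ⨆ j, L j ∧
      ∀ j, IsQuasisimple (L j) ∧ TameCompC p n m D (L j)) ∧ D ≤ N l ∧
    ∀ i < l, N i ≤ N (i + 1) ∧
      SecIn p (TameTC p n m (D.map (QuotientGroup.mk' (N i)))) (N i) (N (i + 1))

end Vale.Agent.P180
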