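import Vale.Agent.P180.R2.H47.SecDef

/-!
P180: the classes of special linear groups and of isometry groups of arbitrary dimension.
-/

namespace Vale.Agent.P180

open Vale.Agent.P180.R2.H365

/-- `(L, Γ, A)` is as in `CenOn`, or both (1) `Γ` consists of inner automorphisms of `L`, or `p` does
not divide twice the order of the group of automorphisms of `K`, or `A` has exponent `1` or `p`
modulo the centre of `L`, and (2) `A` is commutative, or the image of `A` in `L / Z(L)` has order
less than `p ^ p`. -/
def ExtD (p : ℕ) (K : Type) [Field K] (L : Type) [Group L] (Γ : Subgroup (MulAut L))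
    (A : Subgroup L) : Prop :=
  CenOn p L Γ A ∨
    ((Γ ≤ (MulAut.conj : L →* MulAut L).range ∨ ¬ p ∣ 2 * Nat.card (K ≃+* K) ∨ ExpOn p L A) ∧
      ((∀ x ∈ A, ∀ y ∈ A, x * y = y * x) ∨ SmallOn p L A))

/-- `L` is a quotient of `SL(E)` by a central subgroup, and the preimage of `A` is commutative. -/
def PreOn (K E : Type) [Field K] [AddCommGroup E] [Module K E] (L : Type) [Group L]
    (A : Subgroup L) : Prop :=
  ∃ π : SpecialLinearGroup K E →* L, Function.Surjective π ∧ π.ker ≤ Subgroup.center _ ∧
    ∀ x y, π x ∈ A → π y ∈ A → x * y = y * x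

/-- `L` is the quotient of `SL_d(K)`, `K` a finite field and `3 ≤ d`, by a group of scalars; `p` does
not divide `|K|`; and `d` is as in `LinDeg` and `ExtD` holds, or `p ≠ 2`, the `p`-part of the greatest
common divisor of `d` and `|K| - 1` is at most `m`, `Γ` consists of inner automorphisms, and the
preimage of `A` in `SL_d(K)` is commutative. -/
def LinD (p m : ℕ) (L : Type) [Group L] (Γ : Subgroup (MulAut L)) (A : Subgroup L) : Prop :=
  ∃ (K : Type) (_ : Field K) (_ : Finite K) (d : ℕ), 3 ≤ d ∧ ¬ p ∣ Nat.card K ∧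
    ((LinDeg p d (Nat.card K) ∧ LinOn K (Fin d → K) L ∧ ExtD p K L Γ A) ∨
      (p ≠ 2 ∧ (∀ j, p ^ j ∣ d → p ^ j ∣ Nat.card K - 1 → p ^ j ≤ m) ∧
        Γ ≤ (MulAut.conj : L →* MulAut L).range ∧ PreOn K (Fin d → K) L A))

/-- `L` is a symplectic, unitary or orthogonal group of dimension `d ≥ 3` over a finite field `K`, on
which `Γ` acts by semilinear similitudes, as in `SimData`, where `c` says that `ExtD` holds. -/
def IsoD (p : ℕ) (L : Type) [Group L] (Γ : Subgroup (MulAut L)) (A : Subgroup L) : Prop :=
  ∃ (K : Type) (_ : Field K) (_ : Finite K) (d : ℕ), 3 ≤ d ∧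
    SimData (ExtD p K L Γ A) p d K (Fin d → K) L Γ

/-- `K` a finite field, `p` does not divide `|K|`, `3 ≤ d`: `T` is isomorphic to `PSL_d(K)`, `d` is
as in `LinDeg`; or `T` is isomorphic to `PSp_d(K)`, `|K| > 9`, or `PSU_d(K)`, `|K| > 324`, as in
`IsFormGrp`, and `p` is a linear prime. And `P` is abelian or the subgroups of `T` which are sections
of `P` are elementary abelian, or both (1) `p` does not divide twice the order of the group of
automorphisms of `K`, or these subgroups have exponent `1` or `p`, and (2) these subgroups are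
commutative, or they have order less than `p ^ p`. -/
def SecD (p : ℕ) (P : Type) [Group P] (T : Type) [Group T] : Prop :=
  ∃ (K : Type) (_ : Field K) (_ : Finite K) (d : ℕ), 3 ≤ d ∧ ¬ p ∣ Nat.card K ∧
    ((LinDeg p d (Nat.card K) ∧ IsLin d K T) ∨
      ∃ θ : K →+* K, IsFormGrp d θ T ∧ LinPr p θ ∧ 9 < Nat.card K ∧
        (324 < Nat.card K ∨ ∀ a, θ a = a)) ∧
    (AbS p P T ∨
      ((¬ p ∣ 2 * Nat.card (K ≃+* K) ∨ ExpS p P T) ∧
        ((∀ A : Subgroup T, IsSec P A → ∀ x ∈ A, ∀ y ∈ A, x * y = y * x) ∨ SmallS p P T)))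

/-- The action on `L` of each group `Γ` of automorphisms which is a section of `P` is as in
`TameAct`, `LinD` or `IsoD`, for all noncentral `p`-subgroups `A` of `L` of order at most `n` whose
elements induce elements of `Γ`. -/
def TameFor (p n m : ℕ) (P : Type) [Group P] (L : Type) [Group L] : Prop :=
  ∀ (Γ : Subgroup (MulAut L)) (A : Subgroup L), IsSec P Γ → IsPGroup p A → Nat.card A ≤ n →
    ¬ A ≤ Subgroup.center L → (∀ x ∈ A, MulAut.conj x ∈ Γ) →
    TameAct p m L Γ A ∨ LinD p m L Γ A ∨ IsoD p L Γ A

/-- `TameFor` holds for all perfect groups `L` with `L / Z(L)` isomorphic to `T`. -/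
def TameAllD (p n m : ℕ) (P : Type) [Group P] (T : Type) [Group T] : Prop :=
  ∀ (L : Type) [Group L] [Finite L], commutator L = ⊤ →
    Nonempty (L ⧸ Subgroup.center L ≃* T) → TameFor p n m P L

/-- The simple group `T` is tame for `P`: `T` is covered as in `Covered`, where `c` says that `P` is
abelian or all the subgroups of `T` which are sections of `P` are elementary abelian, `e` that all
these subgroups have exponent `1` or `p`, and `s` that they have order less than `p ^ p`; or `T` is
as in `SecD`; or `Out(T)` is solvable or of order at most `m`, and the `p`-subgroups of `T` are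
cyclic and `p` does not divide `|Out(T)|`, or `TameAllD` holds. -/
def TameTD (p n m : ℕ) (P : Type) [Group P] (T : Type) [Group T] : Prop :=
  Covered (AbS p P T) (ExpS p P T) (SmallS p P T) p n m T ∨ SecD p P T ∨
  (SmallOut m T ∧ (((∀ A : Subgroup T, IsPGroup p A → IsCyclic A) ∧
    ¬ p ∣ (MulAut.conj : T →* MulAut T).range.index) ∨ TameAllD p n m P T))

open Subgroup in
/-- The quasisimple subgroup `L` of `G` is as in `TameComp`; or `L`, the group of the automorphisms
of `L` induced by `N_D(L)`, and `D ∩ L` are as in `LinD`; or they are as in `IsoD` and the group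
`N_G(L) / L C_G(L)` is of order at most `m` or solvable. -/
def TameCompD (p n m : ℕ) {G : Type} [Group G] (D L : Subgroup G) : Prop :=
  TameComp p n m D L ∨ LinD p m L (Gam D L) (D.subgroupOf L) ∨
  (IsoD p L (Gam D L) (D.subgroupOf L) ∧
    ((L ⊔ centralizer (L : Set G)).relIndex (normalizer (L : Set G)) ≤ m ∨ SolvOut L))

/-- `G` has normal subgroups `N 0 ≤ N 1 ≤ ⋯ ≤ N l` with `D ≤ N l`, such that

(1) `N 0` is generated by pairwise commuting quasisimple subgroups `L j` (any number, possibly
none), each of which satisfies `TameCompD`;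

(2) for `i < l`, all the nonabelian simple sections `T` of `N (i + 1) / N i` of order divisible by
`p` satisfy `TameTD` for the image `P` of `D` in `G / N i`. -/
def HasTameSectionsD (p n m : ℕ) {G : Type} [Group G] (D : Subgroup G) : Prop :=
  ∃ (l : ℕ) (N : ℕ → Subgroup G) (_ : ∀ i, (N i).Normal),
    (∃ (r : ℕ) (L : Fin r → Subgroup G),
      (∀ i j, i ≠ j → ∀ x ∈ L i, ∀ y ∈ L j, x * y = y * x) ∧ N 0 = ⨆ j, L j ∧
      ∀ j, IsQuasisimple (L j) ∧ TameCompD p n m D (L j)) ∧ D ≤ N l ∧
    ∀ i < l, N i ≤ N (i + 1) ∧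
      SecIn p (TameTD p n m (D.map (QuotientGroup.mk' (N i)))) (N i) (N (i + 1))

end Vale.Agent.P180
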