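import Vale.Agent.P180.R2.H47.SecDef

/-!
P180: the classes of special linear groups and of isometry groups of arbitrary dimension.
-/

namespace Vale.Agent.P180

open Vale.Agent.P180.R2.H365

/-- `(L, Γ, A)` is as in `CenOn`, or both (1) `Γ` consists of inner automorphisms of `L`, or `p` does
not divide twice the order of the group of automorphisms of `K`, or `A` has exponent `1` or `p`
modulo the centre of `L`, and (2) `A` is commutative, or the image of `A` in `L / Z(L)` has order
less than `p ^ p`. -/
def ExtF (p : ℕ) (K : Type) [Field K] (L : Type) [Group L] (Γ : Subgroup (MulAut L))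
    (A : Subgroup L) : Prop :=
  CenOn p L Γ A ∨
    ((Γ ≤ (MulAut.conj : L →* MulAut L).range ∨ ¬ p ∣ 2 * Nat.card (K ≃+* K) ∨ ExpOn p L A) ∧
      ((∀ x ∈ A, ∀ y ∈ A, x * y = y * x) ∨ SmallOn p L A))

/-- `[x, [x, …, [x, y]]] = 1`, with `r` brackets, for all `x` and `y` in `A`. This holds if the
nilpotency class of `A` is at most `r`. -/
def EngF (r : ℕ) {L : Type} [Group L] (A : Subgroup L) : Prop :=
  ∀ x ∈ A, ∀ y ∈ A, (fun t => x * t * x⁻¹ * t⁻¹)^[r] y = 1

/-- `L` is a quotient of `SL(E)` by a central subgroup, `d` the dimension of `E`; the preimage of `A`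
in `SL(E)` satisfies `EngF`, `r` the maximum of `1` and `p - 2`; `p` does not divide twice the order of
the group of automorphisms of `K`, or the elements of `Γ` are induced by elements of `GL(E)`, or
`p ≠ 2` and they lift to automorphisms of `SL(E)` which fix the elements of `p`-power order in the
preimage of `A Z(L)`; and the `p`-part of the greatest common divisor of `d` and `|K| - 1` is at most
`m`. -/
def OutF (p m d : ℕ) (K E : Type) [Field K] [AddCommGroup E] [Module K E] (L : Type) [Group L]
    (Γ : Subgroup (MulAut L)) (A : Subgroup L) : Prop :=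
  ∃ π : SpecialLinearGroup K E →* L, Function.Surjective π ∧ π.ker ≤ Subgroup.center _ ∧
    EngF (max 1 (p - 2)) (A.comap π) ∧
    (¬ p ∣ 2 * Nat.card (K ≃+* K) ∨
      (∀ α ∈ Γ, ∃ g : E → E, Function.Bijective g ∧ (∀ x y, g (x + y) = g x + g y) ∧
        (∀ (c : K) x, g (c • x) = c • g x) ∧
        ∀ s t : SpecialLinearGroup K E, (∀ x, ap t (g x) = g (ap s x)) → α (π s) = π t) ∨
      (p ≠ 2 ∧ ∀ α ∈ Γ, ∃ β : MulAut (SpecialLinearGroup K E), (∀ s, π (β s) = α (π s)) ∧
        ∀ s, (∃ j : ℕ, s ^ p ^ j = 1) → π s ∈ A ⊔ Subgroup.center L → β s = s)) ∧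
    ∀ j, p ^ j ∣ d → p ^ j ∣ Nat.card K - 1 → p ^ j ≤ m

/-- `L` is the quotient of `SL_d(K)`, `K` a finite field and `3 ≤ d`, by a group of scalars; `p` does
not divide `|K|`; and `d` is as in `LinDeg` and `ExtF` holds, or `OutF` holds. -/
def LinF (p m : ℕ) (L : Type) [Group L] (Γ : Subgroup (MulAut L)) (A : Subgroup L) : Prop :=
  ∃ (K : Type) (_ : Field K) (_ : Finite K) (d : ℕ), 3 ≤ d ∧ ¬ p ∣ Nat.card K ∧
    ((LinDeg p d (Nat.card K) ∧ LinOn K (Fin d → K) L ∧ ExtF p K L Γ A) ∨
      OutF p m d K (Fin d → K) L Γ A)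

/-- `L` is a symplectic, unitary or orthogonal group of dimension `d ≥ 3` over a finite field `K`, on
which `Γ` acts by semilinear similitudes, as in `SimData`, where `c` says that `ExtF` holds. -/
def IsoF (p : ℕ) (L : Type) [Group L] (Γ : Subgroup (MulAut L)) (A : Subgroup L) : Prop :=
  ∃ (K : Type) (_ : Field K) (_ : Finite K) (d : ℕ), 3 ≤ d ∧
    SimData (ExtF p K L Γ A) p d K (Fin d → K) L Γ

/-- `K` a finite field, `p` does not divide `|K|`, `3 ≤ d`; and (I) `T` is isomorphic to `PSL_d(K)`,
`d` is as in `LinDeg`, or `T` is isomorphic to `PSp_d(K)`, `|K| > 9`, or `PSU_d(K)`, `|K| > 324`, as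
in `IsFormGrp`, and `p` is a linear prime; and `P` is abelian or the subgroups of `T` which are
sections of `P` are elementary abelian, or both (1) `p` does not divide twice the order of the group
of automorphisms of `K`, or these subgroups have exponent `1` or `p`, and (2) these subgroups are
commutative, or they have order less than `p ^ p`; or (II) `T` is isomorphic to `PSL_d(K)`, `p` does
not divide twice the order of the group of automorphisms of `K`, the `p`-part of the greatest common
divisor of `d` and `|K| - 1` is at most `m`, and the subgroups of `T` which are sections of `P` satisfy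
`EngF`, `r = p - 3`, or `r = p - 2` if `p` does not divide both `d` and `|K| - 1`. -/
def SecF (p m : ℕ) (P : Type) [Group P] (T : Type) [Group T] : Prop :=
  ∃ (K : Type) (_ : Field K) (_ : Finite K) (d : ℕ), 3 ≤ d ∧ ¬ p ∣ Nat.card K ∧
    ((((LinDeg p d (Nat.card K) ∧ IsLin d K T) ∨
        ∃ θ : K →+* K, IsFormGrp d θ T ∧ LinPr p θ ∧ 9 < Nat.card K ∧
          (324 < Nat.card K ∨ ∀ a, θ a = a)) ∧
      (AbS p P T ∨
        ((¬ p ∣ 2 * Nat.card (K ≃+* K) ∨ ExpS p P T) ∧
          ((∀ A : Subgroup T, IsSec P A → ∀ x ∈ A, ∀ y ∈ A, x * y = y * x) ∨ SmallS p P T)))) ∨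
    (IsLin d K T ∧ ¬ p ∣ 2 * Nat.card (K ≃+* K) ∧
      (∀ j, p ^ j ∣ d → p ^ j ∣ Nat.card K - 1 → p ^ j ≤ m) ∧
      ∀ A : Subgroup T, IsSec P A →
        EngF (p - 3) A ∨ (¬ (p ∣ d ∧ p ∣ Nat.card K - 1) ∧ EngF (p - 2) A)))

/-- The action on `L` of each group `Γ` of automorphisms which is a section of `P` is as in
`TameAct`, `LinF` or `IsoF`, for all noncentral `p`-subgroups `A` of `L` of order at most `n` whose
elements induce elements of `Γ`. -/
def TameForF (p n m : ℕ) (P : Type) [Group P] (L : Type) [Group L] : Prop :=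
  ∀ (Γ : Subgroup (MulAut L)) (A : Subgroup L), IsSec P Γ → IsPGroup p A → Nat.card A ≤ n →
    ¬ A ≤ Subgroup.center L → (∀ x ∈ A, MulAut.conj x ∈ Γ) →
    TameAct p m L Γ A ∨ LinF p m L Γ A ∨ IsoF p L Γ A

/-- `TameForF` holds for all perfect groups `L` with `L / Z(L)` isomorphic to `T`. -/
def TameAllF (p n m : ℕ) (P : Type) [Group P] (T : Type) [Group T] : Prop :=
  ∀ (L : Type) [Group L] [Finite L], commutator L = ⊤ →
    Nonempty (L ⧸ Subgroup.center L ≃* T) → TameForF p n m P L

/-- The simple group `T` is tame for `P`: `T` is covered as in `Covered`, where `c` says that `P` is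
abelian or all the subgroups of `T` which are sections of `P` are elementary abelian, `e` that all
these subgroups have exponent `1` or `p`, and `s` that they have order less than `p ^ p`; or `T` is
as in `SecF`; or `Out(T)` is solvable or of order at most `m`, and the `p`-subgroups of `T` are
cyclic and `p` does not divide `|Out(T)|`, or `TameAllF` holds. -/
def TameTF (p n m : ℕ) (P : Type) [Group P] (T : Type) [Group T] : Prop :=
  Covered (AbS p P T) (ExpS p P T) (SmallS p P T) p n m T ∨ SecF p m P T ∨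
  (SmallOut m T ∧ (((∀ A : Subgroup T, IsPGroup p A → IsCyclic A) ∧
    ¬ p ∣ (MulAut.conj : T →* MulAut T).range.index) ∨ TameAllF p n m P T))

open Subgroup in
/-- The quasisimple subgroup `L` of `G` is as in `TameComp`; or `L`, the group of the automorphisms
of `L` induced by `N_D(L)`, and `D ∩ L` are as in `LinF`; or they are as in `IsoF` and the group
`N_G(L) / L C_G(L)` is of order at most `m` or solvable. -/
def TameCompF (p n m : ℕ) {G : Type} [Group G] (D L : Subgroup G) : Prop :=
  TameComp p n m D L ∨ LinF p m L (Gam D L) (D.subgroupOf L) ∨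
  (IsoF p L (Gam D L) (D.subgroupOf L) ∧
    ((L ⊔ centralizer (L : Set G)).relIndex (normalizer (L : Set G)) ≤ m ∨ SolvOut L))

/-- `G` has normal subgroups `N 0 ≤ N 1 ≤ ⋯ ≤ N l` with `D ≤ N l`, such that

(1) `N 0` is generated by pairwise commuting quasisimple subgroups `L j` (any number, possibly
none), each of which satisfies `TameCompF`;

(2) for `i < l`, all the nonabelian simple sections `T` of `N (i + 1) / N i` of order divisible by
`p` satisfy `TameTF` for the image `P` of `D` in `G / N i`. -/
def HasTameSectionsF (p n m : ℕ) {G : Type} [Group G] (D : Subgroup G) : Prop :=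
  ∃ (l : ℕ) (N : ℕ → Subgroup G) (_ : ∀ i, (N i).Normal),
    (∃ (r : ℕ) (L : Fin r → Subgroup G),
      (∀ i j, i ≠ j → ∀ x ∈ L i, ∀ y ∈ L j, x * y = y * x) ∧ N 0 = ⨆ j, L j ∧
      ∀ j, IsQuasisimple (L j) ∧ TameCompF p n m D (L j)) ∧ D ≤ N l ∧
    ∀ i < l, N i ≤ N (i + 1) ∧
      SecIn p (TameTF p n m (D.map (QuotientGroup.mk' (N i)))) (N i) (N (i + 1))

universe u

/-- For all blocks `b` of `RG`, `G` a finite group, and `D` a defect group of `b`, or of the image
`f b`, of order at most `n` satisfying `HasTameSectionsF`, `b` is `R`-Morita equivalent to one of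
finitely many blocks `c i` of `R[H i]`. -/
def MorF (p n m : ℕ) {r : ℕ} (H : Fin r → Type) [∀ i, Group (H i)] (R : Type u) [CommRing R]
    {k : Type u} [Field k] (f : R →+* k) : Prop :=
  ∃ (c : ∀ i, MonoidAlgebra R (H i)) (hc : ∀ i, IsBlockR (c i)),
    ∀ (G : Type) [Group G] [Finite G] (b : MonoidAlgebra R G) (hb : IsBlockR b) (D : Subgroup G),
      (IsDefectGroupR b D ∨ IsDefectGroupR (MonoidAlgebra.mapRingHom G f b) D) → Nat.card D ≤ n →
      HasTameSectionsF p n m D → ∃ i, IsMoritaEquivalent R hb.Alg (hc i).Alg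

end Vale.Agent.P180
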