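import Vale.Agent.P180.H392.CorC
import Vale.Agent.P180.H396.Nn
import Vale.Agent.P180.R2.H954.Hf3
import Vale.Agent.P180.R2.H954.Hf8
import Vale.Agent.P180.R2.H259.Iso.F2

/-!
P180: descent from the full isometry group of a form to the groups `X`.
-/

set_option linter.all false

namespace Vale.Agent.P180.H392

open Module Vale.Agent.P180 Vale.Agent.P180.H768.Gd Vale.Agent.P180.R2.H471.Hc Vale.Agent.P180.R2
  Vale.Agent.P180.R2.H854

universe u

section Full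

variable {K E : Type} [Field K] [AddCommGroup E] [Module K E]

/-- The full isometry group. -/
def IsoF (Φ : HForm K E) : Subgroup (E ≃ₗ[K] E) where
  carrier := {g | ∀ x y, Φ.B (g x) (g y) = Φ.B x y}
  one_mem' := fun _ _ => rfl
  mul_mem' := by
    intro a b ha hb x y
    exact (ha (b x) (b y)).trans (hb x y)
  inv_mem' := by
    intro a ha x y
    have h1 : ∀ z, a (a⁻¹ z) = z := fun z => a.apply_symm_apply z
    rw [← ha, h1, h1]

theorem mem_IsoF {Φ : HForm K E} {g : E ≃ₗ[K] E} :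
    g ∈ IsoF Φ ↔ ∀ x y, Φ.B (g x) (g y) = Φ.B x y := Iff.rfl

variable [FiniteDimensional K E] [Finite K]

/-- the determinant of an isometry -/
theorem det_norm (Φ : HForm K E) {g : E ≃ₗ[K] E} (hg : g ∈ IsoF Φ) :
    LinearMap.det (g : E →ₗ[K] E) * Φ.θ (LinearMap.det (g : E →ₗ[K] E)) = 1 := by
  have h1 : Φ.adj (g : E →ₗ[K] E) * (g : E →ₗ[K] E) = 1 := by
    ext y
    apply Φ.eq_of_right
    intro x
    change Φ.B x (Φ.adj (g : E →ₗ[K] E) (g y)) = Φ.B x y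
    rw [← Φ.adj_right]
    exact hg x y
  have h2 := congrArg LinearMap.det h1
  rw [map_mul, map_one, H954.Hc.det_adj] at h2
  rw [mul_comm]
  exact h2

end Full

/-- The statement on full isometry groups. -/
def FullStmt (C : ℕ → ℕ → ℕ) : Prop :=
  ∀ (p n : ℕ) [Fact p.Prime] (k : Type u) [Field k] [IsAlgClosed k] [CharP k p] (K : Type)
    [Field K] [Finite K] (d : ℕ) (Φ : HForm K (Fin d → K))
    [Finite ((Fin d → K) ≃ₗ[K] (Fin d → K))],
    (Odd (Nat.card K) ∨ (∃ a, Φ.θ a ≠ a) ∨ ∀ x, Φ.B x x = 0) → ¬ p ∣ Nat.card K →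
    (∀ j : ℕ, (∀ c, Φ.θ c = c ^ (ringChar K ^ j)) → ¬ p ∣ ringChar K ^ j + 1) → 3 ≤ d →
    ∀ Q : Subgroup (IsoF Φ), IsPGroup p Q → Nat.card Q ≤ n → (∀ x ∈ Q, ∀ y ∈ Q, x * y = y * x) →
    OneBd k Q (C p n)

section Desc

variable {k : Type u} [Field k] [IsAlgClosed k] {p : ℕ} [hp : Fact p.Prime] [CharP k p]
  {K E : Type} [Field K] [Finite K] [AddCommGroup E] [Module K E] [FiniteDimensional K E]
  [Finite (E ≃ₗ[K] E)] [Finite (SpecialLinearGroup K E)]

/-- the embedding of the special isometry group -/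
noncomputable def isoEmb (Φ : HForm K E) : Φ.Iso →* IsoF Φ :=
  ((SpecialLinearGroup.toLinearEquiv (R := K) (V := E)).comp Φ.Iso.subtype).codRestrict (IsoF Φ)
    fun g => g.2

/-- the determinant -/
noncomputable def detF (Φ : HForm K E) : IsoF Φ →* Kˣ :=
  (LinearEquiv.det : (E ≃ₗ[K] E) →* Kˣ).comp (IsoF Φ).subtype

theorem isoEmb_inj (Φ : HForm K E) : Function.Injective (isoEmb Φ) := by
  intro g g' h
  have h1 : SpecialLinearGroup.toLinearEquiv (g : SpecialLinearGroup K E) =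
      SpecialLinearGroup.toLinearEquiv (g' : SpecialLinearGroup K E) :=
    congrArg (fun z : IsoF Φ => (z : E ≃ₗ[K] E)) h
  exact Subtype.ext (SpecialLinearGroup.toLinearEquiv_injective h1)

theorem detF_ker (Φ : HForm K E) : (detF Φ).ker = (isoEmb Φ).range := by
  ext g
  rw [MonoidHom.mem_ker]
  constructor
  · intro h
    have h1 : LinearEquiv.det (g : E ≃ₗ[K] E) = 1 := h
    exact ⟨⟨⟨(g : E ≃ₗ[K] E), h1⟩, g.2⟩, rfl⟩
  · rintro ⟨x, rfl⟩
    exact x.1.2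

theorem oneBd_isoF (hpK : ¬ p ∣ Nat.card K) (Φ : HForm K E)
    (hlin : ∀ j : ℕ, (∀ c, Φ.θ c = c ^ (ringChar K ^ j)) → ¬ p ∣ ringChar K ^ j + 1)
    {Q : Subgroup Φ.Iso} (hQ : IsPGroup p Q) {C : ℕ} (h : OneBd k (Q.map (isoEmb Φ)) C) :
    OneBd k Q ((Nat.card Q).factorial * C) := by
  have hchar : CharP K (ringChar K) := ringChar.charP K
  have : Fact (ringChar K).Prime := ⟨H954.Hc.ringChar_prime⟩
  obtain ⟨j, hj⟩ := H954.Hc.exists_frob (r := ringChar K) Φ.θ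
  obtain ⟨χ, hχ⟩ := Vale.Agent.P180.R2.H259.Exp.exists_chi (k := k) (p := p) (detF Φ) (hlin j hj)
    (fun g => by
      apply Units.ext
      have h1 := det_norm Φ g.2
      rw [hj] at h1
      rw [Units.val_pow_eq_pow_val, Units.val_one]
      have h2 : ((detF Φ g : Kˣ) : K) = LinearMap.det ((g : E ≃ₗ[K] E) : E →ₗ[K] E) :=
        LinearEquiv.coe_det (g : E ≃ₗ[K] E)
      rw [h2, pow_succ, mul_comm]
      exact h1)
  exact H396.oneBd_emb (isoEmb Φ) (isoEmb_inj Φ) χ (hχ.trans (detF_ker Φ)) hQ h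

theorem oneBd_isoX (hp2 : p ≠ 2) (Φ : HForm K E) {X : Subgroup (SpecialLinearGroup K E)}
    (hXI : X ≤ Φ.Iso) (hX2 : X.relIndex Φ.Iso ∣ 2) {Q : Subgroup X} (hQ : IsPGroup p Q) {C : ℕ}
    (h : OneBd k (Q.map (Subgroup.inclusion hXI)) C) :
    OneBd k Q ((Nat.card Q).factorial * C) := by
  obtain ⟨χ, hχ⟩ := H259.Iso.exists_chi_two (k := k) (p := p) (H := X.subgroupOf Φ.Iso) hX2 hp2
  refine H396.oneBd_emb (Subgroup.inclusion hXI) (Subgroup.inclusion_injective hXI) χ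
    (hχ.trans ?_) hQ h
  ext g
  rw [Subgroup.mem_subgroupOf]
  constructor
  · intro hg
    exact ⟨⟨g, hg⟩, Subtype.ext rfl⟩
  · rintro ⟨x, rfl⟩
    exact x.2

end Desc

/-- **Descent.** -/
theorem isoStmt_of_full {C : ℕ → ℕ → ℕ} (hF : FullStmt.{u} C) :
    IsoStmt.{u} (fun p n => n.factorial * (n.factorial * C p n)) := by
  intro p n _ k _ _ _ K _ _ d _ Φ X hG hXI hX2 hpK hlin hd Q hQ hQn hab
  have hfin : Finite ((Fin d → K) ≃ₗ[K] (Fin d → K)) :=
    Finite.of_injective (fun g : (Fin d → K) ≃ₗ[K] (Fin d → K) => (g : (Fin d → K) → (Fin d → K)))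
      DFunLike.coe_injective
  have hp2 : p ≠ 2 := by
    rintro rfl
    exact (Nat.not_even_iff_odd.mpr (H954.Hc.odd_of_lin Nat.prime_two hpK Φ.θ hlin)) even_two
  set Q1 := Q.map (Subgroup.inclusion hXI) with hQ1
  have hc1 : Nat.card Q1 = Nat.card Q :=
    Subgroup.card_map_of_injective (Subgroup.inclusion_injective hXI)
  have hc2 : Nat.card (Q1.map (isoEmb Φ)) = Nat.card Q1 :=
    Subgroup.card_map_of_injective (isoEmb_inj Φ)
  have h1 : OneBd k (Q1.map (isoEmb Φ)) (C p n) := by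
    refine hF p n k K d Φ hG.or3 hpK hlin hd _ ((hQ.map _).map _) (by rw [hc2, hc1]; exact hQn) ?_
    rintro _ ⟨_, ⟨x, hx, rfl⟩, rfl⟩ _ ⟨_, ⟨y, hy, rfl⟩, rfl⟩
    rw [← map_mul, ← map_mul, ← map_mul, ← map_mul, hab x hx y hy]
  have h2 := oneBd_isoF hpK Φ hlin (hQ.map _ : IsPGroup p Q1) h1
  rw [hc1] at h2
  have h3 := oneBd_isoX hp2 Φ hXI hX2 hQ h2
  exact R2.H799.BG.oneBd_mono h3 (Nat.mul_le_mul (Nat.factorial_le hQn)
    (Nat.mul_le_mul_right _ (Nat.factorial_le hQn)))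

end Vale.Agent.P180.H392
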