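import Vale.Agent.P180.H392.CorB
import Vale.Agent.P180.H19.MulF
import Vale.Agent.P180.R2.H47.SecB
import Vale.Agent.P180.R2.H47.AcW
import Vale.Agent.P180.R2.H589.Sch.Main

set_option linter.all false

/-!
P180: components whose simple quotient is a special linear group and a section of the group.
-/

namespace Vale.Agent.P180.H392

open Vale.Agent.P180 Vale.Agent.P180.R2 Vale.Agent.P180.R2.H47 Vale.Agent.P180.R2.H365

/-- finite perfect central extensions of `PSL_d(K)` -/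
theorem exists_surj {d : ℕ} (hd : 3 ≤ d) {K : Type} [Field K] [Finite K] {L : Type} [Group L]
    [Finite L] (hL : commutator L = ⊤) (h : IsLin d K (L ⧸ Subgroup.center L)) :
    Nat.card (L ⧸ Subgroup.center L) ≤ 9 ^ 16 ∨ LinOn K (Fin d → K) L := by
  by_cases hK : 9 < Nat.card K
  · obtain ⟨e⟩ := h
    exact Or.inr (H589.Sch.exists_surj_slv (by omega) hK hL e)
  · by_cases hd5 : 5 ≤ d
    · obtain ⟨e⟩ := h
      exact Or.inr (H19.Mul.exists_surj_slv5 hd5 hL e)
    · left
      refine (Y.card_lin_le d K h).trans ?_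
      refine (Nat.pow_le_pow_left (show Nat.card K ≤ 9 by omega) _).trans ?_
      exact Nat.pow_le_pow_right (by norm_num) (by nlinarith)

theorem linAb_of_sec {p : ℕ} [Fact p.Prime] {P : Type} [Group P] {L : Type} [Group L] [Finite L]
    (hL : commutator L = ⊤) {Γ : Subgroup (MulAut L)} {A : Subgroup L} (hA : IsPGroup p A)
    (hsec : IsSec P Γ) (hAΓ : ∀ x ∈ A, MulAut.conj x ∈ Γ)
    (h : LinSec p P (L ⧸ Subgroup.center L)) :
    Nat.card (L ⧸ Subgroup.center L) ≤ 9 ^ 16 ∨ LinAb p L Γ A := by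
  obtain ⟨K, _, _, d, hd, hpK, hld, hT, h⟩ := h
  rcases exists_surj hd hL hT with h0 | ⟨π, hπ, hk⟩
  · exact Or.inl h0
  right
  refine ⟨K, inferInstance, inferInstance, d, hd, hpK, hld, ⟨π, hπ, hk⟩, ?_⟩
  rcases h with h | ⟨h1, h2⟩
  · exact Or.inl (cenOn_of_abS hsec hAΓ h)
  refine Or.inr ⟨Or.inr (h1.imp_right (expOn_of_expS hsec hAΓ)), ?_⟩
  rcases h2 with hab | hs
  · left
    refine comm_of_cen hd hld.1 hL hπ hk hA fun x hx y hy => ?_
    have h1 := hab _ (isSec_quot hsec hAΓ) _ ⟨x, hx, rfl⟩ _ ⟨y, hy, rfl⟩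
    rw [← QuotientGroup.eq_one_iff]
    change QuotientGroup.mk' (Subgroup.center L) (x * y * x⁻¹ * y⁻¹) = 1
    rw [map_mul, map_mul, map_mul, map_inv, map_inv, h1]
    group
  · exact Or.inr (smallOn_of_smallS hsec hAΓ hs)

end Vale.Agent.P180.H392
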