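import Vale.Agent.P180.H392.CorC
import Vale.Agent.P180.H392.SecL
import Vale.Agent.P180.R2.H365.LocY

set_option linter.all false

/-!
P180: components whose simple quotient is a classical group and a section of the group.
-/

namespace Vale.Agent.P180.H392

open Vale.Agent.P180 Vale.Agent.P180.R2 Vale.Agent.P180.R2.H47 Vale.Agent.P180.R2.H365
  Vale.Agent.P180.H768.Gd

theorem comm_of_sec {p : ℕ} [Fact p.Prime] {P : Type} [Group P] {L : Type} [Group L] [Finite L]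
    {Γ : Subgroup (MulAut L)} {A : Subgroup L} (hA : IsPGroup p A)
    (hsec : IsSec P Γ) (hAΓ : ∀ x ∈ A, MulAut.conj x ∈ Γ)
    (hz : ∀ (x : L) (i : ℕ), x ∈ Subgroup.center L → x ^ p ^ i = 1 → x = 1)
    (hab : ∀ A : Subgroup (L ⧸ Subgroup.center L), IsSec P A → ∀ x ∈ A, ∀ y ∈ A, x * y = y * x) :
    ∀ x ∈ A, ∀ y ∈ A, x * y = y * x := by
  intro x hx y hy
  have h1 := hab _ (isSec_quot hsec hAΓ) _ ⟨x, hx, rfl⟩ _ ⟨y, hy, rfl⟩
  have hzC : x * y * x⁻¹ * y⁻¹ ∈ Subgroup.center L := by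
    rw [← QuotientGroup.eq_one_iff]
    change QuotientGroup.mk' (Subgroup.center L) (x * y * x⁻¹ * y⁻¹) = 1
    rw [map_mul, map_mul, map_mul, map_inv, map_inv, h1]
    group
  have hzA : x * y * x⁻¹ * y⁻¹ ∈ A :=
    A.mul_mem (A.mul_mem (A.mul_mem hx hy) (A.inv_mem hx)) (A.inv_mem hy)
  obtain ⟨i, hi⟩ := hA ⟨_, hzA⟩
  have h3 := hz _ i hzC (congrArg Subtype.val hi)
  rw [mul_inv_eq_one, mul_inv_eq_iff_eq_mul] at h3
  exact h3

theorem ext_of_sec {p : ℕ} [Fact p.Prime] {K : Type} [Field K] {P : Type} [Group P] {L : Type}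
    [Group L] [Finite L] {Γ : Subgroup (MulAut L)} {A : Subgroup L} (hA : IsPGroup p A)
    (hsec : IsSec P Γ) (hAΓ : ∀ x ∈ A, MulAut.conj x ∈ Γ)
    (hz : ∀ (x : L) (i : ℕ), x ∈ Subgroup.center L → x ^ p ^ i = 1 → x = 1)
    (h : AbS p P (L ⧸ Subgroup.center L) ∨
      ((¬ p ∣ 2 * Nat.card (K ≃+* K) ∨ ExpS p P (L ⧸ Subgroup.center L)) ∧
        ((∀ A : Subgroup (L ⧸ Subgroup.center L), IsSec P A → ∀ x ∈ A, ∀ y ∈ A, x * y = y * x) ∨
          SmallS p P (L ⧸ Subgroup.center L)))) : ExtOn p K L Γ A := by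
  rcases h with h | ⟨h1, h2⟩
  · exact Or.inl (cenOn_of_abS hsec hAΓ h)
  refine Or.inr ⟨Or.inr (h1.imp_right (expOn_of_expS hsec hAΓ)), ?_⟩
  exact h2.imp (comm_of_sec hA hsec hAΓ hz) (smallOn_of_smallS hsec hAΓ)

/-- components with simple quotient as in `SecCls` -/
theorem cls_of_sec {p : ℕ} [Fact p.Prime] {P : Type} [Group P] {G : Type} [Group G] [Finite G]
    {D L : Subgroup G} (hD : IsPGroup p D) (hL : commutator L = ⊤)
    (hsec : IsSec P (Gam D L)) (hAΓ : ∀ x ∈ D.subgroupOf L, MulAut.conj x ∈ Gam D L)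
    (h : SecCls p P (L ⧸ Subgroup.center L)) :
    Nat.card (L ⧸ Subgroup.center L) ≤ 9 ^ 16 ∨ LinCls p L (Gam D L) (D.subgroupOf L) ∨
      (IsoCls p L (Gam D L) (D.subgroupOf L) ∧ SolvOut L) := by
  have hA : IsPGroup p (D.subgroupOf L) := hD.comap_of_injective L.subtype L.subtype_injective
  obtain ⟨K, _, _, d, hd, hpK, hT, h⟩ := h
  have hfin : Finite (SpecialLinearGroup K (Fin d → K)) := H799.BN.finite_sl
  rcases hT with ⟨hld, hT⟩ | ⟨θ, hT, hlin, hK9, hK⟩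
  · rcases exists_surj hd hL hT with h0 | ⟨π, hπ, hk⟩
    · exact Or.inl h0
    · exact Or.inr (Or.inl ⟨K, inferInstance, inferInstance, d, hd, hpK, hld, ⟨π, hπ, hk⟩,
        ext_of_sec hA hsec hAΓ (fun x i hx hi => eq_one_lin hd hld.1 hL hπ hk hx hi) h⟩)
  · right
    right
    obtain ⟨hd3, ε, B, X, π, hcase, hB, hX, hπ, hker⟩ := hT
    have hd4 : 4 ≤ d ∨ ∃ a, θ a ≠ a := hcase.imp (fun h => h.2.2.1) fun h => h.1
    have hpack : derivedSeries (MulAut (L ⧸ Subgroup.center L)) 2 ≤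
        (MulAut.conj : L ⧸ Subgroup.center L →* MulAut (L ⧸ Subgroup.center L)).range ∧
        S.FPack d θ L := by
      rcases hcase with ⟨hθ, rfl, -, halt⟩ | ⟨⟨a, ha⟩, rfl⟩
      · obtain rfl : θ = RingHom.id K := RingHom.ext hθ
        exact S.sp_pack hK9 hd3 hL hB halt hX hπ hker
      · have hK2 : 324 < Nat.card K := by
          rcases hK with h | h
          · exact h
          · exact absurd (h a) ha
        exact S.un_pack hK2 hd3 hL ⟨a, ha⟩ hB hX hπ hker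
    obtain ⟨hout, ε, B, X, π, hB, hgood, hX, hπ, hcen, hinn, hsim⟩ := hpack
    have hp2 : Odd p := H954.Hc.odd_of_lin (Fact.out : p.Prime) hpK θ hlin
    have hsim' := fun α (hα : α ∈ Gam D L) => (Y.exists_pow_of_Gam hD hα).elim fun i hi =>
      hsim α (p ^ i) hp2.pow hi
    refine ⟨⟨K, inferInstance, inferInstance, d, hd, B, θ, X, π,
      ⟨⟨ε, hB⟩, ⟨fun g hg => (hX g).mp hg, fun g h hg _ hg' _ => absurd ((hX g).mpr hg') hg,
        Or.inr fun g hg => (hX g).mpr hg⟩, hgood⟩,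
      ⟨hπ, fun x hx => (hcen x).mp hx, hsim'⟩, hd4, Or.inr ⟨?_, hpK, hlin⟩⟩,
      ⟨2, H589.solvOut_of_quot hL hout⟩⟩
    refine ext_of_sec hA hsec hAΓ (fun x i hx hi => ?_) h
    refine Bm.eq_one_of_center hπ (fun z hz hzp => ?_) hx hi
    exact Subtype.ext (S.scalar_one hpK hlin hB (by omega) ((hX z.1).mp z.2) ((hcen z).mp hz)
      (i := 1) (by rw [pow_one]; exact congrArg Subtype.val hzp))

end Vale.Agent.P180.H392
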