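import Vale.Agent.P180.H392.DefC
import Vale.Agent.P180.H392.AwC
import Vale.Agent.P180.H392.LocC
import Vale.Agent.P180.H392.SecC
import Vale.Agent.P180.R2.H47.SecB

set_option linter.all false

/-!
P180: the theorem on groups whose simple sections are of given types, with special linear groups and
isometry groups of arbitrary dimension.
-/

namespace Vale.Agent.P180.H392

open IsLocalRing
open Vale.Agent.P180 Vale.Agent.P180.R2 Vale.Agent.P180.R2.H47 Vale.Agent.P180.H768.Gd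
  Vale.Agent.P180.R2.H259 Vale.Agent.P180.R2.H365
open Vale.Agent.P180.I (EO rd Lf isBlock_rd isBlockR_of_lf exists_trace_rd isBlockR_iff exists_lf)
open Vale.Agent.P180.H768 hiding pull mem_pull exists_factor Lay mk_mem comm_mem
open Subgroup (mem_centralizer_iff mem_normalizer_iff centralizer normalizer mul_mem_sup
  mem_sup_left mem_sup_right)

open scoped Nat

universe u

section Con

variable {p n m : ℕ} [Fact p.Prime]

/-- the class of actions given by `Covered` or by `LinCls` -/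
def Qd (p n m : ℕ) (L : Type) [Group L] (Γ : Subgroup (MulAut L)) : Prop :=
  Qc p n m L Γ ∨ AP p (LinCls p) L Γ

theorem ak_qd : AK (Qd p n m) := AK.or ak_qc (AW.ak aw_lin)

/-- the class of actions as in `TameAct` or `IsoCls` -/
def TI (p m : ℕ) (L : Type) [Group L] (Γ : Subgroup (MulAut L)) (A : Subgroup L) : Prop :=
  TameAct p m L Γ A ∨ IsoCls p L Γ A

theorem aw_ti : AW p (TI p m) := aw_or aw_tac aw_iso

/-- the condition carried along the reductions, with the original group `G₀` -/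
abbrev ConC (p n m : ℕ) (G : Type) [Group G] (D : Subgroup G) : Prop :=
  ∃ (l : ℕ) (G₀ : Type) (_ : Group G₀) (D₀ : Subgroup G₀) (N₀ : ℕ → Subgroup G₀)
    (_ : ∀ i, (N₀ i).Normal), ConL (Qd p n m) (AP p (TI p m)) (OS m)
      (fun i => TameTC p n m (D₀.map (QuotientGroup.mk' (N₀ i)))) p l D₀ N₀ G D

theorem ctr_conC : Ctr p (ConC p n m) :=
  Ctr.ex fun l => Ctr.ex fun G₀ => Ctr.ex fun _ => Ctr.ex fun D₀ => Ctr.ex fun N₀ =>
    Ctr.ex fun h => ctr_conL ak_qd (AW.ak aw_ti) (outC_OS m) h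

theorem conC_of_tame {k : Type u} [Field k] [CharP k p] {G : Type} [Group G] [Finite G]
    {D P : Subgroup G} (h : HasTameSectionsC p n m D) (hPD : P ≤ D)
    (hP : IsPGroup p P)
    {b a : MonoidAlgebra k G} (hb : IsBlock b) (ha : a ∈ Fix (cj k G) P)
    (hba : b = tr (cj k G) P ⊤ a) (hbr : br P b ≠ 0) : ConC p n m G P := by
  obtain ⟨l, N, hN, ⟨r, L, hcomm, hX, hL⟩, hDl, hS⟩ := h
  refine ⟨l, G, inferInstance, D, N, hN, ?_⟩
  obtain ⟨X, hXd⟩ : ∃ X, X = N 0 := ⟨_, rfl⟩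
  have hXn : X.Normal := by rw [hXd]; exact hN 0
  rw [← hXd] at hX
  have hne : ∀ i j, L i ≠ L j → Cm (L i) (L j) := by
    intro i j hij
    exact hcomm i j fun h => hij (by rw [h])
  have hXs : X = sSup (Set.range L) := by rw [hX, sSup_range]
  obtain ⟨hSQ, hc⟩ := SQ.of_comm (𝒯 := Set.range L)
    (by
      rintro _ ⟨i, rfl⟩
      exact qs_of_isQuasisimple (hL i).1)
    (by
      rintro _ ⟨i, rfl⟩ _ ⟨j, rfl⟩ hij
      exact hne i j hij)
  rw [← hXs] at hSQ hc
  refine ⟨X, N, ((MonoidHom.id G).prod (MonoidHom.id G)).range, hXn, hN, hSQ, hXd.le,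
    hPD.trans hDl, ?_, ?_, hS, fun y => ⟨y, y, rfl⟩, fun y hy => ⟨y, hPD hy, y, rfl⟩, ?_⟩
  rotate_left
  · rw [← hXd]
    intro K T _ _ f hK hf hx hna
    exfalso
    apply hna
    intro a b
    obtain ⟨a, rfl⟩ := hf a
    obtain ⟨b, rfl⟩ := hf b
    rw [hx a (hK a.2), hx b (hK b.2)]
  · rintro i x hx y ⟨z, hz⟩
    have h1 : z = x := congrArg Prod.fst hz
    have h2 : z = y := congrArg Prod.snd hz
    rw [← h2, h1]
    exact hx
  intro K hK
  rw [hc] at hK
  obtain ⟨j, rfl⟩ := hK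
  have hLX : L j ≤ X := by rw [hX]; exact le_iSup L j
  have hXL : X ≤ L j ⊔ centralizer (L j : Set G) := by
    rw [hX]
    refine iSup_le fun i => ?_
    by_cases hij : L i = L j
    · rw [hij]; exact le_sup_left
    · exact (cm_iff.mp (hne i j hij)).trans le_sup_right
  have hcard : ∀ Q : Subgroup G, IsPGroup p Q → Q ≤ Pj P (L j) → Nat.card Q ≤
      Nat.card (P ⊓ L j : Subgroup G) := fun Q hQ hQP =>
    PjQ_card hLX hXL hP hb ha hba hbr hQ hQP
  have hDL : IsPGroup p (P.subgroupOf (L j)) :=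
    hP.comap_of_injective (L j).subtype (L j).subtype_injective
  -- passage from `D` to `P`
  have hW : ∀ {W : ∀ (S : Type) [Group S], Subgroup (MulAut S) → Subgroup S → Prop}, AW p W →
      commutator (L j) = ⊤ → W (L j) (Gam D (L j)) (P.subgroupOf (L j)) →
      AP p W (L j) (Gam P (L j)) := by
    intro W hW hperf h
    refine ap_of_card hW hP hperf hcard ?_
    have h1 := hW.map (MonoidHom.id (L j)) Function.surjective_id (fun x hx y => by
      rw [MonoidHom.id_apply] at hx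
      rw [hx, one_mul, mul_one]) hperf (Gam D (L j)) (Gam P (L j)) _ hDL
      (fun α hα => ⟨α, Gam_mono hPD _ hα, fun _ => rfl⟩) h
    rwa [Subgroup.map_id] at h1
  obtain ⟨hq, (h1 | ⟨h1, h3⟩ | h1) | h1 | ⟨h1, h3⟩⟩ := hL j
  · refine Or.inl (Or.inl (covered_mono (fun ha => ?_) (fun ha => ?_) (fun ha => ?_) h1))
    · exact hW aw_cen hq.1 ((aw_cen (p := p)).sub (Subgroup.comap_mono hPD) ha)
    · exact hW aw_exp hq.1 (fun y hy => ha y (Subgroup.comap_mono hPD hy))
    · exact hW aw_small hq.1 ((aw_small (p := p)).sub (Γ := Gam D (L j))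
        (Subgroup.comap_mono hPD) ha)
  · refine Or.inr (Or.inl ⟨hW aw_ti hq.1 ?_, OS_iff.mpr h3⟩)
    exact aw_ti.sub (Subgroup.comap_mono hPD) (Or.inl h1)
  · refine Or.inr (Or.inr ?_)
    exact cm_of_card hP hcard fun x hx => h1 x (hPD hx)
  · refine Or.inl (Or.inr (hW aw_lin hq.1 ?_))
    exact aw_lin.sub (Subgroup.comap_mono hPD) h1
  · refine Or.inr (Or.inl ⟨hW aw_ti hq.1 ?_, OS_iff.mpr h3⟩)
    exact aw_ti.sub (Subgroup.comap_mono hPD) (Or.inr h1)

end Con

section Loc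

theorem noC {p n m : ℕ} [Fact p.Prime] (k : Type u) [Field k] (G : Type) [Group G] [Finite G]
    (b : MonoidAlgebra k G) (D L : Subgroup G) (hD : IsPGroup p D)
    (hDn : Nat.card D ≤ n) (hC : ConC p n m G D) (hL : IsComponent L)
    (hp : p ∣ Nat.card (L ⧸ Subgroup.center L))
    (hr : ∃ x ∈ D, x ∈ L ∧ ¬ ∀ y ∈ L, x * y = y * x) : ¬ ExcC p n m k G b D L := by
  have hq := hL.1
  have hDL : IsPGroup p (D.subgroupOf L) :=
    hD.comap_of_injective L.subtype L.subtype_injective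
  have hDLn : Nat.card (D.subgroupOf L) ≤ n := H799.BN.card_subgroupOf_le hDn le_rfl
  have hAΓ : ∀ x ∈ D.subgroupOf L, MulAut.conj x ∈ Gam D L := by
    intro x hx
    exact conj_mem_Gam.mpr (inf_le_Pj D L ⟨Subgroup.mem_subgroupOf.mp hx, x.2⟩)
  -- covered components
  have c1 : ∀ a e s : Prop, Covered a e s p n m (L ⧸ Subgroup.center L) →
      (a → CenOn p L (Gam D L) (D.subgroupOf L)) → (e → ExpOn p L (D.subgroupOf L)) →
      (s → SmallOn p L (D.subgroupOf L)) → ¬ ExcC p n m k G b D L :=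
    fun a e s h ha he hs hE => hE.1.1 (covered_mono ha he hs h)
  -- tame actions
  have c4 : TameAct p m L (Gam D L) (D.subgroupOf L) →
      ((L ⊔ centralizer (L : Set G)).relIndex (normalizer (L : Set G)) ≤ m ∨ SolvOut L) →
      ¬ ExcC p n m k G b D L := by
    rintro h1 h3 ⟨⟨-, h4 | h4⟩, -, -, -⟩
    · rcases h3 with h3 | h3
      · exact absurd h4.2 (not_lt.mpr h3)
      · exact h4.1 h3
    · exact h4.2.2 h1
  have c5 : LinCls p L (Gam D L) (D.subgroupOf L) → ¬ ExcC p n m k G b D L :=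
    fun h hE => hE.2.2.1 h
  have c6 : IsoCls p L (Gam D L) (D.subgroupOf L) → OutOn m L → ¬ ExcC p n m k G b D L :=
    fun h h' hE => hE.2.2.2 ⟨h, h'⟩
  obtain ⟨l, G₀, iG₀, D₀, N₀, hN₀, hC⟩ := hC
  rcases conL_comp hN₀ hC hL hp hr with (h | h) | ⟨h1, h3⟩ | ⟨i, -, h, hsec⟩
  · exact c1 _ _ _ h (fun ha => ha _ hDL hAΓ) (fun ha => ha _ hDL hAΓ) fun ha => ha _ hDL hAΓ
  · exact c5 (h _ hDL hAΓ)
  · rcases h1 _ hDL hAΓ with h1 | h1
    · exact c4 h1 (OS_iff.mp h3)
    · exact c6 h1 (OS_iff.mp h3)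
  rcases h with h | h | ⟨h2, ⟨h3, h4⟩ | h3⟩
  · exact c1 _ _ _ h (cenOn_of_abS hsec hAΓ) (expOn_of_expS hsec hAΓ)
      (smallOn_of_smallS hsec hAΓ)
  · rcases cls_of_sec hD hq.1 hsec hAΓ h with h5 | h5 | h5
    · exact fun hE => absurd h5 (not_le.mpr hE.2.1)
    · exact c5 h5
    · exact c6 h5.1 (Or.inr h5.2)
  · exact c4 (Or.inr (Or.inl ⟨Or.inl (H589.cyclic_of_quot hq.1 h3 _ hDL),
      Or.inl (gam_inner hD hq.1 h4)⟩)) (out_of_quot hq.1 h2)
  · have hnc : ¬ D.subgroupOf L ≤ Subgroup.center L := by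
      intro hZ
      obtain ⟨x, hx, hxL, hxc⟩ := hr
      apply hxc
      intro y hy
      have h4 := Subgroup.mem_center_iff.mp (hZ (show (⟨x, hxL⟩ : L) ∈ D.subgroupOf L from hx))
        ⟨y, hy⟩
      exact (congrArg Subtype.val h4).symm
    rcases h3 L hq.1 ⟨MulEquiv.refl _⟩ (Gam D L) (D.subgroupOf L) hsec hDL hDLn hnc hAΓ with
      h5 | h5 | h5
    · exact c4 h5 (out_of_quot hq.1 h2)
    · exact c5 h5
    · exact c6 h5 (out_of_quot hq.1 h2)

end Loc

/-- **The theorem on groups with tame simple sections.** -/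
theorem finalC2 {B B' : ℕ → ℕ → ℕ} (hGL : GLStmtB.{u} B) (hI : IsoStmt.{u} B') (p : ℕ) [Fact p.Prime] (n m : ℕ) :
    ∃ (r : ℕ) (H : Fin r → Type) (_ : ∀ i, Group (H i)) (_ : ∀ i, Finite (H i)),
      (∀ (k : Type u) [Field k] [IsAlgClosed k] [CharP k p],
        ∃ (c : ∀ i, MonoidAlgebra k (H i)) (hc : ∀ i, IsBlockR (c i)),
          ∀ (G : Type) [Group G] [Finite G] (b : MonoidAlgebra k G) (hb : IsBlockR b)
            (D : Subgroup G), IsDefectGroupR b D → Nat.card D ≤ n → HasTameSectionsC p n m D →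
            ∃ i, IsMoritaEquivalent k hb.Alg (hc i).Alg) ∧
      (∀ (O : Type u) [CommRing O] [IsDomain O] [IsDiscreteValuationRing O]
        [IsAdicComplete (maximalIdeal O) O] [IsAlgClosed (ResidueField O)]
        [CharP (ResidueField O) p],
        ∃ (C : ∀ i, MonoidAlgebra O (H i)) (hC : ∀ i, IsBlockR (C i)),
          ∀ (G : Type) [Group G] [Finite G] (B : MonoidAlgebra O G) (hB : IsBlockR B)
            (D : Subgroup G),
            (IsDefectGroupR B D ∨
              IsDefectGroupR (MonoidAlgebra.mapRingHom G (residue O) B) D) → Nat.card D ≤ n →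
            HasTameSectionsC p n m D →
            ∃ i, IsMoritaEquivalent O hB.Alg (hC i).Alg) := by
  obtain ⟨r, H, iG, iF, h1, h2⟩ := finalC.{u} (uni_T p n ((max 1 (cC B B' p n m)) ^ n)
    (b7 n (mB p n m) (max m 2))) (fun k _ _ _ => locC hGL hI p n m k) ctr_conC
    (fun k _ _ _ G _ _ b D L => noC k G b D L)
  refine ⟨r, H, iG, iF, ?_, ?_⟩
  · intro k _ _ _
    obtain ⟨c, hc, h⟩ := h1 k
    refine ⟨c, hc, ?_⟩
    intro G _ _ b hb D hD hn hs
    exact h G b hb D hD hn (fun P a hPD hP ha hba hbr =>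
      conC_of_tame hs hPD hP (isBlockR_iff.mp hb) ha hba hbr)
  · intro O _ _ _ _ _ _
    obtain ⟨c, hc, h⟩ := h2 O
    refine ⟨c, hc, ?_⟩
    intro G _ _ B hB D hD hn hs
    exact h G B hB D hD hn (fun P a hPD hP ha hba hbr =>
      conC_of_tame hs hPD hP (isBlock_rd hB).1 ha hba hbr)

end Vale.Agent.P180.H392
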