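import Vale.Agent.P180.H392.Cls
import Vale.Agent.P180.H392.CorD
import Vale.Agent.P180.H392.LocC
import Vale.Agent.P180.H392.Out

/-!
P180: the local theorem with the classes of special linear groups and isometry groups of arbitrary
dimension.
-/

set_option linter.all false

namespace Vale.Agent.P180.H392

open Vale.Agent.P180 Vale.Agent.P180.R2 Vale.Agent.P180.R2.H365 Vale.Agent.P180.H768.Gd
  Vale.Agent.P180.R2.H47 Vale.Agent.P180.R2.H954 Vale.Agent.P180.R2.H667
open Vale.Agent.P180.R2.H799 (NN)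
open Vale.Agent.P180.H768 hiding pull mem_pull exists_factor Lay mk_mem comm_mem

open scoped Nat

universe u

/-- The component is exceptional as in `ExcX`, not small and not in the classes `LinD`,
`IsoD`. -/
def ExcD (p n m : ℕ) (k : Type u) [Field k] (G : Type) [Group G] [Finite G]
    (b : MonoidAlgebra k G) (D L : Subgroup G) : Prop :=
  ExcX p n m k G b D L ∧ 9 ^ 16 < Nat.card (L ⧸ Subgroup.center L) ∧
    ¬ LinD p m L (Gam D L) (D.subgroupOf L) ∧
    ¬ (IsoD p L (Gam D L) (D.subgroupOf L) ∧ OutOn m L)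

/-- the constant -/
noncomputable def cD (B B' C : ℕ → ℕ → ℕ) (p n m : ℕ) : ℕ := max (cC B B' p n m) (C p (n * m))

/-- The local theorem. -/
theorem locD {B B' C : ℕ → ℕ → ℕ} (hGL : GLStmtB.{u} B) (hI : IsoStmt.{u} B') (hN : InnStmt.{u} C)
    (p n m : ℕ)
    [Fact p.Prime] (k : Type u) [Field k] [IsAlgClosed k] [CharP k p] :
    LocL (ExcD p n m) (SmallT p n ((max 1 (cD B B' C p n m)) ^ n) (b7 n (mB p n m) (max m 2))) k p
      n := by
  refine loc_genU ?_
  intro G _ _ Z D a b hs hST hNR hD L hL hp hr hE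
  have hbF : b ∈ Fix (cj k G) ⊤ := (isBlock_iff.mp hs.hb).mem.2
  have hbr : br D b ≠ 0 := br_of_defect hs.hb hs.ha hs.hba hD
  by_cases hX : ExcX p n m k G b D L
  · by_cases h9 : Nat.card (L ⧸ Subgroup.center L) ≤ 9 ^ 16
    · exact Or.inl (h9.trans (le_max_right _ _))
    by_cases hU : LinD p m L (Gam D L) (D.subgroupOf L)
    · right
      right
      rcases linD_iff.mp hU with hU | hU
      · have hU' := linAb_of_cls hU
        refine ⟨Or.inr ?_, (corP_ab hGL hs.Dp hs.Dn hL.1.1 hU' hr hbF hbr).mono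
          (((le_max_left _ _).trans (le_max_right _ _)).trans (le_max_left _ _))⟩
        obtain ⟨K, _, _, d, hd, hpK, hld, ⟨π, hπ, hk⟩, -⟩ := hU'
        exact solv_of_sl hd hL.1.1 hπ fun x hx => center_of_quot π hπ hk hL.1.1 hx
      · refine ⟨Or.inr ?_, (corP_innD hN hs.Dp hs.Dn hU b).mono (le_max_right _ _)⟩
        obtain ⟨K, _, _, d, hd, -, -, -, -, π, hπ, hk, -⟩ := hU
        exact solv_of_sl hd hL.1.1 hπ fun x hx => center_of_quot π hπ hk hL.1.1 hx
    by_cases hV : IsoD p L (Gam D L) (D.subgroupOf L) ∧ OutOn m L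
    · right
      right
      obtain ⟨⟨K, _, _, d, hd, Bf, θ, X, π, hF, hsim, hd4, h⟩, hout⟩ := hV
      refine ⟨hout.imp_left fun h => h.trans (le_max_left _ _), ?_⟩
      rcases h with h | ⟨hext, hpK, hlin⟩
      · have h1 : TameAct p m L (Gam D L) (D.subgroupOf L) :=
          Or.inr (Or.inr (Or.inl ⟨K, inferInstance, inferInstance, d, hd, Bf, θ, X, π, hF, hsim, hd4,
            Or.inl h⟩))
        exact (corP_act hs.Dp hs.Dn h1 hr hbF hbr).mono ((le_max_left _ _).trans (le_max_left _ _))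
      · exact (corP_isoC hI hs.Dp hs.Dn hd hF hsim hd4 hpK hlin hext b).mono
          (((le_max_right _ _).trans (le_max_right _ _)).trans (le_max_left _ _))
    · exact absurd ⟨hX, not_le.mp h9, hU, hV⟩ hE
  · rcases cls_x hs hD hL hp hr hX with h | h | h
    · exact Or.inl (h.trans (le_max_left _ _))
    · exact Or.inr (Or.inl h)
    · exact Or.inr (Or.inr ⟨h.1, h.2.mono ((le_max_left _ _).trans (le_max_left _ _))⟩)

end Vale.Agent.P180.H392
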