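import Vale.Agent.P180.H392.Sl
import Vale.Agent.P180.H951.OneGLA

/-!
P180: the statement on general linear groups.
-/

set_option linter.all false

namespace Vale.Agent.P180.H392

open Module Vale.Agent.P180 Vale.Agent.P180.H768.Gd Vale.Agent.P180.R2.H471.Hc Vale.Agent.P180.R2

universe u

theorem glStmt : GLStmt.{u} H951.glB := by
  intro p n m _ k _ _ _ F V _ _ _ _ _ _ hpF Q hQ hQn hab hW
  obtain ⟨W, hW1, hW2, hW3⟩ := hW
  refine H951.oneBd_gl hpF hQ hQn hab ⟨W, ⟨fun q hq w hw => ?_, fun x hx => hW3 x ?_⟩, hW1⟩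
  · exact hW2 _ ⟨q, hq, rfl⟩ w hw
  · refine Submodule.span_mono ?_ hx
    rintro _ ⟨q, rfl⟩
    exact ⟨q, q.2, rfl⟩

end Vale.Agent.P180.H392
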