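import Vale.Agent.P180.H392.CorB
import Vale.Agent.P180.H951.GLH

/-!
P180: the statement on general linear groups, abelian subgroups.
-/

set_option linter.all false

namespace Vale.Agent.P180.H392

open Module Vale.Agent.P180 Vale.Agent.P180.H768.Gd Vale.Agent.P180.R2.H471.Hc Vale.Agent.P180.R2

universe u

theorem glStmtB : GLStmtB.{u} H951.glC :=
  fun _ _ _ _ _ _ _ _ _ _ _ _ _ _ _ hpF _ hQ hQn hab => H951.oneBd_glb hpF hQ hQn hab

end Vale.Agent.P180.H392
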