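import Vale.Agent.P180.H392.ResM
import Vale.Agent.P180.H392.Desc
import Vale.Agent.P180.H951.Pd

/-!
P180: the statements for the induction over the homogeneous pairs.
-/

set_option linter.all false

namespace Vale.Agent.P180.H392

open Module Vale.Agent.P180 Vale.Agent.P180.R2.H471.Hc Vale.Agent.P180.R2.H854
  Vale.Agent.P180.H393.Fm Vale.Agent.P180.H951 Res

universe u

section

variable {K E : Type} [Field K] [AddCommGroup E] [Module K E] {Φ : HForm K E} {ι : Type}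
  [Fintype ι] [DecidableEq ι]

/-- the image of `Q` in the general linear group -/
noncomputable def QA (P : Hyp Φ ι) (Q : Subgroup (E ≃ₗ[K] E)) : Subgroup ((ι → K) ≃ₗ[K] (ι → K)) :=
  ((Q.subgroupOf (MM P)).map (mmE P).symm.toMonoidHom).map (MonoidHom.snd _ _)

/-- the image of `Q` in the isometry group of the complement -/
noncomputable def QC (P : Hyp Φ ι) (Q : Subgroup (E ≃ₗ[K] E)) : Subgroup (IsoG (res P)) :=
  ((Q.subgroupOf (MM P)).map (mmE P).symm.toMonoidHom).map (MonoidHom.fst _ _)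

/-- the image of `Q` in the linear group of the complement -/
noncomputable def QW (P : Hyp Φ ι) (Q : Subgroup (E ≃ₗ[K] E)) : Subgroup (W P ≃ₗ[K] W P) :=
  (QC P Q).map (IsoG (res P)).subtype

theorem mem_QA {P : Hyp Φ ι} {Q : Subgroup (E ≃ₗ[K] E)} {g : (ι → K) ≃ₗ[K] (ι → K)} :
    g ∈ QA P Q ↔ ∃ c : IsoG (res P), ext P (c : W P ≃ₗ[K] W P) * P.gl g ∈ Q := by
  unfold QA
  constructor
  · rintro ⟨_, ⟨x, hx, rfl⟩, rfl⟩
    refine ⟨((mmE P).symm x).1, ?_⟩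
    have h := mmE_coe P ((mmE P).symm x)
    rw [MulEquiv.apply_symm_apply] at h
    change ext P _ * P.gl ((mmE P).symm x).2 ∈ Q
    rw [← h]
    exact hx
  · rintro ⟨c, hc⟩
    refine ⟨(c, g), ⟨mmE P (c, g), ?_, ?_⟩, rfl⟩
    · exact hc
    · exact (mmE P).symm_apply_apply _

theorem mem_QC {P : Hyp Φ ι} {Q : Subgroup (E ≃ₗ[K] E)} {c : IsoG (res P)} :
    c ∈ QC P Q ↔ ∃ g, ext P (c : W P ≃ₗ[K] W P) * P.gl g ∈ Q := by
  unfold QC
  constructor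
  · rintro ⟨_, ⟨x, hx, rfl⟩, rfl⟩
    refine ⟨((mmE P).symm x).2, ?_⟩
    have h := mmE_coe P ((mmE P).symm x)
    rw [MulEquiv.apply_symm_apply] at h
    change ext P (((mmE P).symm x).1 : W P ≃ₗ[K] W P) * P.gl _ ∈ Q
    rw [← h]
    exact hx
  · rintro ⟨g, hg⟩
    refine ⟨(c, g), ⟨mmE P (c, g), ?_, ?_⟩, rfl⟩
    · exact hg
    · exact (mmE P).symm_apply_apply _

/-- The data of one step. -/
structure GoodHyp (P : Hyp Φ ι) (Q : Subgroup (E ≃ₗ[K] E)) : Prop where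
  ne : Nonempty ι
  le : Q ≤ MM P
  cent : ∀ g ∈ IsoG Φ, (∀ q ∈ Q, g * q = q * g) → g ∈ MM P
  triv : ∀ u ∈ P.UU, (∀ q ∈ Q, u * q = q * u) → u = 1
  hom : H951.HomOn (QA P Q) ⊤
  nt : QA P Q ≠ ⊥

end

/-- The conditions on the form. -/
def FormOk (p : ℕ) {K E : Type} [Field K] [AddCommGroup E] [Module K E] (Φ : HForm K E) : Prop :=
  (Odd (Nat.card K) ∨ (∃ a, Φ.θ a ≠ a) ∨ ∀ x, Φ.B x x = 0) ∧ ¬ p ∣ Nat.card K ∧
    ∀ j : ℕ, (∀ c, Φ.θ c = c ^ (ringChar K ^ j)) → ¬ p ∣ ringChar K ^ j + 1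

/-- **The step.** -/
def StepStmt (F : ℕ → ℕ → ℕ → ℕ) : Prop :=
  ∀ (p n : ℕ) [Fact p.Prime] (k : Type u) [Field k] [IsAlgClosed k] [CharP k p] (K : Type)
    [Field K] [Finite K] (E : Type) [AddCommGroup E] [Module K E] [FiniteDimensional K E]
    [Finite (E ≃ₗ[K] E)] (Φ : HForm K E) (ι : Type) [Fintype ι] [DecidableEq ι] (P : Hyp Φ ι)
    [Finite (W P ≃ₗ[K] W P)] (Q : Subgroup (E ≃ₗ[K] E)), FormOk p Φ → Q ≤ IsoG Φ → IsPGroup p Q →
    Nat.card Q ≤ n → (∀ x ∈ Q, ∀ y ∈ Q, x * y = y * x) → GoodHyp P Q →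
    ∀ B, OneBd k (QC P Q) B → OneBd k (Q.subgroupOf (IsoG Φ)) (F p n B)

/-- **One pair splits off.** -/
def PdStepStmt : Prop :=
  ∀ (p : ℕ) [Fact p.Prime] (K : Type) [Field K] [Finite K] (E : Type) [AddCommGroup E]
    [Module K E] [FiniteDimensional K E] (Φ : HForm K E) (Q : Subgroup (E ≃ₗ[K] E)) (r : ℕ),
    FormOk p Φ → Q ≤ IsoG Φ → IsPGroup p Q → (∀ x ∈ Q, ∀ y ∈ Q, x * y = y * x) →
    PD Φ Q (r + 1) →
    ∃ (ι : Type) (_ : Fintype ι) (_ : DecidableEq ι) (P : Hyp Φ ι),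
      GoodHyp P Q ∧ Nonempty (PD (res P) (QW P Q) r)

/-- **Existence of the decomposition.** -/
def PdExStmt : Prop :=
  ∀ (p : ℕ) [Fact p.Prime] (K : Type) [Field K] [Finite K] (E : Type) [AddCommGroup E]
    [Module K E] [FiniteDimensional K E] (Φ : HForm K E) (Q : Subgroup (E ≃ₗ[K] E)),
    FormOk p Φ → Q ≤ IsoG Φ → IsPGroup p Q → (∀ x ∈ Q, ∀ y ∈ Q, x * y = y * x) →
    ∃ r ≤ Nat.card Q, Nonempty (PD Φ Q r)

end Vale.Agent.P180.H392
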