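import Vale.Agent.P180.H392.Ind
import Vale.Agent.P180.H392.FinC
import Vale.Agent.P180.H392.GlB
import Vale.Agent.P180.H574.PdStep
import Vale.Agent.P180.H396.PdEx

/-!
P180: isometry groups, from the step.
-/

namespace Vale.Agent.P180.H392

universe u

/-- the bound for the isometry groups -/
noncomputable def isoB (F : ℕ → ℕ → ℕ → ℕ) (p n : ℕ) : ℕ :=
  n.factorial * (n.factorial * indC F p n)

/-- **Isometry groups of any dimension**, from the step. -/
theorem isoStmt_of_step {F : ℕ → ℕ → ℕ → ℕ} (h : StepStmt.{u} F) : IsoStmt.{u} (isoB F) :=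
  isoStmt_of_full (fullStmt_of Vale.Agent.P180.H574.pdStep Vale.Agent.P180.H396.pdEx h)

end Vale.Agent.P180.H392
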