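import Vale.Agent.P180.H392.IndDef
import Vale.Agent.P180.R2.H854.TNorm

/-!
P180: the trace condition.
-/

set_option linter.all false

namespace Vale.Agent.P180.H392

open Module Vale.Agent.P180.R2.H854

theorem FormOk.tr {p : ℕ} {K E : Type} [Field K] [Finite K] [AddCommGroup E] [Module K E]
    [FiniteDimensional K E] {Φ : HForm K E} (h : FormOk p Φ) : Φ.Tr := Φ.trT h.1

end Vale.Agent.P180.H392
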