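import Vale.Agent.P180.H392.GlC
import Vale.Agent.P180.H951.TestC

/-!
P180: isometry groups, from the towers.
-/

namespace Vale.Agent.P180.H392

open Vale.Agent.P180.R2.H854 Vale.Agent.P180.H951 Vale.Agent.P180.H393

universe u

/-- **Isometry groups of any dimension**, from the towers. -/
theorem isoStmt_of_tow (hTow : ∀ (k : Type u) [Field k] [IsAlgClosed k] [CharZero k] (K E : Type)
    [Field K] [Finite K] [AddCommGroup E] [Module K E] [FiniteDimensional K E]
    [Finite (E ≃ₗ[K] E)] [DecidableEq (Om k K)] (Φ : HForm K E), Φ.Tr → TowStmt k Φ) :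
    IsoStmt.{u} (isoB stB) :=
  isoStmt_of_step (stepStmt_of_tow hTow)

end Vale.Agent.P180.H392
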