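import Vale.Agent.P180.H392.GlD
import Vale.Agent.P180.H6.TowH

/-!
P180: isometry groups of any dimension.
-/

namespace Vale.Agent.P180.H392

open Vale.Agent.P180.H951

universe u

/-- **Isometry groups of any dimension.** -/
theorem isoStmt : IsoStmt.{u} (isoB stB) := isoStmt_of_tow Vale.Agent.P180.H6.towStmt

end Vale.Agent.P180.H392
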