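import Vale.Agent.P180.H392.GlE
import Vale.Agent.P180.H392.FinD
import Vale.Agent.P180.H951.SlAllG

/-!
P180: special linear groups of any dimension, `p` odd.
-/

namespace Vale.Agent.P180.H392

open Vale.Agent.P180.H951

universe u

/-- **Special linear groups of any dimension**, `p` odd. -/
theorem innStmt : InnStmt.{u} slC := by
  intro p n _ k _ _ _ K _ _ d _ hp2 hd hpK Q hQ hQn hab
  have hf : Finite ((Fin d → K) ≃ₗ[K] (Fin d → K)) := finite_gl K (Fin d → K)
  exact oneBd_slAll hp2 hpK hQ hQn hab

end Vale.Agent.P180.H392
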