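import Vale.Agent.P180.H392.FinE
import Vale.Agent.P180.H392.GlE
import Vale.Agent.P180.H568.OutE
import Vale.Agent.P180.H19.OutN
import Vale.Agent.P180.H354.GlOut
import Vale.Agent.P180.H897.SecOE

/-!
P180: the statements on components of type `SL_d(K)` with an action of the general linear group.
-/

set_option linter.all false

namespace Vale.Agent.P180.H392

open Vale.Agent.P180 Vale.Agent.P180.H768.Gd Vale.Agent.P180.R2 Vale.Agent.P180.R2.H365 IsLocalRing
open Vale.Agent.P180.H568.Out (cjS)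

universe u

theorem outStmt : OutStmt.{u} fun p n m => H951.outC p (n ^ 2) m := by
  intro p n m _ k _ _ _ K _ _ d G _ _ D L π b hd hpK hm hD hDn hπ hk hact hE hr hbF hb
  have : Finite (SpecialLinearGroup K (Fin d → K)) := H799.BN.finite_sl
  have : Finite ((Fin d → K) ≃ₗ[K] (Fin d → K)) :=
    Finite.of_injective (fun f : (Fin d → K) ≃ₗ[K] (Fin d → K) => (f : (Fin d → K) → (Fin d → K)))
      DFunLike.coe_injective
  refine H568.Out.corP_outR hD hDn hπ hk hact (r := max 1 (p - 2)) hE ?_ hr hbF hb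
  intro H _ _ q hq hqs hqd P Q hP hQ hQN hQn hab hnc
  exact H19.OutN.outBd_glN hpK (by rwa [Module.finrank_fin_fun]) q hq hqs hqd hP hQ hQN hQn hab hnc

theorem glStmt : GlStmt := by
  intro p _ K _ _ d L _ _ π α i hd hno hπ hk _ hα
  obtain ⟨g, hg⟩ := _root_.Vale.Agent.P180.H354.GlOut.exists_gl_of_noaut (p := p) (i := i)
    (by rwa [Module.finrank_fin_fun]) hno hπ hk hα
  exact ⟨g, fun x => (hg x (cjS g x) (cjS_spec g x)).symm⟩

theorem secStmt : VE.SecStmt := by
  intro p m _ P _ L _ _ Γ A hL hA hsec hAΓ h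
  obtain ⟨K, _, _, d, hd, hpK, h⟩ := h
  exact (H897.outE_of_sec hL hA hsec hAΓ hd h).imp_right fun h =>
    ⟨K, inferInstance, inferInstance, d, hd, hpK, h⟩

/-- The theorem in the form with `Mor`. -/
theorem finalE2 {B B' : ℕ → ℕ → ℕ} {C : ℕ → ℕ → ℕ → ℕ} (hGL : GLStmtB.{u} B)
    (hI : IsoStmt.{u} B') (hO : OutStmt.{u} C) (hG : GlStmt) (hS : VE.SecStmt)
    (p : ℕ) [Fact p.Prime] (n m : ℕ) :
    ∃ (r : ℕ) (H : Fin r → Type) (_ : ∀ i, Group (H i)) (_ : ∀ i, Finite (H i)),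
      (∀ (k : Type u) [Field k] [IsAlgClosed k] [CharP k p], Mor p n m H k (RingHom.id k)) ∧
      (∀ (O : Type u) [CommRing O] [IsDomain O] [IsDiscreteValuationRing O]
        [IsAdicComplete (maximalIdeal O) O] [IsAlgClosed (ResidueField O)]
        [CharP (ResidueField O) p], Mor p n m H O (residue O)) := by
  obtain ⟨r, H, iG, iF, h1, h2⟩ := VE.finalE hGL hI hO hG hS p n m
  refine ⟨r, H, iG, iF, fun k _ _ _ => ?_, fun O _ _ _ _ _ _ => ?_⟩
  · obtain ⟨c, hc, h⟩ := h1 k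
    refine ⟨c, hc, fun G _ _ b hb D hD hn hs => h G b hb D ?_ hn hs⟩
    rwa [MonoidAlgebra.mapRingHom_id, RingHom.id_apply, or_self] at hD
  · exact h2 O

end Vale.Agent.P180.H392
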