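import Vale.Agent.P180.H392.FinF
import Vale.Agent.P180.H392.GlG
import Vale.Agent.P180.H574.FixE

/-!
P180: the theorem with the clause on automorphisms fixing the `p`-elements.
-/

set_option linter.all false

namespace Vale.Agent.P180.H392

open Vale.Agent.P180 Vale.Agent.P180.H768.Gd Vale.Agent.P180.R2 Vale.Agent.P180.R2.H365 IsLocalRing
open Vale.Agent.P180.H568.Out (cjS)

universe u

theorem thruStmt : H393.ThruStmt.{u} := by
  intro p _ k _ _ _ K _ _ d G _ _ R L π e z hR h2 hn hd hpK hπ hk heng hβ hnc he hbr hz hzF hez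
  have hp3 : max 1 (p - 2) = p - 2 := by
    have h3 := (Fact.out : p.Prime).two_le
    omega
  exact H574.thru_gl h2 hpK hd hR hn hπ hk he hz hzF hez hbr hnc
    (fun x hx y hy => by rw [hp3]; exact heng x y hx hy) hβ

/-- The theorem in the form with `MorF`. -/
theorem finalF2 {B B' : ℕ → ℕ → ℕ} {C : ℕ → ℕ → ℕ → ℕ} (hGL : GLStmtB.{u} B)
    (hI : IsoStmt.{u} B') (hO : OutStmt.{u} C) (hG : GlStmt) (hT : H393.ThruStmt.{u})
    (hS : VE.SecStmt) (p : ℕ) [Fact p.Prime] (n m : ℕ) :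
    ∃ (r : ℕ) (H : Fin r → Type) (_ : ∀ i, Group (H i)) (_ : ∀ i, Finite (H i)),
      (∀ (k : Type u) [Field k] [IsAlgClosed k] [CharP k p], MorF p n m H k (RingHom.id k)) ∧
      (∀ (O : Type u) [CommRing O] [IsDomain O] [IsDiscreteValuationRing O]
        [IsAdicComplete (maximalIdeal O) O] [IsAlgClosed (ResidueField O)]
        [CharP (ResidueField O) p], MorF p n m H O (residue O)) := by
  obtain ⟨r, H, iG, iF, h1, h2⟩ := VF.finalF hGL hI hO hG hT hS p n m
  refine ⟨r, H, iG, iF, fun k _ _ _ => ?_, fun O _ _ _ _ _ _ => ?_⟩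
  · obtain ⟨c, hc, h⟩ := h1 k
    refine ⟨c, hc, fun G _ _ b hb D hD hn hs => h G b hb D ?_ hn hs⟩
    rwa [MonoidAlgebra.mapRingHom_id, RingHom.id_apply, or_self] at hD
  · exact h2 O

end Vale.Agent.P180.H392
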