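import Vale.Agent.P180.H392.IndDef

/-!
P180: the induction over the homogeneous pairs.
-/

set_option linter.all false

namespace Vale.Agent.P180.H392

open Module Vale.Agent.P180 Vale.Agent.P180.H768.Gd Vale.Agent.P180.R2.H471.Hc
  Vale.Agent.P180.R2.H854 Vale.Agent.P180.H393.Fm Vale.Agent.P180.H951 Res
  Vale.Agent.P180.R2.H799.BZ Vale.Agent.P180.R2.H954.Hc Vale.Agent.P180.R2.H799
open Vale.Agent.P180.R2.H259.Cyc (cycB cycB_mono)
open Vale.Agent.P180.R2.H471.He (CycOn)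

universe u

/-- the bound for the trivial group -/
noncomputable def botB (p : ℕ) : ℕ := (max 1 (cycB p 1)) ^ 2

theorem cycOn_bot {G : Type} [Group G] (A : Subgroup G) : CycOn (⊥ : Subgroup G) A := by
  refine ⟨G, inferInstance, A.subtype, (⊥ : Subgroup G).subtype, Subtype.coe_injective, ?_,
    fun _ _ _ h => h, fun _ _ _ => rfl⟩
  have h : (⊥ : Subgroup G).subtype.range = ⊥ := Subgroup.range_subtype _
  rw [h]
  infer_instance

/-- **The trivial defect group.** -/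
theorem oneBd_bot {k : Type u} [Field k] [IsAlgClosed k] {p : ℕ} [Fact p.Prime] [CharP k p]
    {G : Type} [Group G] [Finite G] : OneBd k (⊥ : Subgroup G) (botB p) := by
  classical
  intro e a he ha hea hbr
  have hbr' : ∀ x : MonoidAlgebra k G, br (⊥ : Subgroup G) x = x := by
    intro x
    ext g
    rw [br_coeff, if_pos]
    rw [Subgroup.mem_centralizer_iff]
    intro h hh
    have h1 : h = 1 := Subgroup.mem_bot.mp hh
    rw [h1, one_mul, mul_one]
  obtain ⟨j, hjL, hjQ, hjj, hjb, hjd⟩ := exists_jr2 (k := k) (p := p) (n := 1) (β := 1) (Z := ⊥)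
    (A := fun _ : Fin 1 => (⊤ : Subgroup G)) (L := ⊤) (Q := ⊥) IsPGroup.of_bot (by simp) bot_le
    le_top (fun _ => le_rfl) (fun _ _ _ _ _ => Subgroup.mem_top _)
    (fun i j hij => absurd (Subsingleton.elim i j) hij) (fun _ => cycOn_bot _)
    (fun g _ q hq => by
      rw [Subgroup.mem_bot] at hq
      rw [hq, mul_one, mul_inv_cancel]
      exact Subgroup.one_mem _)
    bot_le
    (fun z hz g hg => by
      rw [Subgroup.mem_bot] at hz
      rw [hz, one_mul, mul_one])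
    (by simp) he.idem.eq ha hea hbr
  rw [hbr', hbr'] at hjb
  have hce : ∀ x : MonoidAlgebra k G, e * x = x * e := fun x => by
    have h1 : e ∈ Subalgebra.center k (MonoidAlgebra k G) := by
      rw [← ZAlg_top]
      exact he.mem
    exact (Subalgebra.mem_center_iff.mp h1 x).symm
  refine ⟨e * j, mem_Fix_bot _, ?_, ?_, ?_, ?_⟩
  · rw [← mul_assoc, mul_assoc e j e, ← hce j, ← mul_assoc, he.idem.eq, mul_assoc, hjj]
  · rw [← mul_assoc, he.idem.eq]
  · rw [hbr', hce]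
    exact hjb
  · have h1 : NN (⊤ : Subalgebra k (MonoidAlgebra k G)) (e * j) (e * j) ≤
        NN (SubAlg k (⊤ : Subgroup G)) j j := by
      rintro x ⟨h1, h2, h3⟩
      refine ⟨fun _ _ => Subgroup.mem_top _, ?_, ?_⟩
      · rw [← h2, ← mul_assoc, ← mul_assoc, ← hce j, mul_assoc e j j, hjj]
      · rw [← h3, mul_assoc, mul_assoc, hjj]
    refine (Submodule.finrank_mono h1).trans (hjd.trans ?_)
    unfold botB
    rw [one_mul, one_mul, pow_one]

/-- the bound for `r` pairs -/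
noncomputable def indB (F : ℕ → ℕ → ℕ → ℕ) (p n : ℕ) : ℕ → ℕ
  | 0 => botB p
  | r + 1 => F p n (indB F p n r)

/-- the bound -/
noncomputable def indC (F : ℕ → ℕ → ℕ → ℕ) (p n : ℕ) : ℕ :=
  ∑ r ∈ Finset.range (n + 1), indB F p n r

section

variable {K E : Type} [Field K] [AddCommGroup E] [Module K E] {Φ : HForm K E} {ι : Type}
  [Fintype ι] [DecidableEq ι]

theorem FormOk.res {p : ℕ} (h : FormOk p Φ) (P : Hyp Φ ι) : FormOk p (res P) := by
  obtain ⟨h1, h2, h3⟩ := h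
  refine ⟨?_, h2, h3⟩
  rcases h1 with h1 | h1 | h1
  · exact Or.inl h1
  · exact Or.inr (Or.inl h1)
  · exact Or.inr (Or.inr fun x => h1 x)

theorem isPGroup_QC {p : ℕ} {Q : Subgroup (E ≃ₗ[K] E)} (hQ : IsPGroup p Q) (P : Hyp Φ ι) :
    IsPGroup p (QC P Q) :=
  ((hQ.comap_of_injective (MM P).subtype Subtype.coe_injective).map _).map _

theorem isPGroup_QW {p : ℕ} {Q : Subgroup (E ≃ₗ[K] E)} (hQ : IsPGroup p Q) (P : Hyp Φ ι) :
    IsPGroup p (QW P Q) := (isPGroup_QC hQ P).map _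

theorem comm_QW {Q : Subgroup (E ≃ₗ[K] E)} (hQ : ∀ x ∈ Q, ∀ y ∈ Q, x * y = y * x) (P : Hyp Φ ι) :
    ∀ x ∈ QW P Q, ∀ y ∈ QW P Q, x * y = y * x := by
  rintro _ ⟨_, ⟨_, ⟨x, hx, rfl⟩, rfl⟩, rfl⟩ _ ⟨_, ⟨_, ⟨y, hy, rfl⟩, rfl⟩, rfl⟩
  rw [← map_mul, ← map_mul, ← map_mul, ← map_mul, ← map_mul, ← map_mul]
  congr 3
  exact Subtype.ext (hQ x hx y hy)

theorem QW_le (P : Hyp Φ ι) (Q : Subgroup (E ≃ₗ[K] E)) : QW P Q ≤ IsoG (res P) :=
  Subgroup.map_subtype_le _

theorem QW_subgroupOf (P : Hyp Φ ι) (Q : Subgroup (E ≃ₗ[K] E)) :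
    (QW P Q).subgroupOf (IsoG (res P)) = QC P Q :=
  Subgroup.comap_map_eq_self_of_injective Subtype.coe_injective _

theorem card_map_le' {G H : Type} [Group G] [Finite G] [Group H] (f : G →* H) (Q : Subgroup G) :
    Nat.card (Q.map f) ≤ Nat.card Q :=
  Nat.card_le_card_of_surjective (f.subgroupMap Q) (f.subgroupMap_surjective Q)

theorem finite_W (P : Hyp Φ ι) [Finite E] : Finite (W P ≃ₗ[K] W P) :=
  Finite.of_injective (fun g : W P ≃ₗ[K] W P => (g : W P → W P)) DFunLike.coe_injective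

theorem card_QW [Finite (E ≃ₗ[K] E)] (P : Hyp Φ ι) (Q : Subgroup (E ≃ₗ[K] E)) :
    Nat.card (QW P Q) ≤ Nat.card Q := by
  have h1 : Nat.card (Q.subgroupOf (MM P)) ≤ Nat.card Q :=
    Nat.card_le_card_of_injective (fun x : Q.subgroupOf (MM P) => (⟨(x : MM P), x.2⟩ : Q))
      fun x y h => Subtype.ext (Subtype.ext (congrArg (fun z : Q => (z : E ≃ₗ[K] E)) h))
  have h2 : ∀ {G H : Type} [Group G] [Group H] (f : G →* H) (R : Subgroup G) [Finite R],
      Nat.card (R.map f) ≤ Nat.card R ∧ Finite (R.map f) := fun f R _ =>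
    ⟨Nat.card_le_card_of_surjective _ (f.subgroupMap_surjective R),
      Finite.of_surjective _ (f.subgroupMap_surjective R)⟩
  have f0 : Finite (Q.subgroupOf (MM P)) := inferInstance
  obtain ⟨h3, f3⟩ := h2 (mmE P).symm.toMonoidHom (Q.subgroupOf (MM P))
  obtain ⟨h4, f4⟩ := h2 (MonoidHom.fst (IsoG (res P)) ((ι → K) ≃ₗ[K] (ι → K)))
    ((Q.subgroupOf (MM P)).map (mmE P).symm.toMonoidHom)
  have f4' : Finite (QC P Q) := f4
  obtain ⟨h5, f5⟩ := h2 (IsoG (res P)).subtype (QC P Q)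
  exact h5.trans (h4.trans (h3.trans h1))

end

theorem finite_gl (K : Type) [Field K] [Finite K] (E : Type) [AddCommGroup E] [Module K E]
    [FiniteDimensional K E] : Finite (E ≃ₗ[K] E) := by
  have : Finite E := Module.finite_of_finite K
  exact Finite.of_injective (fun g : E ≃ₗ[K] E => (g : E → E)) DFunLike.coe_injective

/-- **The induction.** -/
theorem oneBd_pd {F : ℕ → ℕ → ℕ → ℕ} (hLb : PdStepStmt) (hStep : StepStmt.{u} F) (p n : ℕ)
    [Fact p.Prime] (k : Type u) [Field k] [IsAlgClosed k] [CharP k p] (K : Type) [Field K]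
    [Finite K] (r : ℕ) : ∀ (E : Type) [AddCommGroup E] [Module K E] [FiniteDimensional K E]
      [Finite (E ≃ₗ[K] E)] (Φ : HForm K E) (Q : Subgroup (E ≃ₗ[K] E)), FormOk p Φ → Q ≤ IsoG Φ →
      IsPGroup p Q → Nat.card Q ≤ n → (∀ x ∈ Q, ∀ y ∈ Q, x * y = y * x) → PD Φ Q r →
      OneBd k (Q.subgroupOf (IsoG Φ)) (indB F p n r) := by
  induction r with
  | zero =>
    intro E _ _ _ _ Φ Q hΦ hQI hQ hQn hab D
    have h1 : Q.subgroupOf (IsoG Φ) = ⊥ := by
      rw [eq_bot_iff]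
      intro x hx
      rw [Subgroup.mem_bot]
      apply Subtype.ext
      ext v
      exact D.triv v (fun i => i.elim0) (fun i => i.elim0) _ hx
    rw [h1]
    exact oneBd_bot
  | succ r ih =>
    intro E _ _ _ _ Φ Q hΦ hQI hQ hQn hab D
    obtain ⟨ι, _, _, P, hG, ⟨D'⟩⟩ := hLb p K E Φ Q r hΦ hQI hQ hab D
    have hf : Finite (W P ≃ₗ[K] W P) := finite_gl K (W P)
    have h1 := ih (W P) (res P) (QW P Q) (hΦ.res P) (QW_le P Q) (isPGroup_QW hQ P)
      ((card_QW P Q).trans hQn) (comm_QW hab P) D'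
    rw [QW_subgroupOf] at h1
    exact hStep p n k K E Φ ι P Q hΦ hQI hQ hQn hab hG _ h1

/-- **The statement on full isometry groups**, from the three parts. -/
theorem fullStmt_of {F : ℕ → ℕ → ℕ → ℕ} (hLb : PdStepStmt) (hLc : PdExStmt)
    (hStep : StepStmt.{u} F) : FullStmt.{u} (indC F) := by
  intro p n _ k _ _ _ K _ _ d Φ _ h1 h2 h3 _ Q hQ hQn hab
  set Q1 : Subgroup ((Fin d → K) ≃ₗ[K] (Fin d → K)) := Q.map (IsoF Φ).subtype with hQ1
  have hc : Nat.card Q1 = Nat.card Q := Subgroup.card_map_of_injective Subtype.coe_injective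
  have hab1 : ∀ x ∈ Q1, ∀ y ∈ Q1, x * y = y * x := by
    rintro _ ⟨x, hx, rfl⟩ _ ⟨y, hy, rfl⟩
    rw [← map_mul, ← map_mul, hab x hx y hy]
  have hle : Q1 ≤ IsoG Φ := Subgroup.map_subtype_le _
  obtain ⟨r, hr, ⟨D⟩⟩ := hLc p K (Fin d → K) Φ Q1 ⟨h1, h2, h3⟩ hle (hQ.map _) hab1
  have h4 := oneBd_pd hLb hStep p n k K r (Fin d → K) Φ Q1 ⟨h1, h2, h3⟩ hle (hQ.map _)
    (hc.le.trans hQn) hab1 D
  have h5 : Q1.subgroupOf (IsoF Φ) = Q :=
    Subgroup.comap_map_eq_self_of_injective Subtype.coe_injective _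
  have h6 : OneBd k (Q1.subgroupOf (IsoF Φ)) (indB F p n r) := h4
  rw [h5] at h6
  refine R2.H799.BG.oneBd_mono h6 ?_
  unfold indC
  exact Finset.single_le_sum (f := fun r => indB F p n r) (fun _ _ => Nat.zero_le _)
    (Finset.mem_range.mpr (Nat.lt_succ_of_le (hr.trans (hc.le.trans hQn))))

end Vale.Agent.P180.H392
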