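import Vale.Agent.P180.H392.Cls
import Vale.Agent.P180.H392.Cor
import Vale.Agent.P180.H392.Out

/-!
P180: the local theorem with the class of special linear groups of unbounded dimension.
-/

set_option linter.all false

namespace Vale.Agent.P180.H392

open Vale.Agent.P180 Vale.Agent.P180.R2 Vale.Agent.P180.R2.H365 Vale.Agent.P180.H768.Gd
  Vale.Agent.P180.R2.H47 Vale.Agent.P180.R2.H954 Vale.Agent.P180.R2.H667
open Vale.Agent.P180.R2.H799 (NN)
open Vale.Agent.P180.H768 hiding pull mem_pull exists_factor Lay mk_mem comm_mem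

open scoped Nat

universe u

/-- The component is exceptional as in `ExcX` and not in the class of special linear groups of
unbounded dimension. -/
def ExcU (p n m : ℕ) (k : Type u) [Field k] (G : Type) [Group G] [Finite G]
    (b : MonoidAlgebra k G) (D L : Subgroup G) : Prop :=
  ExcX p n m k G b D L ∧ ¬ LinUnb p m L (Gam D L) (D.subgroupOf L)

/-- the constant -/
noncomputable def cU (B : ℕ → ℕ → ℕ → ℕ) (p n m : ℕ) : ℕ := max (cY p n m) (n.factorial * B p m n)

/-- The local theorem. -/
theorem locU {B : ℕ → ℕ → ℕ → ℕ} (hGL : GLStmt.{u} B) (p n m : ℕ) [Fact p.Prime] (k : Type u)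
    [Field k] [IsAlgClosed k] [CharP k p] :
    LocL (ExcU p n m) (SmallT p n ((max 1 (cU B p n m)) ^ n) (b7 n (mY p n m) (max m 2))) k p n := by
  refine loc_genU ?_
  intro G _ _ Z D a b hs hST hNR hD L hL hp hr hE
  by_cases hX : ExcX p n m k G b D L
  · by_cases hU : LinUnb p m L (Gam D L) (D.subgroupOf L)
    · right
      right
      refine ⟨Or.inr ?_, (corP_unb hGL hs.Dp hs.Dn hU b).mono (le_max_right _ _)⟩
      obtain ⟨K, _, _, d, π, hd, hpK, hp1, hπ, hk, -⟩ := hU
      exact solv_of_sl hd hL.1.1 hπ fun x hx => center_of_quot π hπ hk hL.1.1 hx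
    · exact absurd ⟨hX, hU⟩ hE
  · rcases cls_x hs hD hL hp hr hX with h | h | h
    · exact Or.inl h
    · exact Or.inr (Or.inl h)
    · exact Or.inr (Or.inr ⟨h.1, h.2.mono (le_max_left _ _)⟩)

end Vale.Agent.P180.H392
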