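import Vale.Agent.P180.H393.Fm

/-!
P180: the orthogonal complement of a hyperbolic pair, as a space with a form.
-/

set_option linter.all false

namespace Vale.Agent.P180.H392

open Module Vale.Agent.P180.R2.H854 Vale.Agent.P180.H393.Fm

namespace Res

variable {K E : Type} [Field K] [AddCommGroup E] [Module K E] {Φ : HForm K E} {ι : Type}
  [Fintype ι] [DecidableEq ι] (P : Hyp Φ ι)

/-- the complement -/
def W : Submodule K E := LinearMap.ker P.px ⊓ LinearMap.ker P.py

variable {P}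

theorem mem_W {v : E} : v ∈ W P ↔ P.px v = 0 ∧ P.py v = 0 := by
  unfold W
  rw [Submodule.mem_inf, LinearMap.mem_ker, LinearMap.mem_ker]

theorem pw_mem (v : E) : P.pw v ∈ W P := mem_W.mpr ⟨P.px_pw v, P.py_pw v⟩

theorem pw_of_mem {v : E} (hv : v ∈ W P) : P.pw v = v := by
  obtain ⟨h1, h2⟩ := mem_W.mp hv
  unfold Hyp.pw
  rw [h1, h2, map_zero, map_zero, sub_zero, sub_zero]

theorem B_x_of_mem {v : E} (hv : v ∈ W P) (b : ι → K) : Φ.B v (P.x b) = 0 := by
  rw [P.B_x, (mem_W.mp hv).2, hh_zero_left, mul_zero]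

theorem B_y_of_mem {v : E} (hv : v ∈ W P) (b : ι → K) : Φ.B v (P.y b) = 0 := by
  rw [P.B_y, (mem_W.mp hv).1, hh_zero_left]

variable (P)

/-- **the form on the complement** -/
def res : HForm K (W P) where
  B v w := Φ.B v w
  θ := Φ.θ
  ε := Φ.ε
  add_left x y z := Φ.add_left _ _ _
  smul_left a x y := Φ.smul_left _ _ _
  θθ := Φ.θθ
  εε := Φ.εε
  symm x y := Φ.symm _ _
  nondeg := by
    intro x h
    apply Subtype.ext
    apply Φ.nondeg
    intro y
    rw [P.eq_add y, Φ.add_right, Φ.add_right, B_x_of_mem x.2, B_y_of_mem x.2, zero_add, add_zero]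
    exact h ⟨P.pw y, pw_mem y⟩

variable {P}

theorem res_B (v w : W P) : (res P).B v w = Φ.B v w := rfl

/-- elements of `Fx` preserve the complement -/
theorem fx_mem {g : E ≃ₗ[K] E} (hg : g ∈ P.Fx) {v : E} (hv : v ∈ W P) : g v ∈ W P := by
  obtain ⟨h1, h2⟩ := mem_W.mp hv
  exact mem_W.mpr ⟨by rw [P.px_of_fix hg.1 hg.2.2, h1], by rw [P.py_of_fix hg.1 hg.2.1, h2]⟩

theorem inv_app (g : E ≃ₗ[K] E) (v : E) : g⁻¹ (g v) = v := LinearEquiv.symm_apply_apply g v

theorem app_inv (g : E ≃ₗ[K] E) (v : E) : g (g⁻¹ v) = v := LinearEquiv.apply_symm_apply g v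

/-- the restriction of an element of `Fx` -/
def rst (g : P.Fx) : W P ≃ₗ[K] W P :=
  LinearEquiv.ofLinear
    (((g : E ≃ₗ[K] E) : E →ₗ[K] E).restrict fun v hv => fx_mem g.2 hv)
    ((((g⁻¹ : P.Fx) : E ≃ₗ[K] E) : E →ₗ[K] E).restrict fun v hv => fx_mem (g⁻¹ : P.Fx).2 hv)
    (by
      ext v
      exact app_inv (g : E ≃ₗ[K] E) v)
    (by
      ext v
      exact inv_app (g : E ≃ₗ[K] E) v)

theorem rst_coe (g : P.Fx) (v : W P) : ((rst g v : W P) : E) = (g : E ≃ₗ[K] E) v := rfl

variable (P)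

/-- the extension of an isometry of the complement, as a linear map -/
def extL (g : W P ≃ₗ[K] W P) : E →ₗ[K] E where
  toFun v := P.x (P.px v) + (g ⟨P.pw v, pw_mem v⟩ : W P) + P.y (P.py v)
  map_add' v w := by
    have h : (⟨P.pw (v + w), pw_mem (v + w)⟩ : W P) = ⟨P.pw v, pw_mem v⟩ + ⟨P.pw w, pw_mem w⟩ := by
      apply Subtype.ext
      change P.pw (v + w) = P.pw v + P.pw w
      unfold Hyp.pw
      simp only [map_add]
      abel
    rw [h, map_add, map_add, map_add, map_add, map_add, Submodule.coe_add]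
    abel
  map_smul' c v := by
    have h : (⟨P.pw (c • v), pw_mem (c • v)⟩ : W P) = c • ⟨P.pw v, pw_mem v⟩ := by
      apply Subtype.ext
      change P.pw (c • v) = c • P.pw v
      unfold Hyp.pw
      simp only [map_smul, smul_sub]
    rw [h, map_smul, map_smul, map_smul, map_smul, map_smul, Submodule.coe_smul, RingHom.id_apply,
      smul_add, smul_add]

theorem extL_apply (g : W P ≃ₗ[K] W P) (v : E) :
    extL P g v = P.x (P.px v) + (g ⟨P.pw v, pw_mem v⟩ : W P) + P.y (P.py v) := rfl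

theorem px_extL (g : W P ≃ₗ[K] W P) (v : E) : P.px (extL P g v) = P.px v := by
  rw [extL_apply, map_add, map_add, P.px_x, P.px_y, (mem_W.mp (g _).2).1, add_zero, add_zero]

theorem py_extL (g : W P ≃ₗ[K] W P) (v : E) : P.py (extL P g v) = P.py v := by
  rw [extL_apply, map_add, map_add, P.py_x, P.py_y, (mem_W.mp (g _).2).2, zero_add, zero_add]

theorem pw_extL (g : W P ≃ₗ[K] W P) (v : E) :
    P.pw (extL P g v) = (g ⟨P.pw v, pw_mem v⟩ : W P) := by
  unfold Hyp.pw
  rw [px_extL, py_extL, extL_apply]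
  unfold Hyp.pw
  abel

theorem extL_mul (g g' : W P ≃ₗ[K] W P) (v : E) : extL P (g * g') v = extL P g (extL P g' v) := by
  apply P.ext_coord
  · rw [px_extL, px_extL, px_extL]
  · rw [pw_extL, pw_extL]
    have h : (⟨P.pw (extL P g' v), pw_mem _⟩ : W P) = g' ⟨P.pw v, pw_mem v⟩ :=
      Subtype.ext (pw_extL P g' v)
    rw [h]
    rfl
  · rw [py_extL, py_extL, py_extL]

theorem extL_one (v : E) : extL P 1 v = v := by
  rw [extL_apply]
  exact (P.eq_add v).symm

/-- the extension -/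
def ext : (W P ≃ₗ[K] W P) →* (E ≃ₗ[K] E) where
  toFun g := LinearEquiv.ofLinear (extL P g) (extL P g⁻¹)
    (by
      ext v
      change extL P g (extL P g⁻¹ v) = v
      rw [← extL_mul, mul_inv_cancel, extL_one])
    (by
      ext v
      change extL P g⁻¹ (extL P g v) = v
      rw [← extL_mul, inv_mul_cancel, extL_one])
  map_one' := by
    ext v
    exact extL_one P v
  map_mul' g g' := by
    ext v
    exact extL_mul P g g' v

theorem ext_apply (g : W P ≃ₗ[K] W P) (v : E) :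
    ext P g v = P.x (P.px v) + (g ⟨P.pw v, pw_mem v⟩ : W P) + P.y (P.py v) := rfl

theorem ext_coe (g : W P ≃ₗ[K] W P) (v : W P) : ext P g v = (g v : W P) := by
  rw [ext_apply, (mem_W.mp v.2).1, (mem_W.mp v.2).2, map_zero, map_zero, zero_add, add_zero]
  have h : (⟨P.pw (v : E), pw_mem (v : E)⟩ : W P) = v := Subtype.ext (pw_of_mem v.2)
  rw [h]

theorem ext_x (g : W P ≃ₗ[K] W P) (a : ι → K) : ext P g (P.x a) = P.x a := by
  apply P.ext_coord
  · exact px_extL P g _
  · have h : P.pw (P.x a) = 0 := by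
      unfold Hyp.pw
      rw [P.px_x, P.py_x, map_zero, sub_zero, sub_self]
    have h1 : (⟨P.pw (P.x a), pw_mem _⟩ : W P) = 0 := Subtype.ext h
    rw [h]
    exact (pw_extL P g _).trans (by rw [h1, map_zero]; rfl)
  · exact py_extL P g _

theorem ext_y (g : W P ≃ₗ[K] W P) (a : ι → K) : ext P g (P.y a) = P.y a := by
  apply P.ext_coord
  · exact px_extL P g _
  · have h : P.pw (P.y a) = 0 := by
      unfold Hyp.pw
      rw [P.px_y, P.py_y, map_zero, sub_zero, sub_self]
    have h1 : (⟨P.pw (P.y a), pw_mem _⟩ : W P) = 0 := Subtype.ext h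
    rw [h]
    exact (pw_extL P g _).trans (by rw [h1, map_zero]; rfl)
  · exact py_extL P g _

theorem ext_mem {g : W P ≃ₗ[K] W P} (hg : g ∈ IsoG (res P)) : ext P g ∈ P.Fx := by
  refine ⟨?_, ext_x P g, ext_y P g⟩
  intro v w
  have h1 : ∀ v, P.px (ext P g v) = P.px v := px_extL P g
  have h2 : ∀ v, P.py (ext P g v) = P.py v := py_extL P g
  have h3 : ∀ v, P.pw (ext P g v) = (g ⟨P.pw v, pw_mem v⟩ : W P) := pw_extL P g
  rw [P.B_coord (ext P g v), P.B_coord v w, h1, h1, h2, h2, h3, h3]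
  have h4 := hg ⟨P.pw v, pw_mem v⟩ ⟨P.pw w, pw_mem w⟩
  rw [res_B, res_B] at h4
  rw [h4]

theorem rst_mem (g : P.Fx) : rst g ∈ IsoG (res P) := by
  intro v w
  rw [res_B, res_B, rst_coe, rst_coe]
  exact g.2.1 v w

theorem ext_rst (g : P.Fx) : ext P (rst g) = (g : E ≃ₗ[K] E) := by
  ext v
  rw [ext_apply, rst_coe]
  change P.x (P.px v) + (g : E ≃ₗ[K] E) (P.pw v) + P.y (P.py v) = (g : E ≃ₗ[K] E) v
  conv_rhs => rw [P.eq_add v]
  rw [map_add, map_add, g.2.2.1, g.2.2.2]

/-- **The group `Fx` is the isometry group of the complement.** -/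
def fxEquiv : IsoG (res P) ≃* P.Fx where
  toFun g := ⟨ext P g, ext_mem P g.2⟩
  invFun g := ⟨rst g, rst_mem P g⟩
  left_inv g := by
    apply Subtype.ext
    ext v
    change ((rst ⟨ext P g, ext_mem P g.2⟩ v : W P) : E) = _
    rw [rst_coe]
    exact ext_coe P _ v
  right_inv g := Subtype.ext (ext_rst P g)
  map_mul' g g' := Subtype.ext (map_mul (ext P) _ _)

theorem fxEquiv_coe (g : IsoG (res P)) : ((fxEquiv P g : P.Fx) : E ≃ₗ[K] E) = ext P g := rfl

/-- **The Levi subgroup.** -/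
def levi : (((ι → K) ≃ₗ[K] (ι → K)) × IsoG (res P)) →* (E ≃ₗ[K] E) where
  toFun z := P.gl z.1 * ext P (z.2 : W P ≃ₗ[K] W P)
  map_one' := by
    rw [Prod.fst_one, Prod.snd_one, map_one, OneMemClass.coe_one, map_one, one_mul]
  map_mul' z z' := by
    rw [Prod.fst_mul, Prod.snd_mul, map_mul, Subgroup.coe_mul, map_mul, mul_assoc, mul_assoc]
    congr 1
    rw [← mul_assoc, ← mul_assoc, P.gl_comm (ext_mem P z.2.2)]

theorem levi_apply (z : ((ι → K) ≃ₗ[K] (ι → K)) × IsoG (res P)) :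
    levi P z = P.gl z.1 * ext P (z.2 : W P ≃ₗ[K] W P) := rfl

theorem levi_mem (z : ((ι → K) ≃ₗ[K] (ι → K)) × IsoG (res P)) : levi P z ∈ IsoG Φ :=
  (IsoG Φ).mul_mem (P.gl_mem _) (ext_mem P z.2.2).1

theorem levi_injective : Function.Injective (levi P) := by
  rintro ⟨z, g⟩ ⟨z', g'⟩ h
  have h1 : z = z' := by
    ext1 a
    apply P.x_injective
    have h2 := congrArg (fun f : E ≃ₗ[K] E => f (P.x a)) h
    change P.gl z (ext P g (P.x a)) = P.gl z' (ext P g' (P.x a)) at h2
    rw [ext_x, ext_x, P.gl_x, P.gl_x] at h2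
    exact h2
  subst h1
  have h3 : ext P (g : W P ≃ₗ[K] W P) = ext P (g' : W P ≃ₗ[K] W P) := mul_left_cancel h
  have h4 : fxEquiv P g = fxEquiv P g' := Subtype.ext h3
  rw [(fxEquiv P).injective h4]

/-- the dimension of the complement -/
theorem finrank_W [FiniteDimensional K E] : finrank K (W P) + 2 * Fintype.card ι = finrank K E := by
  let f : E →ₗ[K] (ι → K) × (ι → K) := P.px.prod P.py
  have hf : Function.Surjective f := by
    rintro ⟨a, b⟩
    refine ⟨P.x a + P.y b, ?_⟩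
    change (P.px (P.x a + P.y b), P.py (P.x a + P.y b)) = (a, b)
    rw [map_add, map_add, P.px_x, P.px_y, P.py_x, P.py_y, add_zero, zero_add]
  have hk : LinearMap.ker f = W P := by
    ext v
    rw [LinearMap.mem_ker, mem_W]
    exact Prod.mk_eq_zero
  have h1 := LinearMap.finrank_range_add_finrank_ker f
  rw [LinearMap.range_eq_top.mpr hf, finrank_top, hk, finrank_prod, finrank_fintype_fun_eq_card]
    at h1
  omega

end Res

end Vale.Agent.P180.H392
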