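import Vale.Agent.P180.H392.Res

/-!
P180: the Levi subgroup of a hyperbolic pair.
-/

set_option linter.all false

namespace Vale.Agent.P180.H392

open Module Vale.Agent.P180.R2.H854 Vale.Agent.P180.H393.Fm

namespace Res

variable {K E : Type} [Field K] [AddCommGroup E] [Module K E] {Φ : HForm K E} {ι : Type}
  [Fintype ι] [DecidableEq ι] (P : Hyp Φ ι)

/-- the part of `g` on the first subspace -/
def gxL (g : E ≃ₗ[K] E) : (ι → K) →ₗ[K] (ι → K) := P.px ∘ₗ (g : E →ₗ[K] E) ∘ₗ P.x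

theorem gxL_apply (g : E ≃ₗ[K] E) (a : ι → K) : gxL P g a = P.px (g (P.x a)) := rfl

variable {P}

theorem x_gxL {g : E ≃ₗ[K] E} (hg : ∀ a, ∃ b, g (P.x a) = P.x b) (a : ι → K) :
    P.x (gxL P g a) = g (P.x a) := by
  obtain ⟨b, hb⟩ := hg a
  rw [gxL_apply, hb, P.px_x]

theorem gxL_injective {g : E ≃ₗ[K] E} (hg : ∀ a, ∃ b, g (P.x a) = P.x b) :
    Function.Injective (gxL P g) := by
  intro a a' h
  apply P.x_injective
  apply g.injective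
  rw [← x_gxL hg, ← x_gxL hg, h]

/-- the part of `g` on the first subspace -/
noncomputable def gx {g : E ≃ₗ[K] E} (hg : ∀ a, ∃ b, g (P.x a) = P.x b) : (ι → K) ≃ₗ[K] (ι → K) :=
  LinearEquiv.ofInjectiveEndo (gxL P g) (gxL_injective hg)

theorem x_gx {g : E ≃ₗ[K] E} (hg : ∀ a, ∃ b, g (P.x a) = P.x b) (a : ι → K) :
    P.x (gx hg a) = g (P.x a) := x_gxL hg a

/-- **The decomposition of an element of the Levi subgroup.** -/
theorem exists_levi {g : E ≃ₗ[K] E} (hg : g ∈ IsoG Φ) (hx : ∀ a, ∃ b, g (P.x a) = P.x b)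
    (hy : ∀ a, ∃ b, g (P.y a) = P.y b) : (P.gl (gx hx))⁻¹ * g ∈ P.Fx := by
  have h0 : ∀ (h : E ≃ₗ[K] E) z, h⁻¹ (h z) = z := fun h z => LinearEquiv.symm_apply_apply h z
  have h1 : ∀ a, ((P.gl (gx hx))⁻¹ * g) (P.x a) = P.x a := by
    intro a
    change (P.gl (gx hx))⁻¹ (g (P.x a)) = P.x a
    rw [← x_gx hx, ← P.gl_x, h0]
  have hm : (P.gl (gx hx))⁻¹ * g ∈ IsoG Φ := (IsoG Φ).mul_mem ((IsoG Φ).inv_mem (P.gl_mem _)) hg
  refine ⟨hm, h1, fun a => ?_⟩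
  obtain ⟨b, hb⟩ := hy a
  have h2 : ((P.gl (gx hx))⁻¹ * g) (P.y a) = P.y (adjL Φ.θ (gx hx)⁻¹ b) := by
    change (P.gl (gx hx))⁻¹ (g (P.y a)) = _
    rw [hb, ← map_inv, P.gl_y]
  rw [h2]
  congr 1
  apply hh_ext_right Φ.θθ
  intro c
  rw [← P.xy, ← h2]
  conv_lhs => rw [← h1 c]
  rw [hm, P.xy]

variable (P)

/-- **The Levi subgroup.** -/
def MM : Subgroup (E ≃ₗ[K] E) where
  carrier := {g | g ∈ IsoG Φ ∧ (∀ a, ∃ b, g (P.x a) = P.x b) ∧ ∀ a, ∃ b, g (P.y a) = P.y b}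
  one_mem' := ⟨(IsoG Φ).one_mem, fun a => ⟨a, rfl⟩, fun a => ⟨a, rfl⟩⟩
  mul_mem' := by
    rintro u u' ⟨h1, h2, h3⟩ ⟨h1', h2', h3'⟩
    refine ⟨(IsoG Φ).mul_mem h1 h1', fun a => ?_, fun a => ?_⟩
    · obtain ⟨b, hb⟩ := h2' a
      obtain ⟨c, hc⟩ := h2 b
      exact ⟨c, by rw [← hc, ← hb]; rfl⟩
    · obtain ⟨b, hb⟩ := h3' a
      obtain ⟨c, hc⟩ := h3 b
      exact ⟨c, by rw [← hc, ← hb]; rfl⟩
  inv_mem' := by
    rintro u ⟨h1, h2, h3⟩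
    have hd := exists_levi h1 h2 h3
    have h4 : u⁻¹ = ((P.gl (gx h2))⁻¹ * u)⁻¹ * P.gl (gx h2)⁻¹ := by
      rw [map_inv]
      group
    refine ⟨(IsoG Φ).inv_mem h1, fun a => ?_, fun a => ?_⟩
    · rw [h4]
      refine ⟨(gx h2)⁻¹ a, ?_⟩
      change ((P.gl (gx h2))⁻¹ * u)⁻¹ (P.gl (gx h2)⁻¹ (P.x a)) = _
      rw [P.gl_x, (P.Fx.inv_mem hd).2.1]
    · rw [h4]
      refine ⟨adjL Φ.θ (gx h2)⁻¹ a, ?_⟩
      change ((P.gl (gx h2))⁻¹ * u)⁻¹ (P.gl (gx h2)⁻¹ (P.y a)) = _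
      rw [P.gl_y, (P.Fx.inv_mem hd).2.2]

variable {P}

theorem mem_MM {g : E ≃ₗ[K] E} : g ∈ MM P ↔ g ∈ IsoG Φ ∧ (∀ a, ∃ b, g (P.x a) = P.x b) ∧
    ∀ a, ∃ b, g (P.y a) = P.y b := Iff.rfl

theorem gl_mem_MM (g : (ι → K) ≃ₗ[K] (ι → K)) : P.gl g ∈ MM P :=
  ⟨P.gl_mem g, fun a => ⟨_, P.gl_x g a⟩, fun a => ⟨_, P.gl_y g a⟩⟩

theorem Fx_le_MM : P.Fx ≤ MM P := fun g hg =>
  ⟨hg.1, fun a => ⟨a, hg.2.1 a⟩, fun a => ⟨a, hg.2.2 a⟩⟩

/-- an element of the Levi subgroup is a product -/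
theorem exists_mul {g : E ≃ₗ[K] E} (hg : g ∈ MM P) :
    ∃ z : (ι → K) ≃ₗ[K] (ι → K), ∃ f ∈ P.Fx, g = P.gl z * f :=
  ⟨gx hg.2.1, _, exists_levi hg.1 hg.2.1 hg.2.2, by rw [mul_inv_cancel_left]⟩

theorem levi_mem_MM (z : ((ι → K) ≃ₗ[K] (ι → K)) × IsoG (res P)) : levi P z ∈ MM P :=
  (MM P).mul_mem (gl_mem_MM z.1) (Fx_le_MM (ext_mem P z.2.2))

theorem levi_range : (levi P).range = MM P := by
  apply le_antisymm
  · rintro _ ⟨z, rfl⟩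
    exact levi_mem_MM z
  · intro g hg
    obtain ⟨z, f, hf, rfl⟩ := exists_mul hg
    refine ⟨(z, ⟨rst ⟨f, hf⟩, rst_mem P ⟨f, hf⟩⟩), ?_⟩
    rw [levi_apply]
    congr 1
    exact ext_rst P ⟨f, hf⟩

/-- conjugation of the radical by an element of the Levi subgroup -/
theorem conj_UU_of_MM {g u : E ≃ₗ[K] E} (hg : g ∈ MM P) (hu : u ∈ P.UU) : g * u * g⁻¹ ∈ P.UU :=
  P.conj_UU hg.1 hg.2.1 ((MM P).inv_mem hg).2.1 hu

theorem MM_le_normalizer : MM P ≤ Subgroup.normalizer (P.UU : Set (E ≃ₗ[K] E)) := by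
  intro g hg
  rw [Subgroup.mem_normalizer_iff]
  intro u
  refine ⟨fun hu => conj_UU_of_MM hg hu, fun hu => ?_⟩
  have h := conj_UU_of_MM ((MM P).inv_mem hg) hu
  rw [inv_inv] at h
  have h1 : g⁻¹ * (g * u * g⁻¹) * g = u := by group
  rw [h1] at h
  exact h

/-- the Levi subgroup meets the radical trivially -/
theorem inf_MM_UU : MM P ⊓ P.UU = ⊥ := by
  rw [eq_bot_iff]
  rintro u ⟨h1, h2⟩
  have h3 : u ∈ P.Fx := by
    refine ⟨h1.1, h2.2.1, fun a => ?_⟩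
    obtain ⟨b, hb⟩ := h1.2.2 a
    rw [hb]
    congr 1
    apply hh_ext_right Φ.θθ
    intro c
    rw [← P.xy, ← P.xy, ← hb]
    conv_lhs => rw [← h2.2.1 c]
    exact h1.1 _ _
  rw [← P.inf_Fx_UU]
  exact ⟨h3, h2⟩

variable (P)

/-- **The Levi subgroup is a direct product.** -/
noncomputable def mmE : IsoG (res P) × ((ι → K) ≃ₗ[K] (ι → K)) ≃* MM P :=
  MulEquiv.ofBijective
    ({ toFun := fun z => ⟨ext P (z.1 : W P ≃ₗ[K] W P) * P.gl z.2,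
          (MM P).mul_mem (Fx_le_MM (ext_mem P z.1.2)) (gl_mem_MM z.2)⟩
       map_one' := by
        apply Subtype.ext
        change ext P ((1 : IsoG (res P)) : W P ≃ₗ[K] W P) * P.gl 1 = 1
        rw [map_one, OneMemClass.coe_one, map_one, one_mul]
       map_mul' := fun z z' => by
        apply Subtype.ext
        change ext P ((z.1 * z'.1 : IsoG (res P)) : W P ≃ₗ[K] W P) * P.gl (z.2 * z'.2) =
          (ext P (z.1 : W P ≃ₗ[K] W P) * P.gl z.2) * (ext P (z'.1 : W P ≃ₗ[K] W P) * P.gl z'.2)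
        rw [Subgroup.coe_mul, map_mul, map_mul, mul_assoc, mul_assoc]
        congr 1
        rw [← mul_assoc, ← mul_assoc, P.gl_comm (ext_mem P z'.1.2)] } :
      IsoG (res P) × ((ι → K) ≃ₗ[K] (ι → K)) →* MM P)
    (by
      constructor
      · intro z z' h
        have h1 := congrArg Subtype.val h
        change ext P (z.1 : W P ≃ₗ[K] W P) * P.gl z.2 =
          ext P (z'.1 : W P ≃ₗ[K] W P) * P.gl z'.2 at h1
        rw [← P.gl_comm (ext_mem P z.1.2), ← P.gl_comm (ext_mem P z'.1.2)] at h1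
        have h2 : (z.2, z.1) = (z'.2, z'.1) := levi_injective P h1
        exact Prod.ext (Prod.mk.inj h2).2 (Prod.mk.inj h2).1
      · rintro ⟨g, hg⟩
        obtain ⟨z, f, hf, rfl⟩ := exists_mul hg
        refine ⟨(⟨rst ⟨f, hf⟩, rst_mem P ⟨f, hf⟩⟩, z), ?_⟩
        apply Subtype.ext
        change ext P (rst ⟨f, hf⟩) * P.gl z = P.gl z * f
        rw [ext_rst, P.gl_comm hf])

theorem mmE_coe (z : IsoG (res P) × ((ι → K) ≃ₗ[K] (ι → K))) :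
    ((mmE P z : MM P) : E ≃ₗ[K] E) = ext P (z.1 : W P ≃ₗ[K] W P) * P.gl z.2 := rfl

theorem mmE_coe' (z : IsoG (res P) × ((ι → K) ≃ₗ[K] (ι → K))) :
    ((mmE P z : MM P) : E ≃ₗ[K] E) = ((fxEquiv P z.1 : P.Fx) : E ≃ₗ[K] E) * P.gl z.2 := rfl

end Res

end Vale.Agent.P180.H392
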