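import Vale.Agent.P180.H392.Def
import Vale.Agent.P180.R2.H47.SecDef

/-!
P180: definitions for the theorem on groups whose simple sections are of given types, with special
linear groups of unbounded dimension.
-/

namespace Vale.Agent.P180

open Vale.Agent.P180.R2.H365

/-- As `TameAll`, with `TameAct` or `LinUnb`. -/
def TameAllU (p n m : ℕ) (P : Type) [Group P] (T : Type) [Group T] : Prop :=
  ∀ (L : Type) [Group L] [Finite L], commutator L = ⊤ →
    Nonempty (L ⧸ Subgroup.center L ≃* T) → ∀ (Γ : Subgroup (MulAut L)) (A : Subgroup L),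
    IsSec P Γ → IsPGroup p A → Nat.card A ≤ n → ¬ A ≤ Subgroup.center L →
    (∀ x ∈ A, MulAut.conj x ∈ Γ) → TameAct p m L Γ A ∨ LinUnb p m L Γ A

/-- The simple group `T` is tame for `P`: `T` is covered as in `Covered`, where `c` says that `P` is
abelian or all the subgroups of `T` which are sections of `P` are elementary abelian, `e` that all
these subgroups have exponent `1` or `p`, and `s` that they have order less than `p ^ p`; or
`Out(T)` is solvable or of order at most `m`, and the `p`-subgroups of `T` are cyclic and `p` does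
not divide `|Out(T)|`, or `TameAllU` holds. -/
def TameTU (p n m : ℕ) (P : Type) [Group P] (T : Type) [Group T] : Prop :=
  Covered (AbS p P T) (ExpS p P T) (SmallS p P T) p n m T ∨
  (SmallOut m T ∧ (((∀ A : Subgroup T, IsPGroup p A → IsCyclic A) ∧
    ¬ p ∣ (MulAut.conj : T →* MulAut T).range.index) ∨ TameAllU p n m P T))

open Subgroup in
/-- The quasisimple subgroup `L` of `G` is as in `TameComp`, or `L`, the group of the automorphisms
of `L` induced by `N_D(L)`, and `D ∩ L` are as in `LinUnb`. -/
def TameCompU (p n m : ℕ) {G : Type} [Group G] (D L : Subgroup G) : Prop :=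
  TameComp p n m D L ∨ LinUnb p m L (Gam D L) (D.subgroupOf L)

/-- `G` has normal subgroups `N 0 ≤ N 1 ≤ ⋯ ≤ N l` with `D ≤ N l`, such that

(1) `N 0` is generated by pairwise commuting quasisimple subgroups `L j` (any number, possibly
none), each of which satisfies `TameCompU`;

(2) for `i < l`, all the nonabelian simple sections `T` of `N (i + 1) / N i` of order divisible by
`p` satisfy `TameTU` for the image `P` of `D` in `G / N i`. -/
def HasTameSectionsU (p n m : ℕ) {G : Type} [Group G] (D : Subgroup G) : Prop :=
  ∃ (l : ℕ) (N : ℕ → Subgroup G) (_ : ∀ i, (N i).Normal),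
    (∃ (r : ℕ) (L : Fin r → Subgroup G),
      (∀ i j, i ≠ j → ∀ x ∈ L i, ∀ y ∈ L j, x * y = y * x) ∧ N 0 = ⨆ j, L j ∧
      ∀ j, IsQuasisimple (L j) ∧ TameCompU p n m D (L j)) ∧ D ≤ N l ∧
    ∀ i < l, N i ≤ N (i + 1) ∧
      SecIn p (TameTU p n m (D.map (QuotientGroup.mk' (N i)))) (N i) (N (i + 1))

end Vale.Agent.P180
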