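import Vale.Agent.P180.H392.IndDef
import Vale.Agent.P180.H396.GeoC
import Vale.Agent.P180.H951.GlueA
import Vale.Agent.P180.H951.GlueB
import Vale.Agent.P180.H951.GlueP
import Vale.Agent.P180.H951.GLH

/-!
P180: the step, from the multiplicities.
-/

set_option linter.all false

namespace Vale.Agent.P180.H392

open Finset Module Vale.Agent.P180 Vale.Agent.P180.H768.Gd Vale.Agent.P180.R2.H471.Hc
  Vale.Agent.P180.R2.H854 Vale.Agent.P180.H393.Fm Vale.Agent.P180.H951 Res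
  Vale.Agent.P180.R2.H799 Vale.Agent.P180.R2.H954.Hc
open Vale.Agent.P180.H393 (IsIr IsCF ev)
open Vale.Agent.P180.H337

universe u

section

variable {K E : Type} [Field K] [AddCommGroup E] [Module K E] {Φ : HForm K E} {ι : Type}
  [Fintype ι] [DecidableEq ι]

/-- the radical in the isometry group -/
def UG (P : Hyp Φ ι) : Subgroup (IsoG Φ) := P.UU.subgroupOf (IsoG Φ)

/-- the Levi subgroup in the isometry group -/
def MG (P : Hyp Φ ι) : Subgroup (IsoG Φ) := (MM P).subgroupOf (IsoG Φ)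

theorem MM_le (P : Hyp Φ ι) : MM P ≤ IsoG Φ := fun _ hg => hg.1

theorem UU_le (P : Hyp Φ ι) : P.UU ≤ IsoG Φ := fun _ hg => hg.1

/-- the Levi subgroup of the isometry group is a direct product -/
noncomputable def mmG (P : Hyp Φ ι) : IsoG (res P) × ((ι → K) ≃ₗ[K] (ι → K)) ≃* MG P :=
  (mmE P).trans (Subgroup.subgroupOfEquivOfLe (MM_le P)).symm

theorem mmG_coe (P : Hyp Φ ι) (z : IsoG (res P) × ((ι → K) ≃ₗ[K] (ι → K))) :
    (((mmG P z : MG P) : IsoG Φ) : E ≃ₗ[K] E) = ext P (z.1 : W P ≃ₗ[K] W P) * P.gl z.2 := rfl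

theorem MG_le_normalizer (P : Hyp Φ ι) :
    MG P ≤ Subgroup.normalizer (UG P : Set (IsoG Φ)) := by
  intro g hg
  rw [Subgroup.mem_normalizer_iff]
  intro u
  exact Subgroup.mem_normalizer_iff.mp (MM_le_normalizer hg) (u : E ≃ₗ[K] E)

theorem centralizer_le {P : Hyp Φ ι} {Q : Subgroup (E ≃ₗ[K] E)} (hQ : Q ≤ IsoG Φ)
    (h : GoodHyp P Q) : Subgroup.centralizer ((Q.subgroupOf (IsoG Φ) : Subgroup (IsoG Φ)) :
      Set (IsoG Φ)) ≤ MG P := by
  intro g hg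
  refine h.cent g g.2 fun q hq => ?_
  have h1 := Subgroup.mem_centralizer_iff.mp hg ⟨q, hQ hq⟩ hq
  exact (congrArg (fun z : IsoG Φ => (z : E ≃ₗ[K] E)) h1).symm

theorem inf_centralizer {P : Hyp Φ ι} {Q : Subgroup (E ≃ₗ[K] E)} (hQ : Q ≤ IsoG Φ)
    (h : GoodHyp P Q) : UG P ⊓ Subgroup.centralizer ((Q.subgroupOf (IsoG Φ) :
      Subgroup (IsoG Φ)) : Set (IsoG Φ)) = ⊥ := by
  rw [eq_bot_iff]
  rintro g ⟨hu, hg⟩
  rw [Subgroup.mem_bot]
  apply Subtype.ext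
  refine h.triv g hu fun q hq => ?_
  have h1 := Subgroup.mem_centralizer_iff.mp hg ⟨q, hQ hq⟩ hq
  exact (congrArg (fun z : IsoG Φ => (z : E ≃ₗ[K] E)) h1).symm

theorem map_mmG (P : Hyp Φ ι) (Q : Subgroup (E ≃ₗ[K] E)) :
    ((Q.subgroupOf (MM P)).map (mmE P).symm.toMonoidHom).map (mmG P).toMonoidHom =
      (Q.subgroupOf (IsoG Φ)).subgroupOf (MG P) := by
  ext x
  constructor
  · rintro ⟨_, ⟨y, hy, rfl⟩, rfl⟩
    have h1 : (((mmG P ((mmE P).symm y) : MG P) : IsoG Φ) : E ≃ₗ[K] E) = y := by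
      have h2 := mmE_coe P ((mmE P).symm y)
      rw [MulEquiv.apply_symm_apply] at h2
      exact h2.symm
    change (((mmG P ((mmE P).symm y) : MG P) : IsoG Φ) : E ≃ₗ[K] E) ∈ Q
    rw [h1]
    exact hy
  · intro hx
    have hx' : (((x : MG P) : IsoG Φ) : E ≃ₗ[K] E) ∈ Q := hx
    refine ⟨(mmG P).symm x, ⟨mmE P ((mmG P).symm x), ?_, (mmE P).symm_apply_apply _⟩,
      (mmG P).apply_symm_apply x⟩
    have h1 : ((mmE P ((mmG P).symm x) : MM P) : E ≃ₗ[K] E) =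
        (((mmG P ((mmG P).symm x) : MG P) : IsoG Φ) : E ≃ₗ[K] E) := rfl
    change ((mmE P ((mmG P).symm x) : MM P) : E ≃ₗ[K] E) ∈ Q
    rw [h1, MulEquiv.apply_symm_apply]
    exact hx'

end

section

variable {k : Type u} [Field k] [IsAlgClosed k] {p : ℕ} [Fact p.Prime] [CharP k p]
  {K E : Type} [Field K] [Finite K] [AddCommGroup E] [Module K E] [FiniteDimensional K E]
  [Finite (E ≃ₗ[K] E)] {Φ : HForm K E} {ι : Type} [Fintype ι] [DecidableEq ι]

/-- the Levi subgroup -/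
theorem oneBd_MG (P : Hyp Φ ι) [Finite (W P ≃ₗ[K] W P)] {Q : Subgroup (E ≃ₗ[K] E)}
    (hpK : ¬ p ∣ Nat.card K) (hQI : Q ≤ IsoG Φ) (hQ : IsPGroup p Q) {n : ℕ}
    (hQn : Nat.card Q ≤ n) (hab : ∀ x ∈ Q, ∀ y ∈ Q, x * y = y * x) {B : ℕ}
    (hB : OneBd k (QC P Q) B) :
    OneBd k ((Q.subgroupOf (IsoG Φ)).subgroupOf (MG P)) (B * glC p n) := by
  have hf : Finite ((ι → K) ≃ₗ[K] (ι → K)) :=
    Finite.of_injective (fun g : (ι → K) ≃ₗ[K] (ι → K) => (g : (ι → K) → (ι → K)))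
      DFunLike.coe_injective
  set R := (Q.subgroupOf (MM P)).map (mmE P).symm.toMonoidHom with hR
  have hQ1 : IsPGroup p (Q.subgroupOf (MM P)) :=
    hQ.comap_of_injective (MM P).subtype Subtype.coe_injective
  have hRp : IsPGroup p R := hQ1.map _
  have hRc : Nat.card R ≤ n := by
    have h1 : Nat.card R = Nat.card (Q.subgroupOf (MM P)) :=
      Subgroup.card_map_of_injective (mmE P).symm.injective
    have h2 : Nat.card (Q.subgroupOf (MM P)) ≤ Nat.card Q :=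
      Nat.card_le_card_of_injective (fun x : Q.subgroupOf (MM P) => (⟨(x : MM P), x.2⟩ : Q))
        fun x y h => Subtype.ext (Subtype.ext (congrArg (fun z : Q => (z : E ≃ₗ[K] E)) h))
    omega
  have hRab : ∀ x ∈ R, ∀ y ∈ R, x * y = y * x := by
    rintro _ ⟨x, hx, rfl⟩ _ ⟨y, hy, rfl⟩
    rw [← map_mul, ← map_mul]
    congr 1
    exact Subtype.ext (hab x hx y hy)
  have hA : OneBd k (R.map (MonoidHom.fst _ _)) B := hB
  have hG : OneBd k (R.map (MonoidHom.snd (IsoG (res P)) ((ι → K) ≃ₗ[K] (ι → K)))) (glC p n) := by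
    refine oneBd_glb (p := p) hpK (hRp.map _) ?_ ?_
    · exact (Nat.card_le_card_of_surjective _
        ((MonoidHom.snd (IsoG (res P)) ((ι → K) ≃ₗ[K] (ι → K))).subgroupMap_surjective R)).trans hRc
    · rintro _ ⟨x, hx, rfl⟩ _ ⟨y, hy, rfl⟩
      rw [← map_mul, ← map_mul, hRab x hx y hy]
  have h3 := oneBd_prod hRp hA hG
  exact R2.H259.Iso.oneBd_tr (mmG P).toMonoidHom (mmG P).surjective
    (fun x hx => (mmG P).injective (by rw [map_one]; exact hx)) hRp (map_mmG P Q) h3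

end

/-- **What remains for the step**: the multiplicities for one test idempotent. -/
def StepT (T : ℕ → ℕ → ℕ) : Prop :=
  ∀ (p n : ℕ) [Fact p.Prime] (k : Type u) [Field k] [IsAlgClosed k] [CharP k p] (K : Type)
    [Field K] [Finite K] (E : Type) [AddCommGroup E] [Module K E] [FiniteDimensional K E]
    [Finite (E ≃ₗ[K] E)] (Φ : HForm K E) (ι : Type) [Fintype ι] [DecidableEq ι] (P : Hyp Φ ι)
    [Finite (W P ≃ₗ[K] W P)] [Fintype (IsoG Φ)] [Fintype (IsoG (res P))]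
    [Fintype ((ι → K) ≃ₗ[K] (ι → K))] [Fintype (UG P)] [Fintype (MG P)] [CharZero (KK k p)]
    (Q : Subgroup (E ≃ₗ[K] E)), FormOk p Φ → Q ≤ IsoG Φ → IsPGroup p Q →
    Nat.card Q ≤ n → (∀ x ∈ Q, ∀ y ∈ Q, x * y = y * x) → GoodHyp P Q →
    ∀ (f z j : MonoidAlgebra k (IsoG Φ)) (J : MonoidAlgebra (WittVector p k) (IsoG Φ)),
      IsBlockOf (MG P) f → z ∈ SubAlg k (MG P) →
      z ∈ Fix (cj k (IsoG Φ)) (Q.subgroupOf (IsoG Φ)) →
      f = tr (cj k (IsoG Φ)) (Q.subgroupOf (IsoG Φ)) (MG P) z →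
      br (Q.subgroupOf (IsoG Φ)) f ≠ 0 → f * j = j → j ∈ SubAlg k (MG P) → J * J = J →
      (∀ x, J.coeff x ≠ 0 → x ∈ MG P) →
      MonoidAlgebra.mapRingHom (IsoG Φ) (WittVector.constantCoeff (p := p) (R := k)) J = j →
      ∀ χ : IsoG Φ → KK k p, IsIr (KK k p) (IsoG Φ) χ →
      ∀ (ψ : IrK (KK k p) (IsoG (res P))) (σ : IrK (KK k p) ((ι → K) ≃ₗ[K] (ι → K))),
        ev (eIr (KK k p) (mmG P) (ψ, σ)).1
          (rs (MG P) (MonoidAlgebra.mapRingHom (IsoG Φ) (toKK k p) J)) ≠ 0 →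
        ∃ (e : MonoidAlgebra (KK k p) ((ι → K) ≃ₗ[K] (ι → K)))
          (n' : IrK (KK k p) (IsoG (res P)) → ℕ), e * e = e ∧ ev σ.1 e ≠ 0 ∧
          (∀ ψ, n' ψ ≤ T p n) ∧ ∀ x : MonoidAlgebra (KK k p) (IsoG (res P)),
            ev χ (BN.av (KK k p) (UG P) * (iA (KK k p) (mmG P) x * iB (KK k p) (mmG P) e)) =
              ∑ ψ, (n' ψ : KK k p) * ev ψ.1 x

/-- **The step**, from the multiplicities. -/
theorem stepStmt_of {T : ℕ → ℕ → ℕ} (hT : StepT.{u} T) :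
    StepStmt.{u} (fun p n B => n ^ 2 * (T p n * (B * glC p n)) ^ 2) := by
  classical
  intro p n _ k _ _ _ K _ _ E _ _ _ _ Φ ι _ _ P _ Q hΦ hQI hQ hQn hab hG B hB
  have hp : p.Prime := Fact.out
  have hch : CharZero (KK k p) := charZero_KK k p
  have hE : Finite E := Module.finite_of_finite K
  have hf : Finite ((ι → K) ≃ₗ[K] (ι → K)) :=
    Finite.of_injective (fun g : (ι → K) ≃ₗ[K] (ι → K) => (g : (ι → K) → (ι → K)))
      DFunLike.coe_injective
  have _ := Fintype.ofFinite (IsoG Φ)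
  have _ := Fintype.ofFinite (IsoG (res P))
  have _ := Fintype.ofFinite ((ι → K) ≃ₗ[K] (ι → K))
  have _ := Fintype.ofFinite (UG P)
  have _ := Fintype.ofFinite (MG P)
  have hQ' : IsPGroup p (Q.subgroupOf (IsoG Φ)) :=
    hQ.comap_of_injective (IsoG Φ).subtype Subtype.coe_injective
  have hcQ : Nat.card (Q.subgroupOf (IsoG Φ)) = Nat.card Q :=
    Nat.card_congr (Subgroup.subgroupOfEquivOfLe hQI).toEquiv
  have hcU : Nat.card (UG P) = Nat.card P.UU :=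
    Nat.card_congr (Subgroup.subgroupOfEquivOfLe (UU_le P)).toEquiv
  have hpU : ¬ p ∣ Nat.card (UG P) := by
    rw [hcU]
    exact H396.not_dvd_card_UU (P := P) hp hΦ.2.1
  have h1 := oneBd_par (k := k) (p := p) (T := T p n) hpU (MG_le_normalizer P) hQ'
    (fun x hx => hG.le hx) (centralizer_le hQI hG) (inf_centralizer hQI hG)
    (fun x hx y hy => Subtype.ext (hab x hx y hy)) (oneBd_MG P hΦ.2.1 hQI hQ hQn hab hB)
    (fun f z j J hf hz hzF hfz hbr hfj hj hJJ hJM hJj χ hχ => by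
      have hJ : MonoidAlgebra.mapRingHom (IsoG Φ) (toKK k p) J ∈ SubAlg (KK k p) (MG P) := by
        intro x hx
        apply hJM
        intro h0
        apply hx
        rw [MonoidAlgebra.coeff_mapRingHom, h0, map_zero]
      refine mult_le hχ (MG_le_normalizer P) (mmG P) hJ (by rw [← map_mul, hJJ]) ?_
      exact hT p n k K E Φ ι P Q hΦ hQI hQ hQn hab hG f z j J hf hz hzF hfz hbr hfj hj hJJ hJM hJj
        χ hχ)
  rw [hcQ] at h1
  refine R2.H799.BG.oneBd_mono h1 ?_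
  exact Nat.mul_le_mul_right _ (Nat.pow_le_pow_left hQn 2)

end Vale.Agent.P180.H392
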